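import Vale.Agent.P002.Bd.Jordan
import Vale.Agent.P002.Torus

/-!
# P002: representatives of quasi-unipotent classes and an integral base point
-/

namespace Vale.Agent.P002.Bd

open Matrix

variable {r : ℕ}

/-- The ring `ℤ[√2, ζ]` for a root of unity `ζ` of order `M`. -/
noncomputable def RM (M : ℕ) : Subring ℂ := Subring.closure
  {((Real.sqrt 2 : ℝ) : ℂ), Complex.exp (2 * Real.pi * Complex.I / (M : ℕ))}

theorem root_mem_RM {M : ℕ} (hM : 0 < M) {z : ℂ} (hz : z ^ M = 1) : z ∈ RM M := by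
  have : NeZero M := ⟨hM.ne'⟩
  obtain ⟨i, -, hi⟩ := (Complex.isPrimitiveRoot_exp M hM.ne').eq_pow_of_pow_eq_one hz
  rw [← hi]
  exact pow_mem (Subring.subset_closure (Set.mem_insert_of_mem _ (Set.mem_singleton _))) i

theorem unitP_mem_RM (M : ℕ) : unitP ∈ RM M ∧ unitQ ∈ RM M := by
  have h : ((Real.sqrt 2 : ℝ) : ℂ) ∈ RM M := Subring.subset_closure (Set.mem_insert _ _)
  exact ⟨add_mem (one_mem _) h, sub_mem h (one_mem _)⟩

/-- A permutation whose orbits have product one and distinct partial products. -/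
theorem exists_cycles (D : Fin r → ℂ) {M : ℕ} (hD : ∀ a, D a ^ M = 1) :
    ∀ S : Finset (Fin r), ∏ a ∈ S, D a = 1 →
      ∃ (π : Equiv.Perm (Fin r)) (q : Fin r → ℂ) (b : Fin r → ℕ),
        (∀ a ∉ S, π a = a) ∧ (∀ a, q a ^ M = 1) ∧
        (∀ a ∈ S, b (π a) = b a ∧ q (π a) = D a * q a) ∧
        ∀ a ∈ S, ∀ a' ∈ S, b a = b a' → q a = q a' → a = a' := by
  classical
  intro S
  induction S using Finset.strongInduction with
  | H S ih =>
    intro hS
    rcases S.eq_empty_or_nonempty with rfl | hne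
    · exact ⟨1, fun _ => 1, fun _ => 0, by simp, by simp, by simp, by simp⟩
    have hex : ∃ n, ∃ A : Finset (Fin r), A ⊆ S ∧ A.Nonempty ∧ (∏ a ∈ A, D a = 1) ∧ A.card = n :=
      ⟨_, S, subset_rfl, hne, hS, rfl⟩
    obtain ⟨A, hAS, hAne, hA, hAn⟩ := Nat.find_spec hex
    have hmin : ∀ B ⊆ A, B.Nonempty → ∏ a ∈ B, D a = 1 → B = A := fun B hB hBne hB1 =>
      Finset.eq_of_subset_of_card_le hB
        (hAn.le.trans (Nat.find_min' hex ⟨B, hB.trans hAS, hBne, hB1, rfl⟩))
    have hrest : ∏ a ∈ S \ A, D a = 1 := by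
      have h := Finset.prod_sdiff (f := D) hAS
      rwa [hA, mul_one, hS] at h
    obtain ⟨π, q, b, hπ, hq, hstep, hinj⟩ :=
      ih (S \ A) (Finset.sdiff_ssubset hAS hAne) hrest
    obtain ⟨m, hm⟩ : ∃ m, A.card = m + 1 := ⟨A.card - 1, by have := hAne.card_pos; omega⟩
    let σ : Fin (m + 1) ≃ {a // a ∈ A} := (A.equivFinOfCardEq hm).symm
    let f : Fin (m + 1) → ℂ := fun k => D (σ k)
    let part : Fin (m + 1) → ℂ := fun k => ∏ j ∈ Finset.Iio k, f j
    let ρ : Equiv.Perm {a // a ∈ A} := (σ.symm.trans (finRotate (m + 1))).trans σ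
    have hρ : ∀ k, ρ (σ k) = σ (finRotate (m + 1) k) := fun k => by simp [ρ]
    have hfprod : ∏ k, f k = 1 := by
      rw [← hA, ← Finset.prod_coe_sort A D]
      exact σ.prod_comp (fun a : {a // a ∈ A} => D a)
    have hpart : ∀ k, part (finRotate (m + 1) k) = f k * part k := by
      intro k
      induction k using Fin.lastCases with
      | last =>
        have e1 : part (finRotate (m + 1) (Fin.last m)) = 1 := by
          rw [finRotate_last]
          refine Finset.prod_eq_one fun j hj => ?_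
          simp at hj
        rw [e1, ← hfprod, Fin.prod_univ_castSucc, mul_comm]
        congr 1
        show _ = ∏ j ∈ Finset.Iio (Fin.last m), f j
        rw [Fin.Iio_last_eq_map, Finset.prod_map]
        rfl
      | cast k =>
        show ∏ j ∈ Finset.Iio _, f j = _
        have : Finset.Iio (finRotate (m + 1) k.castSucc) =
            insert k.castSucc (Finset.Iio k.castSucc) := by
          ext j
          have : (finRotate (m + 1) k.castSucc : ℕ) = k + 1 :=
            coe_finRotate_of_ne_last (Fin.castSucc_ne_last k)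
          simp only [Finset.mem_Iio, Finset.mem_insert, Fin.lt_def, Fin.ext_iff, this,
            Fin.val_castSucc]
          omega
        rw [this, Finset.prod_insert (by simp)]
    have hdist : ∀ k k', k < k' → part k ≠ part k' := by
      intro k k' hkk e
      have hsplit : part k' = part k * ∏ j ∈ Finset.Ico k k', f j := by
        show ∏ j ∈ Finset.Iio k', f j = (∏ j ∈ Finset.Iio k, f j) * _
        rw [← Finset.prod_union (by
          rw [Finset.disjoint_left]
          intro j h1 h2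
          simp only [Finset.mem_Iio, Finset.mem_Ico] at h1 h2
          exact absurd h1 (not_lt.2 h2.1))]
        congr 1
        ext j
        simp only [Finset.mem_Iio, Finset.mem_union, Finset.mem_Ico]
        constructor
        · intro h
          rcases lt_or_ge j k with h1 | h1
          · exact Or.inl h1
          · exact Or.inr ⟨h1, h⟩
        · rintro (h | ⟨-, h⟩)
          · exact h.trans hkk
          · exact h
      have hp0 : part k ≠ 0 := Finset.prod_ne_zero_iff.2 fun j _ h0 => by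
        have h := hfprod
        rw [Finset.prod_eq_zero (Finset.mem_univ j) h0] at h
        exact zero_ne_one h
      have h1 : ∏ j ∈ Finset.Ico k k', f j = 1 :=
        mul_left_cancel₀ hp0 (by rw [← hsplit, ← e, mul_one])
      let B := (Finset.Ico k k').map (σ.toEmbedding.trans (Function.Embedding.subtype _))
      have hBA : B = A := hmin B (fun a ha => by
        obtain ⟨j, -, rfl⟩ := Finset.mem_map.1 ha
        exact (σ j).2) (Finset.Nonempty.map (Finset.nonempty_Ico.2 hkk))
        (by rw [Finset.prod_map]; exact h1)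
      have h2 : k' ∈ Finset.Ico k k' := by
        have hmem : (σ k' : Fin r) ∈ B := by rw [hBA]; exact (σ k').2
        obtain ⟨j, hj, he⟩ := Finset.mem_map.1 hmem
        have : j = k' := σ.injective (Subtype.ext he)
        exact this ▸ hj
      simp at h2
    have hfM : ∀ k, part k ^ M = 1 := fun k => by
      rw [← Finset.prod_pow]
      exact Finset.prod_eq_one fun j _ => hD _
    let q' : Fin r → ℂ := fun a => if h : a ∈ A then part (σ.symm ⟨a, h⟩) else q a
    let b' : Fin r → ℕ := fun a => if a ∈ A then 0 else b a + 1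
    let π' : Equiv.Perm (Fin r) := Equiv.Perm.ofSubtype ρ * π
    have hπA : ∀ a ∈ A, π a = a := fun a ha => hπ a (by simp [ha])
    have hin : ∀ a (h : a ∈ A), π' a = ρ ⟨a, h⟩ := fun a h => by
      simp only [π', Equiv.Perm.mul_apply, hπA a h]
      exact Equiv.Perm.ofSubtype_apply_of_mem ρ h
    have hout : ∀ a ∉ A, π' a = π a ∧ π a ∉ A := by
      intro a ha
      have h1 : π a ∉ A := fun h => ha ((π.injective (hπA _ h)) ▸ h)
      exact ⟨by simp only [π', Equiv.Perm.mul_apply]; exact Equiv.Perm.ofSubtype_apply_of_not_mem ρ h1,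
        h1⟩
    refine ⟨π', q', b', fun a ha => ?_, fun a => ?_, fun a ha => ?_, ?_⟩
    · have h1 : a ∉ A := fun h => ha (hAS h)
      rw [(hout a h1).1, hπ a (by simp [ha])]
    · simp only [q']; split_ifs
      exacts [hfM _, hq a]
    · by_cases h : a ∈ A
      · obtain ⟨k, hk⟩ := σ.surjective ⟨a, h⟩
        obtain rfl : (σ k : Fin r) = a := congrArg Subtype.val hk
        rw [hin _ h, show (⟨(σ k : Fin r), h⟩ : {a // a ∈ A}) = σ k from rfl, hρ]
        simp only [b', q', (σ _).2, if_true, dif_pos, Subtype.coe_eta, Equiv.symm_apply_apply,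
          true_and]
        exact hpart k
      · obtain ⟨e1, e2⟩ := hout a h
        obtain ⟨f1, f2⟩ := hstep a (by simp [ha, h])
        simp only [e1, b', q', e2, h, if_false, dif_neg, not_false_eq_true, f1, f2, and_self]
    · intro a ha a' ha' hb hq'
      by_cases h : a ∈ A <;> by_cases h' : a' ∈ A <;> simp [b', h, h'] at hb
      · simp only [q', dif_pos h, dif_pos h'] at hq'
        rcases lt_trichotomy (σ.symm ⟨a, h⟩) (σ.symm ⟨a', h'⟩) with hlt | heq | hlt
        · exact absurd hq' (hdist _ _ hlt)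
        · exact congrArg Subtype.val (σ.symm.injective heq)
        · exact absurd hq'.symm (hdist _ _ hlt)
      · simp only [q', dif_neg h, dif_neg h'] at hq'
        exact hinj a (by simp [ha, h]) a' (by simp [ha', h']) hb hq'

/-- Upper triangular, diagonal `d`, the entries above it multiples of `N`. -/
def Tri (R : Subring ℂ) (N : ℂ) (d : Fin r → ℂ) (T : Matrix (Fin r) (Fin r) ℂ) : Prop :=
  (∀ a b, b < a → T a b = 0) ∧ (∀ a, T a a = d a) ∧ ∀ a b, a < b → ∃ x ∈ R, T a b = N * x

theorem Tri.mul {R : Subring ℂ} {N : ℂ} (hN : N ∈ R) {d d' : Fin r → ℂ} (hd : ∀ a, d a ∈ R)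
    (hd' : ∀ a, d' a ∈ R) {T T' : Matrix (Fin r) (Fin r) ℂ} (h : Tri R N d T)
    (h' : Tri R N d' T') : Tri R N (d * d') (T * T') := by
  refine ⟨fun a b hab => ?_, fun a => ?_, fun a b hab => ?_⟩
  · rw [Matrix.mul_apply]
    refine Finset.sum_eq_zero fun c _ => ?_
    rcases lt_or_ge c a with hc | hc
    · rw [h.1 a c hc, zero_mul]
    · rw [h'.1 c b (hab.trans_le hc), mul_zero]
  · rw [Matrix.mul_apply, Finset.sum_eq_single a (fun c _ hc => ?_) (by simp), h.2.1, h'.2.1]
    · rfl
    · rcases hc.lt_or_gt with hc | hc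
      · rw [h.1 a c hc, zero_mul]
      · rw [h'.1 c a hc, mul_zero]
  · have hc : ∀ c, ∃ x ∈ R, T a c * T' c b = N * x := by
      intro c
      rcases lt_trichotomy c a with hc | rfl | hc
      · exact ⟨0, zero_mem _, by rw [h.1 a c hc, zero_mul, mul_zero]⟩
      · obtain ⟨x, hx, e⟩ := h'.2.2 c b hab
        exact ⟨d c * x, mul_mem (hd c) hx, by rw [h.2.1, e]; ring⟩
      · obtain ⟨x, hx, e⟩ := h.2.2 a c hc
        rcases lt_trichotomy c b with hb | rfl | hb
        · obtain ⟨y, hy, e'⟩ := h'.2.2 c b hb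
          exact ⟨x * (N * y), mul_mem hx (mul_mem hN hy), by rw [e, e']; ring⟩
        · exact ⟨x * d' c, mul_mem hx (hd' c), by rw [e, h'.2.1]; ring⟩
        · exact ⟨0, zero_mem _, by rw [h'.1 c b hb, mul_zero, mul_zero]⟩
    choose x hx he using hc
    exact ⟨∑ c, x c, sum_mem fun c _ => hx c, by rw [Matrix.mul_apply, Finset.mul_sum]; simp [he]⟩

theorem tri_prod {R : Subring ℂ} {N : ℂ} (hN : N ∈ R) : ∀ {s : ℕ} {d : Fin s → Fin r → ℂ}
    {T : Fin s → Matrix (Fin r) (Fin r) ℂ}, (∀ i a, d i a ∈ R) → (∀ i, Tri R N (d i) (T i)) →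
      Tri R N (fun a => ∏ i, d i a) (List.ofFn T).prod
  | 0, d, T, _, _ => ⟨fun a b h => by simp [h.ne'], fun a => by simp,
      fun a b h => ⟨0, zero_mem _, by simp [h.ne]⟩⟩
  | s + 1, d, T, hd, hT => by
    have h := (hT 0).mul hN (hd 0) (fun a => prod_mem fun i _ => hd i.succ a)
      (tri_prod hN (fun i => hd i.succ) fun i => hT i.succ)
    rw [List.ofFn_succ, List.prod_cons]
    convert h using 1
    funext a
    rw [Fin.prod_univ_succ]
    rfl

/-- A unitriangular matrix diagonalising an upper triangular one over the ring. -/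
theorem exists_unitri {R : Subring ℂ} {N : ℂ} {m : Fin r → ℂ} (hm : Function.Injective m)
    (hdiv : ∀ a b, a ≠ b → N / (m b - m a) ∈ R) {T : Matrix (Fin r) (Fin r) ℂ}
    (hT : Tri R N m T) :
    ∃ α : Matrix (Fin r) (Fin r) ℂ, α.det = 1 ∧ (∀ a b, α a b ∈ R) ∧
      (∀ a b, b < a → α a b = 0) ∧ (∀ a, α a a = 1) ∧ T * α = α * diagonal m := by
  have key : ∀ k : ℕ, ∃ α : Matrix (Fin r) (Fin r) ℂ, (∀ a b, b < a → α a b = 0) ∧
      (∀ a, α a a = 1) ∧ (∀ a b, α a b ∈ R) ∧
      ∀ a b : Fin r, a < b → b.1 < a.1 + k →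
        (m b - m a) * α a b = ∑ c ∈ Finset.Ioi a, T a c * α c b := by
    intro k
    induction k with
    | zero =>
      exact ⟨1, fun a b h => by simp [h.ne'], fun a => by simp,
        fun a b => by rw [one_apply]; split_ifs <;> simp [zero_mem, one_mem],
        fun a b h h' => absurd h' (by have : a.1 < b.1 := h; omega)⟩
    | succ k ih =>
      obtain ⟨α, h0, h1, hR, heq⟩ := ih
      let α' : Matrix (Fin r) (Fin r) ℂ := of fun a b => if a < b then
        (∑ c ∈ Finset.Ioi a, T a c * α c b) / (m b - m a) else α a b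
      have hsame : ∀ a b : Fin r, (a < b → b.1 < a.1 + k) → α' a b = α a b := by
        intro a b h
        simp only [α', of_apply]
        split_ifs with hab
        · rw [← heq a b hab (h hab), mul_div_cancel_left₀ _ (sub_ne_zero.2 fun e => hab.ne' (hm e))]
        · rfl
      refine ⟨α', fun a b h => ?_, fun a => ?_, fun a b => ?_, fun a b hab hk => ?_⟩
      · simp [α', not_lt.2 h.le, h0 a b h]
      · simp [α', h1]
      · simp only [α', of_apply]
        split_ifs with hab
        · rw [Finset.sum_div]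
          refine sum_mem fun c hc => ?_
          obtain ⟨x, hx, e⟩ := hT.2.2 a c (Finset.mem_Ioi.1 hc)
          rw [e, show N * x * α c b / (m b - m a) = N / (m b - m a) * (x * α c b) by ring]
          exact mul_mem (hdiv a b hab.ne) (mul_mem hx (hR c b))
        · exact hR a b
      · rw [show α' a b = (∑ c ∈ Finset.Ioi a, T a c * α c b) / (m b - m a) by simp [α', hab],
          mul_div_cancel₀ _ (sub_ne_zero.2 fun e => hab.ne' (hm e))]
        refine Finset.sum_congr rfl fun c hc => ?_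
        rw [hsame c b fun hcb => by
          have h := Finset.mem_Ioi.1 hc
          rw [Fin.lt_def] at h
          omega]
  obtain ⟨α, h0, h1, hR, heq⟩ := key r
  refine ⟨α, ?_, hR, h0, h1, ?_⟩
  · rw [det_of_isUpperTriangular fun a b h => h0 a b h]
    simp [h1]
  · ext a b
    rw [Matrix.mul_apply, mul_diagonal]
    rw [← Finset.sum_filter_add_sum_filter_not Finset.univ (fun c => a < c),
      Finset.filter_lt_eq_Ioi]
    have hrest : ∑ c ∈ Finset.univ.filter (fun c => ¬ a < c), T a c * α c b = m a * α a b := by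
      rw [Finset.sum_eq_single a (fun c hc hca => by
        have : c < a := lt_of_le_of_ne (not_lt.1 (Finset.mem_filter.1 hc).2) hca
        rw [hT.1 a c this, zero_mul]) (by simp), hT.2.1]
    rw [hrest]
    rcases lt_trichotomy a b with h | rfl | h
    · rw [← heq a b h (by omega)]; ring
    · rw [Finset.sum_eq_zero fun c hc => by rw [h0 c a (Finset.mem_Ioi.1 hc), mul_zero], zero_add,
        mul_comm]
    · rw [Finset.sum_eq_zero fun c hc => by rw [h0 c b (h.trans (Finset.mem_Ioi.1 hc)), mul_zero],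
        h0 a b h]
      ring

theorem tri_bidiag {R : Subring ℂ} (N : ℂ) (d : Fin r → ℂ) {ε : Fin r → ℂ}
    (hε : ∀ a, ε a = 0 ∨ ε a = 1) : Tri R N d (bidiag d (N • ε)) := by
  refine ⟨fun a b h => ?_, fun a => by simp [bidiag], fun a b h => ?_⟩
  · have : b.1 < a.1 := h
    simp only [bidiag, of_apply, if_neg h.ne', if_neg (show ¬ b.1 = a.1 + 1 by omega)]
  · simp only [bidiag, of_apply, if_neg h.ne]
    split_ifs
    · refine ⟨ε a, ?_, by simp⟩
      rcases hε a with e | e <;> simp [e, zero_mem, one_mem]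
    · exact ⟨0, zero_mem _, by simp⟩

/-- The entries `k` steps above the diagonal multiplied by `τ ^ k`, those below erased. -/
def scl (τ : ℂ) (M : Matrix (Fin r) (Fin r) ℂ) : Matrix (Fin r) (Fin r) ℂ :=
  of fun a b => if a ≤ b then M a b * τ ^ (b.1 - a.1) else 0

theorem scl_mul (τ : ℂ) {A B : Matrix (Fin r) (Fin r) ℂ} (hA : ∀ a b, b < a → A a b = 0)
    (hB : ∀ a b, b < a → B a b = 0) : scl τ (A * B) = scl τ A * scl τ B := by
  ext a b
  simp only [scl, of_apply, Matrix.mul_apply]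
  split_ifs with hab
  · rw [Finset.sum_mul]
    refine Finset.sum_congr rfl fun c _ => ?_
    by_cases h1 : a ≤ c
    · by_cases h2 : c ≤ b
      · rw [if_pos h1, if_pos h2, Fin.le_def] at *
        rw [show b.1 - a.1 = (c.1 - a.1) + (b.1 - c.1) by omega, pow_add]
        ring
      · rw [if_neg h2, mul_zero, hB c b (not_le.1 h2), mul_zero, zero_mul]
    · rw [if_neg h1, zero_mul, hA a c (not_le.1 h1), zero_mul, zero_mul]
  · refine (Finset.sum_eq_zero fun c _ => ?_).symm
    by_cases h1 : a ≤ c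
    · rw [if_neg (fun h2 => hab (h1.trans h2)) (c := c ≤ b), mul_zero]
    · rw [if_neg h1, zero_mul]

theorem scl_one (τ : ℂ) : scl τ (1 : Matrix (Fin r) (Fin r) ℂ) = 1 := by
  ext a b
  simp only [scl, of_apply]
  by_cases h : a = b
  · subst h; simp
  · simp [one_apply_ne h]

theorem scl_diagonal (τ : ℂ) (v : Fin r → ℂ) : scl τ (diagonal v) = diagonal v := by
  ext a b
  simp only [scl, of_apply]
  by_cases h : a = b
  · subst h; simp
  · simp [diagonal_apply_ne v h]

theorem scl_bidiag (τ N : ℂ) (d ε : Fin r → ℂ) :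
    scl τ (bidiag d (N • ε)) = bidiag d ((τ * N) • ε) := by
  ext a b
  simp only [scl, bidiag, of_apply, Pi.smul_apply, smul_eq_mul]
  by_cases h : b = a
  · subst h; simp
  by_cases h' : b.1 = a.1 + 1
  · rw [if_pos (by rw [Fin.le_def]; omega : a ≤ b)]
    simp only [if_neg (Ne.symm h), if_pos h']
    rw [show b.1 - a.1 = 1 by omega]
    ring
  · simp [Ne.symm h, h']

theorem scl_prod (τ : ℂ) : ∀ {s : ℕ} {T : Fin s → Matrix (Fin r) (Fin r) ℂ},
    (∀ i a b, b < a → T i a b = 0) →
      (∀ a b, b < a → (List.ofFn T).prod a b = 0) ∧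
        scl τ (List.ofFn T).prod = (List.ofFn fun i => scl τ (T i)).prod
  | 0, T, _ => ⟨fun a b h => by simp [h.ne'], by simpa using scl_one τ⟩
  | s + 1, T, hT => by
    obtain ⟨h1, h2⟩ := scl_prod τ (T := fun i : Fin s => T i.succ) fun i => hT i.succ
    simp only [List.ofFn_succ, List.prod_cons]
    refine ⟨fun a b hab => ?_, by rw [scl_mul τ (hT 0) h1, h2]⟩
    rw [Matrix.mul_apply]
    refine Finset.sum_eq_zero fun c _ => ?_
    rcases lt_or_ge c a with hc | hc
    · rw [hT 0 a c hc, zero_mul]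
    · rw [h1 c b (hab.trans_le hc), mul_zero]

/-- Representatives of the classes with a scaling parameter and one handle closing the relation. -/
theorem exists_base_family (hr : 0 < r) {s M₀ : ℕ} (hM₀ : 0 < M₀) (d ε : Fin s → Fin r → ℂ)
    (hd : ∀ i a, d i a ^ M₀ = 1) (hdet : ∀ i, ∏ a, d i a = 1)
    (hε : ∀ i a, ε i a = 0 ∨ ε i a = 1) :
    ∃ (N z : ℂ) (w : Fin r → ℂ) (π : Equiv.Perm (Fin r)) (α₀ : Matrix (Fin r) (Fin r) ℂ),
      N ≠ 0 ∧ N ∈ RM (2 * r * M₀) ∧ z ≠ 0 ∧ Function.Injective w ∧ ∏ a, w a = 1 ∧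
      (∀ a, w a ∈ RM (2 * r * M₀)) ∧ (∀ a, α₀ a a = 1) ∧
      ∀ τ ∈ RM (2 * r * M₀), (z • (scl τ α₀ * π.permMatrix ℂ)).det = 1 ∧
        (∀ a b, (z • (scl τ α₀ * π.permMatrix ℂ)) a b ∈ RM (2 * r * M₀)) ∧
        cm adjugate (diagonal w) (z • (scl τ α₀ * π.permMatrix ℂ)) *
          (List.ofFn fun i => bidiag (d i) ((τ * N) • ε i)).prod = 1 := by
  classical
  set R := RM (2 * r * M₀) with hR
  have hM : 0 < 2 * r * M₀ := Nat.mul_pos (Nat.mul_pos two_pos hr) hM₀
  have hroot : ∀ {z : ℂ} {n : ℕ}, n ∣ 2 * r * M₀ → z ^ n = 1 → z ∈ R := fun {z n} hn hz => by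
    obtain ⟨c, hc⟩ := hn
    exact root_mem_RM hM (by rw [hc, pow_mul, hz, one_pow])
  let D : Fin r → ℂ := fun a => ∏ i, d i a
  have hD : ∀ a, D a ^ M₀ = 1 := fun a => by
    rw [← Finset.prod_pow]; exact Finset.prod_eq_one fun i _ => hd i a
  have hD1 : ∏ a ∈ Finset.univ, D a = 1 := by
    rw [Finset.prod_comm]; exact Finset.prod_eq_one fun i _ => hdet i
  obtain ⟨π, q, b, -, hq, hstep, hinj⟩ := exists_cycles D hD Finset.univ hD1
  obtain ⟨ρ, hρ⟩ := IsAlgClosed.exists_pow_nat_eq (∏ a, q a) hr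
  have hρM : ρ ^ (r * M₀) = 1 := by
    rw [pow_mul, hρ, ← Finset.prod_pow]; exact Finset.prod_eq_one fun a _ => hq a
  have hρ0 : ρ ≠ 0 := fun h => by
    rw [h, zero_pow (Nat.mul_pos hr hM₀).ne'] at hρM; exact zero_ne_one hρM
  set B := ∑ a, b a
  let w : Fin r → ℂ := fun a => q a * ρ⁻¹ * unitQ ^ B * unitP ^ (r * b a)
  have hwR : ∀ a, w a ∈ R := fun a => by
    refine mul_mem (mul_mem (mul_mem (hroot ⟨2 * r, by ring⟩ (hq a)) ?_) ?_) ?_
    · exact hroot ⟨2, by ring⟩ (show ρ⁻¹ ^ (r * M₀) = 1 by rw [inv_pow, hρM, inv_one])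
    · exact pow_mem (unitP_mem_RM _).2 _
    · exact pow_mem (unitP_mem_RM _).1 _
  have hw1 : ∏ a, w a = 1 := by
    simp only [w, Finset.prod_mul_distrib, Finset.prod_const, Finset.card_univ, Fintype.card_fin,
      Finset.prod_pow_eq_pow_sum, ← Finset.mul_sum]
    rw [show (∑ a, b a) = B from rfl, ← pow_mul, inv_pow, hρ,
      mul_inv_cancel₀ (hρ ▸ pow_ne_zero _ hρ0), one_mul, mul_comm B r, ← mul_pow, mul_comm,
      unitP_mul_unitQ, one_pow]
  have hPQ : ∀ k : ℕ, unitP ^ k * unitQ ^ k = 1 := fun k => by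
    rw [← mul_pow, unitP_mul_unitQ, one_pow]
  have hwinj : Function.Injective w := by
    intro a a' h
    have hq0 : ∀ a, q a ≠ 0 := fun a e => by
      have := hq a; rw [e, zero_pow hM₀.ne'] at this; exact zero_ne_one this
    have hQ0 : unitQ ≠ 0 := fun e => by
      have := unitP_mul_unitQ; rw [e, mul_zero] at this; exact zero_ne_one this
    have h1 : q a * unitP ^ (r * b a) = q a' * unitP ^ (r * b a') := by
      have hne : ρ⁻¹ * unitQ ^ B ≠ 0 := mul_ne_zero (inv_ne_zero hρ0) (pow_ne_zero _ hQ0)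
      refine mul_left_cancel₀ hne ?_
      simp only [w] at h
      linear_combination h
    have h2 := congrArg (fun z : ℂ => z ^ M₀) h1
    simp only [mul_pow, hq, one_mul, ← pow_mul] at h2
    have hb : b a = b a' := by
      have := unitP_pow_injective h2
      exact Nat.eq_of_mul_eq_mul_left hr (Nat.eq_of_mul_eq_mul_right hM₀ this)
    rw [hb] at h1
    exact hinj a (Finset.mem_univ _) a' (Finset.mem_univ _) hb
      (mul_right_cancel₀ (pow_ne_zero _ (fun e => by
        have := unitP_mul_unitQ; rw [e, zero_mul] at this; exact zero_ne_one this)) h1)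
  let m : Fin r → ℂ := fun a => D a * w a
  have hmπ : ∀ a, w (π a) = m a := fun a => by
    obtain ⟨e1, e2⟩ := hstep a (Finset.mem_univ a)
    simp only [w, m, e1, e2]
    ring
  have hminj : Function.Injective m := fun a a' h => π.injective (hwinj (by rw [hmπ, hmπ, h]))
  let N : ℂ := ∏ p ∈ (Finset.univ : Finset (Fin r × Fin r)).filter (fun p => p.1 ≠ p.2),
    (m p.2 - m p.1)
  have hN0 : N ≠ 0 := Finset.prod_ne_zero_iff.2 fun p hp =>
    sub_ne_zero.2 fun e => (Finset.mem_filter.1 hp).2 (hminj e).symm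
  have hdR : ∀ i a, d i a ∈ R := fun i a => hroot ⟨2 * r, by ring⟩ (hd i a)
  have hDR : ∀ a, D a ∈ R := fun a => prod_mem fun i _ => hdR i a
  have hmR : ∀ a, m a ∈ R := fun a => mul_mem (hDR a) (hwR a)
  have hNR : N ∈ R := prod_mem fun p _ => sub_mem (hmR _) (hmR _)
  have hdiv : ∀ a c, a ≠ c → N / (m c - m a) ∈ R := fun a c hac => by
    have hmem : (a, c) ∈ (Finset.univ : Finset (Fin r × Fin r)).filter (fun p => p.1 ≠ p.2) := by
      simp [hac]
    simp only [N]
    rw [← Finset.mul_prod_erase _ _ hmem, mul_div_cancel_left₀ _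
      (sub_ne_zero.2 fun e => hac (hminj e).symm)]
    exact prod_mem fun p _ => sub_mem (hmR _) (hmR _)
  set T := (List.ofFn fun i => bidiag (d i) (N • ε i)).prod with hT
  have hTtri : Tri R N D T := tri_prod hNR hdR fun i => tri_bidiag N (d i) (hε i)
  have hdiag : Tri R N w (diagonal w) := ⟨fun a c h => diagonal_apply_ne _ h.ne',
    fun a => diagonal_apply_eq _ a, fun a c h => ⟨0, zero_mem _, by simp [diagonal_apply_ne _ h.ne]⟩⟩
  have hTm : Tri R N m (T * diagonal w) := hTtri.mul hNR hDR hwR hdiag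
  obtain ⟨α₁, -, hα₁R, hα₁0, hα₁1, hα₁eq⟩ := exists_unitri hminj hdiv hTm
  let Pm : Matrix (Fin r) (Fin r) ℂ := π.permMatrix ℂ
  have hPdiag : Pm * diagonal w = diagonal m * Pm := by
    ext a c
    simp only [Pm, Equiv.Perm.permMatrix, PEquiv.toMatrix_apply, Equiv.toPEquiv_apply,
      Option.mem_def, Option.some.injEq, mul_diagonal, diagonal_mul]
    split_ifs with h
    · rw [← h, hmπ]; ring
    · ring
  obtain ⟨z, hz⟩ := IsAlgClosed.exists_pow_nat_eq ((Equiv.Perm.sign π : ℤ) : ℂ) hr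
  have hsq : ((Equiv.Perm.sign π : ℤ) : ℂ) * ((Equiv.Perm.sign π : ℤ) : ℂ) = 1 := by
    rcases Int.units_eq_one_or (Equiv.Perm.sign π) with h | h <;> simp [h]
  have hzR : z ∈ R := hroot ⟨M₀, by ring⟩ (show z ^ (2 * r) = 1 by
    rw [mul_comm, pow_mul, hz, pow_two, hsq])
  have hz0 : z ≠ 0 := fun e => by
    rw [e, zero_pow hr.ne'] at hz
    rw [← hz, mul_zero] at hsq
    exact zero_ne_one hsq
  refine ⟨N, z, w, π, α₁, hN0, hNR, hz0, hwinj, hw1, hwR, hα₁1, fun τ hτ => ?_⟩
  set α₀ := scl τ α₁ with hα₀def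
  have hα₀ : α₀.det = 1 := by
    rw [det_of_isUpperTriangular (fun a b (h : b < a) => by simp [α₀, scl, not_le.2 h])]
    simp [α₀, scl, hα₁1]
  have hα₀R : ∀ a b, α₀ a b ∈ R := fun a b => by
    simp only [α₀, scl, of_apply]
    split_ifs
    exacts [mul_mem (hα₁R a b) (pow_mem hτ _), zero_mem _]
  set Tτ := (List.ofFn fun i => bidiag (d i) ((τ * N) • ε i)).prod with hTτ
  have hTscl : scl τ T = Tτ := by
    rw [hT, (scl_prod τ fun i => (tri_bidiag (R := R) N (d i) (hε i)).1).2, hTτ]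
    simp only [scl_bidiag]
  have hα₀eq : Tτ * diagonal w * α₀ = α₀ * diagonal m := by
    have h1 := congrArg (scl τ) hα₁eq
    rwa [scl_mul τ hTm.1 hα₁0, scl_mul τ hTtri.1 hdiag.1, scl_mul τ hα₁0
      (fun a b h => diagonal_apply_ne _ h.ne'), scl_diagonal, scl_diagonal, hTscl] at h1
  set X := z • (α₀ * Pm) with hX
  have hXdet : X.det = 1 := by
    rw [hX, det_smul, det_mul, hα₀, one_mul, det_permutation, Fintype.card_fin, hz, hsq]
  have hXR : ∀ a c, X a c ∈ R := fun a c => by
    rw [hX, Matrix.smul_apply, Matrix.mul_apply]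
    refine mul_mem hzR (sum_mem fun e _ => mul_mem (hα₀R _ _) ?_)
    simp only [Pm, Equiv.Perm.permMatrix, PEquiv.toMatrix_apply]
    split_ifs
    exacts [one_mem _, zero_mem _]
  have hwdet : (diagonal w).det = 1 := by rw [det_diagonal]; exact hw1
  have hkey : Tτ * diagonal w * X = X * diagonal w := by
    rw [hX, Matrix.mul_smul, Matrix.smul_mul, ← mul_assoc, hα₀eq, mul_assoc, mul_assoc, hPdiag]
  refine ⟨hXdet, hXR, ?_⟩
  obtain ⟨x1, x2⟩ := mul_adj_cancel hXdet
  obtain ⟨w1, w2⟩ := mul_adj_cancel hwdet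
  have hT' : Tτ = X * diagonal w * adjugate X * adjugate (diagonal w) := by
    rw [← hkey]
    simp only [mul_assoc]
    rw [← mul_assoc X, x1, one_mul, w1, mul_one]
  show cm adjugate (diagonal w) X * Tτ = 1
  rw [hT', cm]
  calc diagonal w * X * adjugate (diagonal w) * adjugate X *
        (X * diagonal w * adjugate X * adjugate (diagonal w))
      = diagonal w * X * (adjugate (diagonal w) * ((adjugate X * X) * diagonal w)) * adjugate X *
          adjugate (diagonal w) := by simp only [mul_assoc]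
    _ = 1 := by
      rw [x2, one_mul, w2, mul_one, mul_assoc (diagonal w), x1, mul_one, w1]

/-- Representatives of the classes and one handle closing the relation. -/
theorem exists_base (hr : 0 < r) {s M₀ : ℕ} (hM₀ : 0 < M₀) (d ε : Fin s → Fin r → ℂ)
    (hd : ∀ i a, d i a ^ M₀ = 1) (hdet : ∀ i, ∏ a, d i a = 1)
    (hε : ∀ i a, ε i a = 0 ∨ ε i a = 1) :
    ∃ (N : ℂ) (α β : Matrix (Fin r) (Fin r) ℂ), N ≠ 0 ∧ N ∈ RM (2 * r * M₀) ∧
      α.det = 1 ∧ β.det = 1 ∧ (∀ a b, α a b ∈ RM (2 * r * M₀)) ∧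
      (∀ a b, β a b ∈ RM (2 * r * M₀)) ∧
      cm adjugate α β * (List.ofFn fun i => bidiag (d i) (N • ε i)).prod = 1 := by
  obtain ⟨N, z, w, π, α₀, hN, hNR, -, -, hw1, hwR, -, h⟩ := exists_base_family hr hM₀ d ε hd hdet hε
  obtain ⟨h1, h2, h3⟩ := h 1 (one_mem _)
  refine ⟨N, diagonal w, z • (scl 1 α₀ * π.permMatrix ℂ), hN, hNR, by rw [det_diagonal, hw1], h1,
    fun a b => ?_, h2, by simpa using h3⟩
  rw [diagonal_apply]
  split_ifs
  exacts [hwR a, zero_mem _]

/-- Scaling the superdiagonal is a conjugation. -/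
theorem bidiag_scale {N : ℂ} (hN : N ≠ 0) (d ε : Fin r → ℂ) :
    ∃ S S' : Matrix (Fin r) (Fin r) ℂ, S * S' = 1 ∧ bidiag d (N • ε) = S * bidiag d ε * S' := by
  refine ⟨diagonal fun a => (N ^ (a : ℕ))⁻¹, diagonal fun a => N ^ (a : ℕ), ?_, ?_⟩
  · rw [diagonal_mul_diagonal]
    simp [hN]
  · ext a b
    rw [mul_diagonal, diagonal_mul]
    simp only [bidiag, of_apply, Pi.smul_apply, smul_eq_mul]
    split_ifs with h h'
    · subst h; field_simp
    · rw [h', pow_succ]; field_simp
    · simp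

end Vale.Agent.P002.Bd
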