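import Vale.Agent.P002.Bd.Base

/-!
# P002: quasi-unipotent conjugacy classes by representatives

A class of a quasi-unipotent matrix of determinant one is the set of `P · J · adj P`, `det P = 1`,
for a bidiagonal `J` with roots of unity on the diagonal and any prescribed non-zero scaling of the
superdiagonal.
-/

namespace Vale.Agent.P002.Bd

open Matrix

variable {r : ℕ}

/-- All eigenvalues are roots of unity. -/
def QU (c : Matrix (Fin r) (Fin r) ℂ) : Prop :=
  ∀ z : ℂ, c.charpoly.IsRoot z → ∃ n : ℕ, 0 < n ∧ z ^ n = 1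

/-- `m` is conjugate to `c`. -/
def Cj (c m : Matrix (Fin r) (Fin r) ℂ) : Prop :=
  ∃ P P' : Matrix (Fin r) (Fin r) ℂ, P * P' = 1 ∧ P * c * P' = m

theorem det_bidiag (d ε : Fin r → ℂ) : (bidiag d ε).det = ∏ a, d a := by
  rw [det_of_isUpperTriangular (fun a b (h : b < a) => ?_)]
  · simp [bidiag]
  · have : b.1 < a.1 := h
    simp only [bidiag, of_apply, if_neg h.ne', if_neg (show ¬ b.1 = a.1 + 1 by omega)]

/-- A conjugator may be taken of determinant one. -/
theorem Cj.exists_sl (hr : 0 < r) {c m : Matrix (Fin r) (Fin r) ℂ} (h : Cj c m) :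
    ∃ P : Matrix (Fin r) (Fin r) ℂ, P.det = 1 ∧ m = P * c * adjugate P := by
  obtain ⟨P, P', hPP, rfl⟩ := h
  have hd : P.det * P'.det = 1 := by rw [← det_mul, hPP, det_one]
  have hd0 : P.det ≠ 0 := left_ne_zero_of_mul_eq_one hd
  obtain ⟨t, ht⟩ := IsAlgClosed.exists_pow_nat_eq P.det⁻¹ hr
  have ht0 : t ≠ 0 := fun h0 => by
    rw [h0, zero_pow hr.ne'] at ht
    exact inv_ne_zero hd0 ht.symm
  have hdet : (t • P).det = 1 := by
    rw [det_smul, Fintype.card_fin, ht, inv_mul_cancel₀ hd0]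
  refine ⟨t • P, hdet, ?_⟩
  have h1 : (t • P) * (t⁻¹ • P') = 1 := by
    rw [Matrix.smul_mul, Matrix.mul_smul, smul_smul, mul_inv_cancel₀ ht0, hPP, one_smul]
  have h2 : adjugate (t • P) = t⁻¹ • P' := by
    calc adjugate (t • P) = adjugate (t • P) * ((t • P) * (t⁻¹ • P')) := by rw [h1, mul_one]
      _ = t⁻¹ • P' := by rw [← mul_assoc, adjugate_mul, hdet, one_smul, one_mul]
  rw [h2]
  simp [Matrix.smul_mul, Matrix.mul_smul, smul_smul, inv_mul_cancel₀ ht0]

theorem cj_iff_of_cj {c J : Matrix (Fin r) (Fin r) ℂ} (h : Cj J c) (hr : 0 < r)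
    (m : Matrix (Fin r) (Fin r) ℂ) :
    Cj c m ↔ ∃ P : Matrix (Fin r) (Fin r) ℂ, P.det = 1 ∧ m = P * J * adjugate P := by
  obtain ⟨Q, Q', hQ, rfl⟩ := h
  have hQ' : Q' * Q = 1 := mul_eq_one_comm.1 hQ
  constructor
  · rintro ⟨P, P', hP, rfl⟩
    refine Cj.exists_sl hr ⟨P * Q, Q' * P', ?_, by simp only [mul_assoc]⟩
    rw [mul_assoc, ← mul_assoc Q, hQ, one_mul, hP]
  · rintro ⟨P, hP, rfl⟩
    refine ⟨P * Q', Q * adjugate P, ?_, ?_⟩
    · rw [mul_assoc, ← mul_assoc Q', hQ', one_mul, mul_adjugate, hP, one_smul]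
    · rw [show P * Q' * (Q * J * Q') * (Q * adjugate P) =
          P * ((Q' * Q) * J * (Q' * Q)) * adjugate P by simp only [mul_assoc],
        hQ', one_mul, mul_one]

/-- Representatives of finitely many classes, with one order for all the eigenvalues. -/
theorem exists_reps (hr : 0 < r) {s : ℕ} (c : Fin s → Matrix (Fin r) (Fin r) ℂ)
    (hdet : ∀ i, (c i).det = 1) (hqu : ∀ i, QU (c i)) :
    ∃ (M₀ : ℕ) (d ε : Fin s → Fin r → ℂ), 0 < M₀ ∧ (∀ i a, d i a ^ M₀ = 1) ∧
      (∀ i, ∏ a, d i a = 1) ∧ (∀ i a, ε i a = 0 ∨ ε i a = 1) ∧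
      ∀ N : ℂ, N ≠ 0 → ∀ i m, Cj (c i) m ↔
        ∃ P : Matrix (Fin r) (Fin r) ℂ, P.det = 1 ∧
          m = P * bidiag (d i) (N • ε i) * adjugate P := by
  choose d ε P P' hP hP' hε hc hroot using fun i => exists_bidiag (c i)
  choose n hn0 hn using fun i a => hqu i (d i a) (hroot i a)
  refine ⟨∏ i, ∏ a, n i a, d, ε, Finset.prod_pos fun i _ => Finset.prod_pos fun a _ => hn0 i a,
    fun i a => ?_, fun i => ?_, hε, fun N hN i m => ?_⟩
  · obtain ⟨k, hk⟩ : n i a ∣ ∏ i, ∏ a, n i a :=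
      (Finset.dvd_prod_of_mem (n i) (Finset.mem_univ a)).trans
        (Finset.dvd_prod_of_mem (fun i => ∏ a, n i a) (Finset.mem_univ i))
    rw [hk, pow_mul, hn i a, one_pow]
  · rw [← det_bidiag (d i) (ε i), ← hc i, det_mul, det_mul, hdet i, mul_one, ← det_mul, hP' i,
      det_one]
  · refine cj_iff_of_cj ?_ hr m
    obtain ⟨S, S', hS, hSe⟩ := bidiag_scale hN (d i) (ε i)
    have hS' : S' * S = 1 := mul_eq_one_comm.1 hS
    refine ⟨P i * S', S * P' i, ?_, ?_⟩
    · rw [mul_assoc, ← mul_assoc S', hS', one_mul, hP i]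
    · rw [hSe, show P i * S' * (S * bidiag (d i) (ε i) * S') * (S * P' i) =
          P i * ((S' * S) * bidiag (d i) (ε i) * (S' * S)) * P' i by simp only [mul_assoc],
        hS', one_mul, mul_one, ← hc i]
      rw [show P i * (P' i * c i * P i) * P' i = (P i * P' i) * c i * (P i * P' i) by
          simp only [mul_assoc], hP i, one_mul, mul_one]

end Vale.Agent.P002.Bd
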