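import Vale.Agent.P002.Bd.Irred
import Vale.Agent.P002.Bd.Classes

/-!
# P002: tuples in prescribed classes and points of the punctured variety
-/

namespace Vale.Agent.P002.Bd

open Matrix Vale.Agent.P002.Sb

set_option backward.isDefEq.respectTransparency false

variable {r g s : ℕ}

/-- With representatives `D` of the classes over `O` and the density of the integral points near
scalar commutant points, a polynomial vanishing at the irreducible integral tuples in the classes
vanishes at every scalar commutant or semisimple tuple in the classes. -/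
theorem vanish_classes (hg : 2 ≤ g) (hr : 2 ≤ r) {D : Fin s → Matrix (Fin r) (Fin r) ℂ}
    (hD : ∀ j, (D j).det = 1) {O : Subring ℂ} (hDO : ∀ j, D j ∈ MatR O r)
    (hall : ∀ y : PT g s r ℂ, IsX D y → IsSchurX D y → InX D O y)
    {c : Fin s → Matrix (Fin r) (Fin r) ℂ}
    (hcj : ∀ j m, Cj (c j) m ↔
      ∃ P : Matrix (Fin r) (Fin r) ℂ, P.det = 1 ∧ m = P * D j * adjugate P)
    {σ : (Fin g × Bool) ⊕ Fin s → Matrix (Fin r) (Fin r) ℂ} (hdet : ∀ k, (σ k).det = 1)
    (hcl : ∀ j, Cj (c j) (σ (Sum.inr j)))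
    (hrel : rel (fun M => M⁻¹) (fun k => σ (Sum.inl k)) *
      (List.ofFn fun j => σ (Sum.inr j)).prod = 1)
    (hσ : (∀ U : Submodule ℂ (Fin r → ℂ), (∀ k, ∀ x ∈ U, σ k *ᵥ x ∈ U) →
        ∃ V : Submodule ℂ (Fin r → ℂ), (∀ k, ∀ x ∈ V, σ k *ᵥ x ∈ V) ∧ IsCompl U V) ∨
      (∀ m : Matrix (Fin r) (Fin r) ℂ, (∀ k, m * σ k = σ k * m) →
        ∃ z : ℂ, m = z • (1 : Matrix (Fin r) (Fin r) ℂ)))
    (f : MvPolynomial (((Fin g × Bool) ⊕ Fin s) × Fin r × Fin r) ℂ)
    (hf : ∀ τ : (Fin g × Bool) ⊕ Fin s → Matrix (Fin r) (Fin r) ℂ,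
      (∀ k a b, τ k a b ∈ O) → (∀ k, (τ k).det = 1) → (∀ j, Cj (c j) (τ (Sum.inr j))) →
      rel (fun M => M⁻¹) (fun k => τ (Sum.inl k)) * (List.ofFn fun j => τ (Sum.inr j)).prod = 1 →
      NoInvariant τ → MvPolynomial.eval (fun v => τ v.1 v.2.1 v.2.2) f = 0) :
    MvPolynomial.eval (fun v => σ v.1 v.2.1 v.2.2) f = 0 := by
  classical
  have hrel' : ∀ τ : (Fin g × Bool) ⊕ Fin s → Matrix (Fin r) (Fin r) ℂ, (∀ k, (τ k).det = 1) →
      rel (fun M => M⁻¹) (fun k => τ (Sum.inl k)) = rel adjugate (fun k => τ (Sum.inl k)) := by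
    intro τ hτ
    simp only [rel, cmList, cm, Matrix.inv_def, hτ, Ring.inverse_one, one_smul]
  choose h h1 h2 using fun j => (hcj j (σ (Sum.inr j))).1 (hcl j)
  let x : PT g s r ℂ := Sum.elim (fun k => σ (Sum.inl k)) h
  have hpun : ∀ j, pun D x j = σ (Sum.inr j) := fun j => (h2 j).symm
  have hx : IsX D x := by
    refine ⟨fun k => ?_, ?_⟩
    · cases k with
      | inl k => exact hdet _
      | inr j => exact h1 j
    · rw [hrel' σ hdet] at hrel
      rw [relX, prodC, punList, funext hpun]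
      exact hrel
  let F : (Fin g × Bool) ⊕ Fin s → PT g s r ℂ → Matrix (Fin r) (Fin r) ℂ :=
    fun k y => Sum.elim (fun k => y (Sum.inl k)) (fun j => pun D y j) k
  have hF : ∀ k, PolyMat (F k) := fun k => by
    cases k with
    | inl k => exact polyMat_proj _
    | inr j => exact polyMat_pun j
  choose T hT using hF
  have hev : ∀ y, MvPolynomial.eval (xcoord y)
      (MvPolynomial.bind₁ (fun v => T v.1 v.2.1 v.2.2) f) =
      MvPolynomial.eval (fun v => F v.1 y v.2.1 v.2.2) f := by
    intro y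
    change MvPolynomial.eval₂Hom (RingHom.id ℂ) (xcoord y) _ = MvPolynomial.eval₂Hom _ _ f
    rw [MvPolynomial.eval₂Hom_bind₁]
    congr 2
    funext v
    exact congrFun (congrFun (hT v.1 y) v.2.1) v.2.2
  have hFx : ∀ k, F k x = σ k := fun k => by
    cases k with
    | inl k => rfl
    | inr j => exact hpun j
  have hσx : IsSchurX D x ∨ IsSemisimpleRep (allT D x) := by
    rcases hσ with hs | hc
    · refine Or.inr fun U hU => ?_
      obtain ⟨V, hV, hUV⟩ := hs U fun k v hv => by
        cases k with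
        | inl k => simpa [allT, x] using hU (Fin.castAdd s k.1, k.2) v hv
        | inr j => simpa [allT, hpun] using hU (Fin.natAdd g j, false) v hv
      refine ⟨V, fun ⟨m, b⟩ v hv => ?_, hUV⟩
      refine Fin.addCases (fun i => ?_) (fun j => ?_) m
      · simpa [allT, x] using hV (Sum.inl (i, b)) v hv
      · simpa [allT, hpun] using hV (Sum.inr j) v hv
    · refine Or.inl fun m hm1 hm2 => hc m fun k => ?_
      cases k with
      | inl k => exact hm1 k
      | inr j => rw [← hpun j]; exact hm2 j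
  have := vanish_irr hg hr hD hall (f := MvPolynomial.bind₁ (fun v => T v.1 v.2.1 v.2.2) f)
    (fun y hy hirr => by
      rw [hev]
      have hdy : ∀ k, (F k y).det = 1 := fun k => by
        cases k with
        | inl k => exact hy.1.1 _
        | inr j => exact det_pun hD hy.1.1 j
      refine hf (fun k => F k y) (fun k a b => ?_) hdy
        (fun j => (hcj j _).2 ⟨_, hy.1.1 (Sum.inr j), rfl⟩) ?_ fun U hU => hirr U ?_
      · refine mem_MatR.1 ?_ a b
        cases k with
        | inl k => exact hy.2 _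
        | inr j => exact mul_mem (mul_mem (hy.2 _) (hDO j)) (adjugate_mem_MatR (hy.2 _))
      · rw [hrel' (fun k => F k y) hdy]
        exact hy.1.2
      · rintro ⟨m, b⟩ v hv
        refine Fin.addCases (fun i => ?_) (fun j => ?_) m
        · simpa [allT, F] using hU (Sum.inl (i, b)) v hv
        · simpa [allT, F] using hU (Sum.inr j) v hv)
    hx hσx
  rw [hev] at this
  simpa [hFx] using this

end Vale.Agent.P002.Bd
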