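import Vale.Agent.P002.Bd.Open
import Vale.Agent.P002.Bd.Reduce

/-!
# P002: from the open piece to every scalar commutant point, all quasi-unipotent classes

A punctured point is a tuple with pinned handles `(K_j h_j, D_j)`, where `K_j = D_(j-1) ⋯ D_0`.  A
swap of the two last free handles puts a matrix with generic spectrum at the last handle.
-/

namespace Vale.Agent.P002.Bd

open Matrix Filter Topology Vale.Agent.P002.Sb
open scoped Matrix.Norms.Operator

set_option backward.isDefEq.respectTransparency false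

/-- The swap of two handles. -/
def qSwap : QMove where
  Q := fun iv q =>
    (cm iv q.1 q.2.1 * q.2.2.1 * iv (cm iv q.1 q.2.1),
      cm iv q.1 q.2.1 * q.2.2.2 * iv (cm iv q.1 q.2.1), q.1, q.2.1)
  nat := by intro M N _ _ iv iv' h hiv a b c d; simp [cm, hiv]
  comm := by intro G _ a b c d; simp only [cm]; group

/-- The inverse swap. -/
def qSwap' : QMove where
  Q := fun iv q =>
    (q.2.2.1, q.2.2.2, iv (cm iv q.2.2.1 q.2.2.2) * q.1 * cm iv q.2.2.1 q.2.2.2,
      iv (cm iv q.2.2.1 q.2.2.2) * q.2.1 * cm iv q.2.2.1 q.2.2.2)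
  nat := by intro M N _ _ iv iv' h hiv a b c d; simp [cm, hiv]
  comm := by intro G _ a b c d; simp only [cm]; group

theorem qSwap_left : qSwap'.LeftInv qSwap := by
  intro G _ q
  obtain ⟨a, b, c, d⟩ := q
  simp [qSwap, qSwap', cm, mul_assoc]

theorem qSwap_right : qSwap.LeftInv qSwap' := by
  intro G _ q
  obtain ⟨a, b, c, d⟩ := q
  simp [qSwap, qSwap', cm, mul_assoc]

variable {r g s : ℕ}

theorem contDiff_qSwap :
    ContDiff ℂ 1 (qSwap.Q (adjugate : Matrix (Fin r) (Fin r) ℂ → _)) ∧
      ContDiff ℂ 1 (qSwap'.Q (adjugate : Matrix (Fin r) (Fin r) ℂ → _)) := by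
  have := contDiff_adjugate (r := r)
  constructor <;> simp only [qSwap, qSwap', cm] <;> fun_prop

variable {D : Fin s → Matrix (Fin r) (Fin r) ℂ} {O : Subring ℂ}

/-- The product `D (m - 1) ⋯ D 0`. -/
noncomputable def Kd (D : Fin s → Matrix (Fin r) (Fin r) ℂ) : ℕ → Matrix (Fin r) (Fin r) ℂ
  | 0 => 1
  | m + 1 => if h : m < s then D ⟨m, h⟩ * Kd D m else Kd D m

theorem det_Kd (hD : ∀ j, (D j).det = 1) : ∀ m, (Kd D m).det = 1
  | 0 => det_one
  | m + 1 => by
    simp only [Kd]
    split_ifs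
    · rw [det_mul, hD, det_Kd hD m, one_mul]
    · exact det_Kd hD m

theorem Kd_mem (hDO : ∀ j, D j ∈ MatR O r) : ∀ m, Kd D m ∈ MatR O r
  | 0 => one_mem _
  | m + 1 => by
    simp only [Kd]
    split_ifs
    · exact mul_mem (hDO _) (Kd_mem hDO m)
    · exact Kd_mem hDO m

theorem Kd_eq_prod : Kd D s = (List.ofFn fun j : Fin s => D j.rev).prod := by
  have h : ∀ m ≤ s, Kd D m = ((List.ofFn D).take m).reverse.prod := by
    intro m
    induction m with
    | zero => intro _; simp [Kd]
    | succ m ih =>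
      intro hm
      have hm' : m < (List.ofFn D).length := by simp; omega
      simp only [Kd, dif_pos (show m < s by omega)]
      rw [ih (by omega), List.take_succ_eq_append_getElem hm', List.reverse_append]
      simp
  rw [h s le_rfl, List.take_of_length_le (by simp)]
  congr 1
  apply List.ext_getElem
  · simp
  · intro i h1 h2
    simp [Fin.rev, List.getElem_reverse]
    congr 1
    ext
    simp
    omega

/-- A punctured point as a tuple with pinned handles. -/
noncomputable def toTup (D : Fin s → Matrix (Fin r) (Fin r) ℂ) (x : PT g s r ℂ) :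
    Tup (g + s) r ℂ :=
  fun k => Fin.addCases (fun i => x (Sum.inl (i, k.2)))
    (fun j => bif k.2 then D j else Kd D j * x (Sum.inr j)) k.1

/-- The punctured point of a tuple with pinned handles. -/
noncomputable def toPT (D : Fin s → Matrix (Fin r) (Fin r) ℂ) (σ : Tup (g + s) r ℂ) :
    PT g s r ℂ :=
  Sum.elim (fun k => σ (Fin.castAdd s k.1, k.2))
    (fun j => adjugate (Kd D j) * σ (Fin.natAdd g j, false))

theorem toPT_toTup (hD : ∀ j, (D j).det = 1) (x : PT g s r ℂ) : toPT D (toTup D x) = x := by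
  funext k
  rcases k with ⟨i, c⟩ | j
  · simp [toPT, toTup]
  · simp [toPT, toTup, (cancel_left (det_Kd hD j) _).1]

theorem toTup_toPT (hD : ∀ j, (D j).det = 1) {σ : Tup (g + s) r ℂ}
    (h : ∀ j, σ (Fin.natAdd g j, true) = D j) : toTup D (toPT D σ) = σ := by
  funext ⟨m, c⟩
  refine Fin.addCases (fun i => ?_) (fun j => ?_) m
  · simp [toPT, toTup]
  · cases c <;> simp [toPT, toTup, h, (cancel_left (det_Kd hD j) _).2]

theorem det_toTup (hD : ∀ j, (D j).det = 1) {x : PT g s r ℂ} (hx : ∀ k, (x k).det = 1) :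
    ∀ k, (toTup D x k).det = 1 := by
  rintro ⟨m, c⟩
  refine Fin.addCases (fun i => ?_) (fun j => ?_) m
  · simpa [toTup] using hx (Sum.inl (i, c))
  · cases c <;> simp [toTup, hD, hx, det_Kd hD]

theorem rel_toTup (hD : ∀ j, (D j).det = 1) {x : PT g s r ℂ} (hx : ∀ k, (x k).det = 1) :
    rel adjugate (toTup D x) = relX D x * adjugate (Kd D s) := by
  have e : cmList adjugate (toTup D x) = cmList adjugate (hd x) ++
      List.ofFn (fun j : Fin s => cm adjugate (Kd D j * x (Sum.inr j)) (D j)) := by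
    rw [cmList, cmList, ← List.ofFn_fin_append]
    congr 1
    funext m
    refine Fin.addCases (fun i => ?_) (fun j => ?_) m <;> simp [toTup, hd]
  have h : ∀ m ≤ s, ((List.ofFn fun j : Fin s =>
      cm adjugate (Kd D j * x (Sum.inr j)) (D j)).take m).prod = cpre D m x * adjugate (Kd D m) := by
    intro m
    induction m with
    | zero => intro _; simp [cpre, Kd]
    | succ m ih =>
      intro hm
      have hm' : m < s := by omega
      obtain ⟨k1, k2⟩ := mul_adj_cancel (det_Kd hD m)
      rw [List.prod_take_succ _ _ (by simpa using hm'), ih hm'.le]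
      have hc := cpre_succ (D := D) x ⟨m, hm'⟩
      simp only at hc
      rw [hc]
      simp only [List.getElem_ofFn, Kd, dif_pos hm', cm, adjugate_mul_distrib, pun, mul_assoc,
        (cancel_left (det_Kd hD m) _).1]
  rw [rel, e, List.prod_append, relX, ← rel, mul_assoc]
  congr 1
  have := h s le_rfl
  rw [List.take_of_length_le (by simp)] at this
  rw [this, cpre, prodC, List.take_of_length_le (by simp [punList])]

/-- The data of the tuple with pinned handles. -/
noncomputable def pinsX (g : ℕ) (D : Fin s → Matrix (Fin r) (Fin r) ℂ) (O : Subring ℂ) :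
    Pins (g + s) r :=
  ⟨g, Fin.addCases (fun _ => 1) D, adjugate (Kd D s), O⟩

theorem isRepB_toTup (hD : ∀ j, (D j).det = 1) {x : PT g s r ℂ} (hx : IsX D x) :
    IsRepB (pinsX g D O) (toTup D x) := by
  refine ⟨det_toTup hD hx.1, ?_, fun k hk => ?_⟩
  · rw [rel_toTup hD hx.1, hx.2, one_mul]
    rfl
  · revert hk
    refine Fin.addCases (fun i => ?_) (fun j => ?_) k
    · intro hk
      exact absurd (hk : g ≤ (Fin.castAdd s i).1) (by show ¬ g ≤ i.1; omega)
    · intro _
      simp [toTup, pinsX]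

theorem pinned_eq {σ : Tup (g + s) r ℂ} (h : IsRepB (pinsX g D O) σ) (j : Fin s) :
    σ (Fin.natAdd g j, true) = D j := by
  rw [h.2.2 _ (show g ≤ (Fin.natAdd g j).1 from Nat.le_add_right g j)]
  simp [pinsX]

theorem isX_toPT (hD : ∀ j, (D j).det = 1) {σ : Tup (g + s) r ℂ}
    (h : IsRepB (pinsX g D O) σ) : IsX D (toPT D σ) := by
  have hdet : ∀ k, (toPT D σ k).det = 1 := by
    rintro (k | j) <;> simp [toPT, h.1, det_adjugate, det_Kd hD]
  refine ⟨hdet, ?_⟩
  have e := rel_toTup hD hdet
  rw [toTup_toPT hD (pinned_eq h), h.2.1] at e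
  obtain ⟨k1, k2⟩ := mul_adj_cancel (det_Kd hD s)
  calc relX D (toPT D σ) = relX D (toPT D σ) * adjugate (Kd D s) * Kd D s := by
        rw [mul_assoc, k2, mul_one]
    _ = 1 := by rw [← e]; exact k2

theorem inX_of_inB (hD : ∀ j, (D j).det = 1) (hDO : ∀ j, D j ∈ MatR O r) {x : PT g s r ℂ}
    (h : InB (pinsX g D O) (toTup D x)) : InX D O x := by
  intro f hf
  let C' : Matrix (Fin r) (Fin r) ℂ →+* Matrix (Fin r) (Fin r) (MvPolynomial (Var (g + s) r) ℂ) :=
    (MvPolynomial.C : ℂ →+* MvPolynomial (Var (g + s) r) ℂ).mapMatrix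
  let TP : Slot g s → Matrix (Fin r) (Fin r) (MvPolynomial (Var (g + s) r) ℂ) :=
    Sum.elim (fun k => gen (Fin.castAdd s k.1, k.2))
      (fun j => C' (adjugate (Kd D j)) * gen (Fin.natAdd g j, false))
  have hTP : ∀ σ k, (MvPolynomial.eval (coord σ)).mapMatrix (TP k) = toPT D σ k := by
    intro σ k
    cases k with
    | inl k => exact gen_map σ _
    | inr j =>
      simp only [TP, Sum.elim_inr, map_mul, C', mapMatrix_adjoin_C, gen_map, toPT]
  have he : ∀ σ, MvPolynomial.eval (coord σ)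
      (MvPolynomial.bind₁ (fun v => TP v.1 v.2.1 v.2.2) f) =
      MvPolynomial.eval (xcoord (toPT D σ)) f := fun σ =>
    eval_bind (fun k a b => congrFun (congrFun (hTP σ k) a) b) f
  have := h _ fun σ hσ => by
    rw [he]
    refine hf _ ⟨isX_toPT hD hσ.1, fun k => ?_⟩
    cases k with
    | inl k => exact mem_MatR.2 (hσ.2 _)
    | inr j => exact mul_mem (adjugate_mem_MatR (Kd_mem hDO j)) (mem_MatR.2 (hσ.2 _))
  rwa [he, toPT_toTup hD] at this

theorem InIrr.inB {n : ℕ} {P : Pins n r} {σ : Tup n r ℂ} (h : InIrr P σ) : InB P σ :=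
  fun f hf => h f fun ρ hρ _ => hf ρ hρ

/-- For representatives with an integral handle absorbing their reversed product every scalar
commutant point is in the closure of the integral points. -/
theorem inX_all (hg : 3 ≤ g) (hr : 2 ≤ r) (hD : ∀ j, (D j).det = 1) (hDO : ∀ j, D j ∈ MatR O r)
    (hroots : ∀ ζ : ℂ, ζ ^ r = 1 → ζ ∈ O) {α β : Matrix (Fin r) (Fin r) ℂ} (hα : α.det = 1)
    (hβ : β.det = 1) (hαO : α ∈ MatR O r) (hβO : β ∈ MatR O r)
    (hrel : cm adjugate α β * Kd D s = 1) {x : PT g s r ℂ} (hx : IsX D x) (hS : IsSchurX D x) :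
    InX D O x := by
  classical
  have hbase : Base (pinsX g D O) (g - 1) α β := by
    refine ⟨by show g - 1 + 1 = g; omega, by show g ≤ g + s; omega, hr, by omega, fun k => ?_,
      fun k => ?_, hα, hβ, mem_MatR.1 hαO, mem_MatR.1 hβO, ?_, hroots⟩
    · refine Fin.addCases (fun i => ?_) (fun j => ?_) k <;> simp [pinsX, hD]
    · refine mem_MatR.1 ?_
      refine Fin.addCases (fun i => ?_) (fun j => ?_) k
      · simpa [pinsX] using one_mem (MatR O r)
      · simpa [pinsX] using hDO j
    · calc cm adjugate α β = cm adjugate α β * (Kd D s * adjugate (Kd D s)) := by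
            rw [(mul_adj_cancel (det_Kd hD s)).1, mul_one]
        _ = _ := by rw [← mul_assoc, hrel, one_mul]; rfl
  obtain ⟨A, W, W', lam, hfr, hgen, -, hev⟩ := exists_open_emb hbase
  set σ₀ := emb (pinsX g D O) α β A with hσ₀
  let top : Fin (g - 1) := ⟨g - 2, by omega⟩
  let i : Fin (g + s) := hbase.emi top
  let j : Fin (g + s) := hbase.last
  have hij : i < j := hbase.emi_lt_last top
  have hi : i.1 < (pinsX g D O).g := hbase.emi_lt top
  have hj : j.1 < (pinsX g D O).g := hbase.last_lt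
  have hrep0 : IsRepB (pinsX g D O) σ₀ := isRepB_emb (D := pinsX g D O) hbase hfr.det
  obtain ⟨hc, hc'⟩ := contDiff_qSwap (r := r)
  have hmv : IsMv (pinsX g D O) (sM (r := r) qSwap i j) (sM qSwap' i j) :=
    isMv_sM qSwap_left hc hc' hij hi (Or.inl hj)
  set σ₁ := sM qSwap i j σ₀ with hσ₁
  have hrep1 : IsRepB (pinsX g D O) σ₁ := isRepB_sM _ qSwap hij hi (Or.inl hj) hrep0
  -- the entries of the new tuple
  have hmid : mid adjugate i j σ₀ = 1 := by
    refine mid_eq_one i j fun k h1 h2 => ?_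
    have h1' : g - 2 < k.1 := h1
    have h2' : k.1 < g - 1 := h2
    omega
  have hji : j ≠ i := ne_of_gt hij
  have hAi : cm adjugate (σ₀ (i, false)) (σ₀ (i, true)) = 1 := by
    rw [hσ₀, emb_lag hbase A top, emb_lag hbase A top]
    exact (cm_one_left (hfr.det top)).2
  have e1 : ∀ c, σ₁ (j, c) = σ₀ (i, c) := fun c => by
    cases c <;> simp [hσ₁, sM, slide, hji, qSwap, quadAt, hmid, adjugate_one]
  have e2 : ∀ c, σ₁ (i, c) = σ₀ (j, c) := fun c => by
    cases c <;> simp [hσ₁, sM, slide, qSwap, quadAt, hmid, hAi, adjugate_one]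
  set x₁ := toPT D σ₁ with hx₁
  have hX1 : IsX D x₁ := isX_toPT hD hrep1
  have hlagmem : ∀ a : Fin (g - 1), ∃ k, x₁ (Sum.inl k) = A a := by
    intro a
    by_cases ha : a = top
    · refine ⟨(⟨g - 1, by omega⟩, false), ?_⟩
      show σ₁ (Fin.castAdd s ⟨g - 1, _⟩, false) = _
      rw [show (Fin.castAdd s ⟨g - 1, (by omega : g - 1 < g)⟩) = j from Fin.ext rfl, e1, hσ₀,
        emb_lag hbase A top, ha]
      rfl
    · refine ⟨(⟨a.1, by omega⟩, false), ?_⟩
      show σ₁ (Fin.castAdd s ⟨a.1, _⟩, false) = _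
      rw [show (Fin.castAdd s ⟨a.1, (by omega : a.1 < g)⟩) = hbase.emi a from Fin.ext rfl, hσ₁,
        sM_of_ne qSwap σ₀ (k := (hbase.emi a, false))
          (fun e => ha (Fin.ext (by
            have h := congrArg Fin.val (show hbase.emi a = hbase.emi top from e)
            exact h)))
          (fun e => by
            have h : a.1 = g - 1 := congrArg Fin.val (show hbase.emi a = hbase.last from e)
            omega), hσ₀, emb_lag hbase A a]
      rfl
  have hS1 : IsSchurX D x₁ := by
    intro c hc1 _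
    have hcom : ∀ M ∈ Algebra.adjoin ℂ (Set.range (lag A)), c * M = M * c := by
      intro M hM
      induction hM using Algebra.adjoin_induction with
      | mem M hM =>
        obtain ⟨⟨a, b⟩, rfl⟩ := hM
        cases b
        · obtain ⟨k, hk⟩ := hlagmem a
          show c * A a = A a * c
          rw [← hk]
          exact hc1 k
        · show c * 1 = 1 * c
          rw [mul_one, one_mul]
      | algebraMap z => exact (Algebra.commutes z c).symm
      | add M N _ _ h1 h2 => rw [mul_add, add_mul, h1, h2]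
      | mul M N _ _ h1 h2 => rw [← mul_assoc, h1, mul_assoc, h2, mul_assoc]
    have hall : ∀ M, c * M = M * c := fun M => hcom M (by rw [hgen]; exact Algebra.mem_top)
    obtain ⟨z, hz⟩ := Matrix.mem_range_scalar_iff_commute_single.2 fun a b _ =>
      (show Commute (Matrix.single a b 1) c from (hall _).symm)
    exact ⟨z, by rw [← hz, scalar_apply, ← smul_one_eq_diagonal]⟩
  have hloc : ∀ᶠ y in 𝓝 x₁, IsX D y → InX D O y := by
    have h1 : Tendsto (toTup (g := g) D) (𝓝 x₁) (𝓝 σ₁) := by
      have : Continuous (toTup (g := g) D) := continuous_pi fun ⟨m, c⟩ => by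
        refine Fin.addCases (fun a => ?_) (fun a => ?_) m
        · simpa [toTup] using continuous_apply (A := fun _ : Slot g s =>
            Matrix (Fin r) (Fin r) ℂ) (Sum.inl (a, c))
        · cases c
          · simp only [toTup, Fin.addCases_right, cond_false]
            exact continuous_const.mul (continuous_apply _)
          · simpa [toTup] using (continuous_const : Continuous fun _ : PT g s r ℂ => D a)
      have h := this.tendsto x₁
      rwa [hx₁, toTup_toPT hD (pinned_eq hrep1)] at h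
    have h2 : Tendsto (sM qSwap' i j) (𝓝 σ₁) (𝓝 σ₀) := by
      have h := hmv.smooth'.continuous.tendsto σ₁
      rwa [hσ₁, hmv.left _ hrep0.1] at h
    filter_upwards [(h2.comp h1).eventually hev] with y hy hyX
    have hrep := isRepB_toTup (O := O) hD hyX
    have hin := hmv.pull.inB
      (InIrr.inB (hy (isRepB_sM _ qSwap' hij hi (Or.inl hj) hrep)))
    rw [Function.comp_apply, sM_left qSwap_right hij hrep.1] at hin
    exact inX_of_inB hD hDO hin
  let L : Fin g := ⟨g - 1, by omega⟩
  have hL : L.1 + 1 = g := by show g - 1 + 1 = g; omega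
  have hspec : Spec (x₁ (Sum.inl (L, false))) lam (W top) (W' top) := by
    show Spec (σ₁ (Fin.castAdd s L, false)) lam (W top) (W' top)
    rw [show Fin.castAdd s L = j from Fin.ext rfl, e1, hσ₀, emb_lag hbase A top]
    exact hfr.spec top
  let q : Fin r := ⟨0, by omega⟩
  refine inX_of_near fun N hN => ?_
  obtain ⟨y, hyN, hy, hgood⟩ := exists_goodPtX_near (by omega) hr hD hL q hx hS hN
  exact ⟨y, hyN, inX_of_good hr hD hL q hspec hfr.indep hloc
    (fun N hN => exists_goodPtX_near (by omega) hr hD hL q hX1 hS1 hN) hy hgood⟩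

/-- All quasi-unipotent classes, genus at least three: polynomials vanishing at the irreducible
tuples over one number ring in the classes vanish at all semisimple or scalar commutant tuples in
them. -/
theorem vanish_all_classes (hg : 3 ≤ g) (hr : 2 ≤ r) (c : Fin s → Matrix (Fin r) (Fin r) ℂ)
    (hc1 : ∀ j, (c j).det = 1) (hqu : ∀ j, QU (c j)) :
    ∃ M : ℕ, 0 < M ∧
      ∀ σ : (Fin g × Bool) ⊕ Fin s → Matrix (Fin r) (Fin r) ℂ, (∀ k, (σ k).det = 1) →
      (∀ j, Cj (c j) (σ (Sum.inr j))) →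
      rel (fun N => N⁻¹) (fun k => σ (Sum.inl k)) * (List.ofFn fun j => σ (Sum.inr j)).prod = 1 →
      ((∀ U : Submodule ℂ (Fin r → ℂ), (∀ k, ∀ x ∈ U, σ k *ᵥ x ∈ U) →
          ∃ V : Submodule ℂ (Fin r → ℂ), (∀ k, ∀ x ∈ V, σ k *ᵥ x ∈ V) ∧ IsCompl U V) ∨
        (∀ m : Matrix (Fin r) (Fin r) ℂ, (∀ k, m * σ k = σ k * m) →
          ∃ z : ℂ, m = z • (1 : Matrix (Fin r) (Fin r) ℂ))) →
      ∀ f : MvPolynomial (((Fin g × Bool) ⊕ Fin s) × Fin r × Fin r) ℂ,
      (∀ τ : (Fin g × Bool) ⊕ Fin s → Matrix (Fin r) (Fin r) ℂ,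
        (∀ k a b, τ k a b ∈ RM M) → (∀ k, (τ k).det = 1) → (∀ j, Cj (c j) (τ (Sum.inr j))) →
        rel (fun N => N⁻¹) (fun k => τ (Sum.inl k)) * (List.ofFn fun j => τ (Sum.inr j)).prod = 1 →
        NoInvariant τ → MvPolynomial.eval (fun v => τ v.1 v.2.1 v.2.2) f = 0) →
      MvPolynomial.eval (fun v => σ v.1 v.2.1 v.2.2) f = 0 := by
  obtain ⟨M₀, d, ε, hM₀, hd, hprod, hε, hreps⟩ := exists_reps (by omega) c hc1 hqu
  obtain ⟨N, α, β, hN, hNR, hα, hβ, hαR, hβR, hrel⟩ := exists_base (by omega) hM₀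
    (fun j => d j.rev) (fun j => ε j.rev) (fun j => hd _) (fun j => hprod _) (fun j => hε _)
  have hM : 0 < 2 * r * M₀ := by positivity
  refine ⟨2 * r * M₀, hM, fun σ hdet hcl hrel' hσ f hf => ?_⟩
  let D : Fin s → Matrix (Fin r) (Fin r) ℂ := fun j => bidiag (d j) (N • ε j)
  have hD : ∀ j, (D j).det = 1 := fun j => by rw [det_bidiag]; exact hprod j
  have hDO : ∀ j, D j ∈ MatR (RM (2 * r * M₀)) r := fun j => mem_MatR.2 fun a b => by
    simp only [D, bidiag, of_apply, Pi.smul_apply, smul_eq_mul]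
    split_ifs
    · exact root_mem_RM hM (by rw [mul_comm, pow_mul, hd, one_pow])
    · rcases hε j a with h | h <;> simp [h, hNR]
    · exact zero_mem _
  refine vanish_classes (by omega) hr hD hDO (fun y hy hS => inX_all hg hr hD hDO ?_ hα hβ
    (mem_MatR.2 hαR) (mem_MatR.2 hβR) ?_ hy hS) (fun j m => hreps N hN j m) hdet hcl hrel' hσ f hf
  · intro ζ hζ
    exact root_mem_RM hM (by
      rw [show 2 * r * M₀ = r * (2 * M₀) by ring, pow_mul, hζ, one_pow])
  · rw [Kd_eq_prod]
    exact hrel

end Vale.Agent.P002.Bd
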