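import Vale.Agent.P002.ProductDecomp

/-!
# P002: irreducible families generate the matrix algebra; block sums of them are semisimple
-/

namespace Vale.Agent.P002.Bd

open Matrix Vale.Agent.P002.Prod

variable {r : ℕ} {ι : Type*}

/-- Burnside: an irreducible family generates the whole matrix algebra. -/
theorem adjoin_eq_top_of_irred {ρ : ι → Matrix (Fin r) (Fin r) ℂ} (h : Irred ρ) :
    Algebra.adjoin ℂ (Set.range ρ) = ⊤ := by
  classical
  let T : Matrix (Fin r) (Fin r) ℂ ≃ₐ[ℂ] Module.End ℂ (Fin r → ℂ) := Matrix.toLinAlgEquiv'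
  let A : Subalgebra ℂ (Module.End ℂ (Fin r → ℂ)) :=
    Algebra.adjoin ℂ (Set.range fun x => T (ρ x))
  have : Nonempty (Fin r) := ⟨⟨0, Nat.pos_of_ne_zero h.1⟩⟩
  have hsimp : IsSimpleModule A (Fin r → ℂ) := by
    refine { eq_bot_or_eq_top := fun W => ?_ }
    have hinv : Inv ρ (W.restrictScalars ℂ) := fun x v hv =>
      W.smul_mem (⟨T (ρ x), Algebra.subset_adjoin ⟨x, rfl⟩⟩ : A) hv
    rcases h.2 _ hinv with hb | ht
    · exact Or.inl ((Submodule.restrictScalars_eq_bot_iff ℂ _ _).1 hb)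
    · exact Or.inr ((Submodule.restrictScalars_eq_top_iff ℂ _ _).1 ht)
  have hcent : ∀ φ : Module.End A (Fin r → ℂ), ∃ z : ℂ, ∀ v, φ v = z • v := by
    intro φ
    set C := LinearMap.toMatrix' (φ.restrictScalars ℂ) with hC
    have hCφ : ∀ v, C *ᵥ v = φ v := fun v => by
      rw [hC, LinearMap.toMatrix'_mulVec]; rfl
    obtain ⟨z, hz⟩ := h.schur (c := C) fun x => Matrix.ext_of_mulVec_single fun i => by
      rw [← mulVec_mulVec, ← mulVec_mulVec, hCφ, hCφ]
      exact φ.map_smul (⟨T (ρ x), Algebra.subset_adjoin ⟨x, rfl⟩⟩ : A) _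
    exact ⟨z, fun v => by rw [← hCφ, hz, smul_mulVec, one_mulVec]⟩
  have hA : ∀ G : Module.End ℂ (Fin r → ℂ), G ∈ A := by
    intro G
    let f : Module.End (Module.End A (Fin r → ℂ)) (Fin r → ℂ) :=
      { toFun := G
        map_add' := G.map_add
        map_smul' := fun φ v => by
          obtain ⟨z, hz⟩ := hcent φ
          show G (φ v) = φ (G v)
          rw [hz, hz, map_smul] }
    obtain ⟨a, ha⟩ := jacobson_density (R := A) (M := Fin r → ℂ) f (Finset.univ.image fun i : Fin r =>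
      (Pi.single i 1 : Fin r → ℂ))
    have : G = (a : Module.End ℂ (Fin r → ℂ)) := LinearMap.pi_ext' fun i => by
      refine LinearMap.ext_ring ?_
      exact ha (Pi.single i 1) (Finset.mem_image.2 ⟨i, Finset.mem_univ i, rfl⟩)
    exact this ▸ a.2
  have hmap : (Algebra.adjoin ℂ (Set.range ρ)).map T.toAlgHom = A := by
    rw [AlgHom.map_adjoin, ← Set.range_comp]; rfl
  refine eq_top_iff.2 fun M _ => ?_
  have hM : T.toAlgHom M ∈ (Algebra.adjoin ℂ (Set.range ρ)).map T.toAlgHom := hmap ▸ hA _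
  obtain ⟨N, hN, e⟩ := Subalgebra.mem_map.1 hM
  exact T.injective e ▸ hN

/-- Subspaces invariant under a generating family are invariant under everything it generates. -/
theorem inv_mulVec_of_adjoin {k d : ℕ} (L : Matrix (Fin k) (Fin k) ℂ →ₐ[ℂ] Matrix (Fin d) (Fin d) ℂ)
    {A : ι → Matrix (Fin k) (Fin k) ℂ} (hA : Irred A) {U : Submodule ℂ (Fin d → ℂ)}
    (hU : ∀ x, ∀ v ∈ U, L (A x) *ᵥ v ∈ U) (X : Matrix (Fin k) (Fin k) ℂ) :
    ∀ v ∈ U, L X *ᵥ v ∈ U := by
  have hX : X ∈ Algebra.adjoin ℂ (Set.range A) := by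
    rw [adjoin_eq_top_of_irred hA]; exact Algebra.mem_top
  induction hX using Algebra.adjoin_induction with
  | mem X hX => obtain ⟨x, rfl⟩ := hX; exact hU x
  | algebraMap z =>
    intro v hv
    rw [AlgHom.commutes, Algebra.algebraMap_eq_smul_one, smul_mulVec, one_mulVec]
    exact U.smul_mem z hv
  | add X Y _ _ hX hY =>
    intro v hv
    rw [map_add, add_mulVec]
    exact U.add_mem (hX v hv) (hY v hv)
  | mul X Y _ _ hX hY =>
    intro v hv
    rw [map_mul, ← mulVec_mulVec]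
    exact hX _ (hY v hv)

/-- A block sum of irreducible families is semisimple. -/
theorem semisimple_blocks {N : ℕ} {d : Fin N → ℕ} (e : (Σ j, Fin (d j)) ≃ Fin r)
    {B : ∀ j, ι → Matrix (Fin (d j)) (Fin (d j)) ℂ} (hB : ∀ j, Irred (B j))
    {ρ : ι → Matrix (Fin r) (Fin r) ℂ}
    (hρ : ∀ x, ρ x = reindex e e (blockDiagonal' fun j => B j x))
    (U : Submodule ℂ (Fin r → ℂ)) (hU : Inv ρ U) : ∃ V, Inv ρ V ∧ IsCompl U V := by
  classical
  let φ : ∀ j, (Fin (d j) → ℂ) →ₗ[ℂ] (Fin r → ℂ) := fun j =>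
    LinearMap.pi fun a => (LinearMap.proj (e.symm a).2).comp
      ((LinearMap.proj (e.symm a).1).comp (LinearMap.single ℂ (fun j => Fin (d j) → ℂ) j))
  have hφ : ∀ j v j' t, φ j v (e ⟨j', t⟩) =
      (Pi.single j v : ∀ j, Fin (d j) → ℂ) j' t := by
    intro j v j' t
    show (Pi.single j v : ∀ j, Fin (d j) → ℂ) (e.symm (e ⟨j', t⟩)).1 (e.symm (e ⟨j', t⟩)).2 = _
    exact congrArg (fun p : Σ j, Fin (d j) =>
      (Pi.single j v : ∀ j, Fin (d j) → ℂ) p.1 p.2) (e.symm_apply_apply ⟨j', t⟩)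
  have hinter : ∀ j x v, ρ x *ᵥ φ j v = φ j (B j x *ᵥ v) := by
    intro j x v
    funext a
    obtain ⟨⟨j', t⟩, rfl⟩ := e.surjective a
    rw [hφ, hρ, mulVec, dotProduct, ← e.sum_comp]
    simp only [reindex_apply, submatrix_apply, Equiv.symm_apply_apply, Fintype.sum_sigma, hφ]
    by_cases h : j' = j
    · subst h
      rw [Fintype.sum_eq_single j' fun i hi => by simp [Pi.single_eq_of_ne hi]]
      simp [mulVec, dotProduct]
    · rw [Pi.single_eq_of_ne h]
      refine Finset.sum_eq_zero fun i _ => Finset.sum_eq_zero fun s _ => ?_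
      by_cases hi : i = j
      · subst hi; rw [blockDiagonal'_apply_ne _ _ _ h, zero_mul]
      · simp [Pi.single_eq_of_ne hi]
  have hspan : ∀ u : Fin r → ℂ, ∑ j, φ j (fun t => u (e ⟨j, t⟩)) = u := by
    intro u
    funext a
    obtain ⟨⟨j', t⟩, rfl⟩ := e.surjective a
    rw [Finset.sum_apply, Fintype.sum_eq_single j' fun i hi => by
      rw [hφ, Pi.single_eq_of_ne hi.symm]; rfl]
    rw [hφ, Pi.single_eq_same]
  obtain ⟨V, hV⟩ := exists_maximal_of_wellFoundedGT
    (fun V : Submodule ℂ (Fin r → ℂ) => Inv ρ V ∧ Disjoint U V)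
    ⟨⊥, fun x v hv => by rw [(Submodule.mem_bot ℂ).1 hv, mulVec_zero]; exact zero_mem _,
      disjoint_bot_right⟩
  obtain ⟨⟨hVi, hVd⟩, hmax⟩ := hV
  refine ⟨V, hVi, hVd, codisjoint_iff.2 (Submodule.eq_top_iff'.2 fun u => ?_)⟩
  have hS : Inv ρ (U ⊔ V) := by
    intro x v hv
    obtain ⟨a, ha, b, hb, rfl⟩ := Submodule.mem_sup.1 hv
    rw [mulVec_add]
    exact Submodule.add_mem_sup (hU x a ha) (hVi x b hb)
  rw [← hspan u]
  refine Submodule.sum_mem _ fun j _ => ?_
  let K : Submodule ℂ (Fin (d j) → ℂ) := (U ⊔ V).comap (φ j)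
  have hK : Inv (B j) K := fun x v hv => by
    show φ j (B j x *ᵥ v) ∈ U ⊔ V
    rw [← hinter]; exact hS x _ hv
  rcases (hB j).2 K hK with hb | ht
  · exfalso
    set W := LinearMap.range (φ j)
    have hW : Inv ρ W := by
      rintro x _ ⟨v, rfl⟩; exact ⟨_, (hinter j x v).symm⟩
    have hdisj : Disjoint (U ⊔ V) W := Submodule.disjoint_def.2 fun w hw hwW => by
      obtain ⟨v, rfl⟩ := hwW
      have : v ∈ K := hw
      rw [hb, Submodule.mem_bot] at this
      rw [this, map_zero]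
    have hle : V ⊔ W ≤ V := hmax ⟨fun x v hv => by
      obtain ⟨a, ha, b, hb', rfl⟩ := Submodule.mem_sup.1 hv
      rw [mulVec_add]
      exact Submodule.add_mem_sup (hVi x a ha) (hW x b hb'),
      hVd.disjoint_sup_right_of_disjoint_sup_left hdisj⟩ le_sup_left
    obtain ⟨v, hv⟩ : ∃ v : Fin (d j) → ℂ, v ≠ 0 := ⟨Pi.single ⟨0, Nat.pos_of_ne_zero (hB j).1⟩ 1, by simp⟩
    have hmem : φ j v ∈ U ⊔ V :=
      Submodule.mem_sup_right (hle (Submodule.mem_sup_right ⟨v, rfl⟩))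
    have : v ∈ K := hmem
    rw [hb, Submodule.mem_bot] at this
    exact hv this
  · exact (ht ▸ Submodule.mem_top : (fun t => u (e ⟨j, t⟩)) ∈ K)

end Vale.Agent.P002.Bd
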