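import Vale.Agent.P002.Calc

/-!
# P002: cocycles on a monoid of matrices that spans the matrix algebra are coboundaries
-/

namespace Vale.Agent.P002.Bd

open Matrix

variable {r : ℕ}

/-- A linear map of the matrix algebra satisfying the product rule is inner. -/
theorem exists_inner (hr : r ≠ 0) (δ : Matrix (Fin r) (Fin r) ℂ →ₗ[ℂ] Matrix (Fin r) (Fin r) ℂ)
    (hδ : ∀ X Y, δ (X * Y) = δ X * Y + X * δ Y) :
    ∃ v : Matrix (Fin r) (Fin r) ℂ, ∀ X, δ X = X * v - v * X := by
  let o : Fin r := ⟨0, Nat.pos_of_ne_zero hr⟩
  let u : Matrix (Fin r) (Fin r) ℂ := ∑ a, δ (single a o 1) * single o a 1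
  have hone : (∑ a : Fin r, single a a (1 : ℂ)) = 1 := by
    ext i j
    by_cases h : i = j <;> simp [Matrix.sum_apply, Matrix.single_apply, Matrix.one_apply, h]
  have hb : ∀ b c : Fin r, u * single b c 1 - single b c 1 * u = δ (single b c 1) := by
    intro b c
    have e1 : u * single b c 1 = δ (single b o 1) * single o c 1 := by
      simp only [u, Finset.sum_mul, mul_assoc]
      rw [Finset.sum_eq_single b (fun a _ hab => by
        rw [single_mul_single_of_ne _ _ _ _ hab, mul_zero]) (by simp), single_mul_single_same,
        one_mul]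
    have e2 : single b c 1 * u = δ (single b o 1) * single o c 1 - δ (single b c 1) := by
      have hterm : ∀ a, single b c 1 * δ (single a o 1) =
          δ (single b c 1 * single a o 1) - δ (single b c 1) * single a o 1 := fun a => by
        rw [hδ]; abel
      simp only [u, Finset.mul_sum, ← mul_assoc, hterm, sub_mul, Finset.sum_sub_distrib]
      congr 1
      · rw [Finset.sum_eq_single c (fun a _ hac => by
          rw [single_mul_single_of_ne _ _ _ _ (Ne.symm hac), map_zero, zero_mul]) (by simp),
          single_mul_single_same, one_mul]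
      · simp only [mul_assoc, single_mul_single_same, ← Finset.mul_sum, hone, mul_one]
    rw [e1, e2]; abel
  refine ⟨-u, fun X => ?_⟩
  have hX : u * X - X * u = δ X := by
    conv_rhs => rw [matrix_eq_sum_single X]
    conv_lhs => rw [matrix_eq_sum_single X]
    simp only [Finset.mul_sum, Finset.sum_mul, map_sum, ← Finset.sum_sub_distrib]
    refine Finset.sum_congr rfl fun b _ => Finset.sum_congr rfl fun c _ => ?_
    rw [show single b c (X b c) = X b c • single b c (1 : ℂ) by simp, mul_smul_comm, smul_mul_assoc,
      ← smul_sub, hb, map_smul]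
  rw [← hX, mul_neg, neg_mul]
  abel

/-- A cocycle compatible with the linear relations between spanning values is a coboundary. -/
theorem exists_coboundary_of_wd {ι : Type*} (hr : r ≠ 0) (W c : ι → Matrix (Fin r) (Fin r) ℂ)
    (m : ι → ι → ι) (hdet : ∀ w, (W w).det = 1) (hm : ∀ u w, W (m u w) = W u * W w)
    (hc : ∀ u w, c (m u w) = c w + adjugate (W w) * c u * W w)
    (hspan : Submodule.span ℂ (Set.range W) = ⊤)
    (hwd : ∀ l : ι →₀ ℂ, Finsupp.linearCombination ℂ W l = 0 →
      Finsupp.linearCombination ℂ (fun w => W w * c w) l = 0) :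
    ∃ v, ∀ w, c w = v - adjugate (W w) * v * W w := by
  set T := Finsupp.linearCombination ℂ W with hT
  set S := Finsupp.linearCombination ℂ fun w => W w * c w with hS
  have hsurj : LinearMap.range T = ⊤ := by rw [hT, Finsupp.range_linearCombination, hspan]
  obtain ⟨σ, hσ⟩ := T.exists_rightInverse_of_surjective hsurj
  have hker : ∀ l, S (σ (T l)) = S l := fun l => by
    have := hwd (σ (T l) - l) (by
      rw [map_sub, show T (σ (T l)) = T l from LinearMap.congr_fun hσ (T l), sub_self])
    rwa [map_sub, sub_eq_zero] at this
  let δ := S.comp σ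
  have hgen : ∀ w, δ (W w) = W w * c w := fun w => by
    have := hker (Finsupp.single w 1)
    simpa [δ, hT, hS] using this
  have hmul : ∀ X Y, δ (X * Y) = δ X * Y + X * δ Y := by
    intro X Y
    have hX : X ∈ Submodule.span ℂ (Set.range W) := hspan ▸ Submodule.mem_top
    have hY : Y ∈ Submodule.span ℂ (Set.range W) := hspan ▸ Submodule.mem_top
    induction hX using Submodule.span_induction with
    | mem X hX =>
      obtain ⟨u, rfl⟩ := hX
      induction hY using Submodule.span_induction with
      | mem Y hY =>
        obtain ⟨w, rfl⟩ := hY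
        rw [← hm, hgen, hgen, hgen, hm, hc, mul_add, add_comm]
        congr 1
        · simp only [mul_assoc]
          rw [← mul_assoc (W w) (adjugate (W w)), (mul_adj_cancel (hdet w)).1, one_mul]
        · rw [mul_assoc]
      | zero => simp
      | add Y Y' _ _ h h' => simp only [mul_add, map_add, h, h']; abel
      | smul z Y _ h => simp only [mul_smul_comm, map_smul, h, smul_add]
    | zero => simp
    | add X X' _ _ h h' => simp only [add_mul, map_add, h, h']; abel
    | smul z X _ h => simp only [smul_mul_assoc, map_smul, h, smul_add]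
  obtain ⟨v, hv⟩ := exists_inner hr δ hmul
  refine ⟨v, fun w => ?_⟩
  have h := congrArg (fun Z => adjugate (W w) * Z) ((hgen w).symm.trans (hv (W w)))
  obtain ⟨w1, w2⟩ := mul_adj_cancel (hdet w)
  simp only [← mul_assoc, mul_sub, w2, one_mul] at h
  exact h

end Vale.Agent.P002.Bd
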