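import Vale.Agent.P002.Bd.Moves
import Vale.Agent.P002.Tangent

/-!
# P002: boundary classes, the base tuples and their first properties
-/

namespace Vale.Agent.P002.Bd

open Matrix

variable {n r l : ℕ}

/-- The hypotheses on the data: `l ≥ 2` lag handles, one handle `(α, β)` with commutator `W`. -/
structure Base (D : Pins n r) (l : ℕ) (α β : Matrix (Fin r) (Fin r) ℂ) : Prop where
  genus : l + 1 = D.g
  le : D.g ≤ n
  two_le : 2 ≤ r
  two_lag : 2 ≤ l
  detJ : ∀ k, (D.J k).det = 1
  memJ : ∀ k a b, D.J k a b ∈ D.R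
  detA : α.det = 1
  detB : β.det = 1
  memA : ∀ a b, α a b ∈ D.R
  memB : ∀ a b, β a b ∈ D.R
  comm : cm adjugate α β = D.W
  roots : ∀ ζ : ℂ, ζ ^ r = 1 → ζ ∈ D.R

variable {D : Pins n r} {α β : Matrix (Fin r) (Fin r) ℂ}

theorem Base.lag_le (h : Base D l α β) : l ≤ n := by have := h.genus; have := h.le; omega

/-- The lag handles inside all handles. -/
def Base.emi (h : Base D l α β) (i : Fin l) : Fin n := ⟨i.1, i.2.trans_le h.lag_le⟩

/-- The last free handle. -/
def Base.last (h : Base D l α β) : Fin n :=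
  ⟨l, by have := h.genus; have := h.le; omega⟩

theorem Base.emi_lt (h : Base D l α β) (i : Fin l) : (h.emi i).1 < D.g := by
  have := h.genus; have := i.2; show i.1 < D.g; omega

theorem Base.last_lt (h : Base D l α β) : h.last.1 < D.g := by
  have := h.genus; show l < D.g; omega

theorem Base.emi_lt_last (h : Base D l α β) (i : Fin l) : h.emi i < h.last := i.2

theorem Base.emi_lt_emi (h : Base D l α β) {i j : Fin l} (hij : i < j) : h.emi i < h.emi j := hij

/-- The tuple with lag handles `(A, 1)`, the handle `(α, β)` and pinned handles `(1, J)`. -/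
def emb (D : Pins n r) (α β : Matrix (Fin r) (Fin r) ℂ) (A : Fin l → Matrix (Fin r) (Fin r) ℂ) :
    Tup n r ℂ := fun k =>
  if h : k.1.1 < l then bif k.2 then 1 else A ⟨k.1.1, h⟩
  else if k.1.1 = l then bif k.2 then β else α
  else bif k.2 then D.J k.1 else 1

/-- The lag part of a tuple. -/
def Base.res {R : Type*} (h : Base D l α β) (σ : Fin n × Bool → R) : Fin l × Bool → R :=
  fun k => σ (h.emi k.1, k.2)

theorem emb_lag (h : Base D l α β) (A : Fin l → Matrix (Fin r) (Fin r) ℂ) (i : Fin l) (c : Bool) :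
    emb D α β A (h.emi i, c) = bif c then 1 else A i := by
  simp [emb, Base.emi]

theorem emb_last (h : Base D l α β) (A : Fin l → Matrix (Fin r) (Fin r) ℂ) (c : Bool) :
    emb D α β A (h.last, c) = bif c then β else α := by
  simp [emb, Base.last]

theorem emb_pin (A : Fin l → Matrix (Fin r) (Fin r) ℂ) {k : Fin n} (hk : l < k.1) (c : Bool) :
    emb D α β A (k, c) = bif c then D.J k else 1 := by
  simp [emb, not_lt.2 hk.le, hk.ne']

theorem res_emb (h : Base D l α β) (A : Fin l → Matrix (Fin r) (Fin r) ℂ) :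
    h.res (emb D α β A) = lag A := by
  funext ⟨i, c⟩
  exact emb_lag h A i c

theorem det_emb (h : Base D l α β) {A : Fin l → Matrix (Fin r) (Fin r) ℂ}
    (hA : ∀ i, (A i).det = 1) : ∀ k, (emb D α β A k).det = 1 := by
  rintro ⟨k, c⟩
  simp only [emb]
  split_ifs <;> cases c <;> simp [hA, h.detA, h.detB, h.detJ]

theorem cm_one_left {M : Matrix (Fin r) (Fin r) ℂ} (hM : M.det = 1) :
    cm adjugate 1 M = 1 ∧ cm adjugate M 1 = 1 := by
  simp [cm, (mul_adj_cancel hM).1]

theorem pre_eq_one {σ : Tup n r ℂ} (m : ℕ)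
    (h : ∀ k : Fin n, k.1 < m → cm adjugate (σ (k, false)) (σ (k, true)) = 1) : pre m σ = 1 := by
  refine List.prod_eq_one fun x hx => ?_
  obtain ⟨a, ha, rfl⟩ := List.mem_iff_getElem.1 hx
  simp only [List.length_take, cmList, List.length_ofFn] at ha
  simp only [List.getElem_take, cmList, List.getElem_ofFn]
  exact h _ (by show a < m; omega)

theorem post_eq_one {σ : Tup n r ℂ} (m : ℕ)
    (h : ∀ k : Fin n, m ≤ k.1 → cm adjugate (σ (k, false)) (σ (k, true)) = 1) : post m σ = 1 := by
  refine List.prod_eq_one fun x hx => ?_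
  obtain ⟨a, ha, rfl⟩ := List.mem_iff_getElem.1 hx
  simp only [List.length_drop, cmList, List.length_ofFn] at ha
  simp only [List.getElem_drop, cmList, List.getElem_ofFn]
  exact h _ (by show m ≤ m + a; omega)

theorem isRepB_emb (h : Base D l α β) {A : Fin l → Matrix (Fin r) (Fin r) ℂ}
    (hA : ∀ i, (A i).det = 1) : IsRepB D (emb D α β A) := by
  refine ⟨det_emb h hA, ?_, fun k hk => ?_⟩
  · rw [rel_split _ h.last, pre_eq_one, post_eq_one, emb_last, emb_last, one_mul, mul_one]
    · exact h.comm
    · intro k hk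
      rw [emb_pin A (show l < k.1 from hk), emb_pin A (show l < k.1 from hk)]
      exact (cm_one_left (h.detJ k)).1
    · intro k hk
      have hk' : k.1 < l := hk
      rw [show k = h.emi ⟨k.1, hk'⟩ from rfl, emb_lag, emb_lag]
      exact (cm_one_left (hA _)).2
  · rw [emb_pin A (by have := h.genus; omega) true]
    rfl

/-- Every tuple `emb A` lies in the closure of the integral representations. -/
theorem inB_emb (h : Base D l α β) {A : Fin l → Matrix (Fin r) (Fin r) ℂ}
    (hA : ∀ i, (A i).det = 1) : InB D (emb D α β A) := by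
  intro f hf
  let C' : Matrix (Fin r) (Fin r) ℂ →+* Matrix (Fin r) (Fin r) (MvPolynomial (Var l r) ℂ) :=
    (MvPolynomial.C : ℂ →+* MvPolynomial (Var l r) ℂ).mapMatrix
  let T : Tup n r (MvPolynomial (Var l r) ℂ) := fun k =>
    if hk : k.1.1 < l then bif k.2 then 1 else gen (⟨k.1.1, hk⟩, false)
    else C' (emb D α β A k)
  have hT : ∀ (σ : Tup l r ℂ) k, (MvPolynomial.eval (coord σ)).mapMatrix (T k) =
      emb D α β (fun i => σ (i, false)) k := by
    intro σ ⟨k, c⟩
    simp only [T, emb]
    split_ifs <;> cases c <;>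
      simp only [cond_false, cond_true, map_one, gen_map, C', mapMatrix_adjoin_C]
  let f' : MvPolynomial (Var l r) ℂ := MvPolynomial.bind₁ (coord T) f
  have hev : ∀ σ : Tup l r ℂ, MvPolynomial.eval (coord σ) f' =
      MvPolynomial.eval (coord (emb D α β fun i => σ (i, false))) f := by
    intro σ
    change MvPolynomial.eval₂Hom (RingHom.id ℂ) (coord σ) _ = MvPolynomial.eval₂Hom _ _ f
    rw [MvPolynomial.eval₂Hom_bind₁]
    congr 2
    funext v
    simp only [coord, ← hT σ v.1]
    rfl
  have := inL_all h.two_le (fun i => ⟨A i, hA i⟩) f' fun B => by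
    rw [hev]
    refine hf _ ⟨isRepB_emb h fun i => ?_, fun k a b => ?_⟩
    · simp only [castT, cond_false, ← RingHom.map_det, (B i).2, map_one]
    · have h01 : ∀ a b, (1 : Matrix (Fin r) (Fin r) ℂ) a b ∈ D.R := fun a b => by
        rw [one_apply]; split_ifs
        exacts [one_mem _, zero_mem _]
      obtain ⟨k, c⟩ := k
      simp only [emb]
      split_ifs <;> cases c <;> simp only [cond_false, cond_true]
      · exact intCast_mem D.R _
      · exact h01 a b
      · exact h.memA a b
      · exact h.memB a b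
      · exact h01 a b
      · exact h.memJ _ a b
  rw [hev] at this
  exact this

theorem mid_congr' {M : Type*} [Monoid M] (iv : M → M) {σ τ : Fin n × Bool → M} (i j : Fin n)
    (h : ∀ k : Fin n, i.1 < k.1 → k.1 < j.1 → ∀ c, σ (k, c) = τ (k, c)) :
    mid iv i j σ = mid iv i j τ := by
  unfold mid
  congr 1
  apply List.ext_getElem
  · simp [cmList]
  · intro a h1 h2
    simp only [List.length_drop, List.length_take, cmList, List.length_ofFn] at h1
    simp only [List.getElem_drop, List.getElem_take, cmList, List.getElem_ofFn]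
    rw [h ⟨i.1 + 1 + a, by omega⟩ (by simp; omega) (by simp; omega) false,
      h ⟨i.1 + 1 + a, by omega⟩ (by simp; omega) (by simp; omega) true]

theorem mid_res (h : Base D l α β) (i j : Fin l) (σ : Tup n r ℂ) :
    mid adjugate (h.emi i) (h.emi j) σ = mid adjugate i j (h.res σ) := by
  unfold mid
  congr 1
  apply List.ext_getElem
  · have := h.lag_le; have := j.2
    simp [cmList, Base.emi]; omega
  · intro a h1 h2
    simp only [List.getElem_drop, List.getElem_take, cmList, List.getElem_ofFn]
    rfl

/-- Moves of two lag handles commute with the restriction to the lag handles. -/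
theorem res_sM (h : Base D l α β) (P : QMove) (i j : Fin l) (σ : Tup n r ℂ) :
    h.res (sM P (h.emi i) (h.emi j) σ) = sM P i j (h.res σ) := by
  funext ⟨k, c⟩
  have e : ∀ a b : Fin l, h.emi a = h.emi b ↔ a = b := fun a b =>
    ⟨fun e => Fin.ext (congrArg (fun x : Fin n => x.1) e), fun e => by rw [e]⟩
  simp only [Base.res, sM, slide, quadAt, mid_res h i j σ, e]

theorem res_tau (h : Base D l α β) (i : Fin l) (k : ℕ) (s : ℂ) (σ : Tup n r ℂ) :
    h.res (tau (h.emi i) k s σ) = tau i k s (h.res σ) := by
  funext ⟨a, c⟩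
  have e : ((h.emi a, c) = (h.emi i, true)) ↔ ((a, c) = (i, true)) := by
    simp [Base.emi, Fin.ext_iff]
  simp only [Base.res, tau, Function.update_apply, e]

end Vale.Agent.P002.Bd
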