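import Vale.Agent.P002.Bd.Product
import Vale.Agent.P002.Bd.Reduce

/-!
# P002: prescribed boundary classes on products of curves, in terms of the local statement

`Hall g s k M` says that integral points in classes with representatives `bidiag d (N • ε)`,
`d ^ M = 1`, are dense near every point with scalar commutant.
-/

namespace Vale.Agent.P002.Bd

open Matrix Vale.Agent.P002.Sb

/-- For some scaling of the representatives, every scalar commutant point is in the closure of the
points over `RM (2 k M)`. -/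
def Hall (g s k M : ℕ) : Prop :=
  ∀ d ε : Fin s → Fin k → ℂ, (∀ p a, d p a ^ M = 1) → (∀ p, ∏ a, d p a = 1) →
    (∀ p a, ε p a = 0 ∨ ε p a = 1) →
    ∃ N : ℂ, N ≠ 0 ∧ N ∈ RM (2 * k * M) ∧
      ∀ y : PT g s k ℂ, IsX (fun p => bidiag (d p) (N • ε p)) y →
        IsSchurX (fun p => bidiag (d p) (N • ε p)) y →
        InX (fun p => bidiag (d p) (N • ε p)) (RM (2 * k * M)) y

/-- Bidiagonal representatives whose diagonal consists of `M`-th roots of unity. -/
theorem exists_reps_pow {r s M : ℕ} (hr : 0 < r) (c : Fin s → Matrix (Fin r) (Fin r) ℂ)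
    (hdet : ∀ i, (c i).det = 1) (hroot : ∀ i z, (c i).charpoly.IsRoot z → z ^ M = 1) :
    ∃ d ε : Fin s → Fin r → ℂ, (∀ i a, d i a ^ M = 1) ∧ (∀ i, ∏ a, d i a = 1) ∧
      (∀ i a, ε i a = 0 ∨ ε i a = 1) ∧
      ∀ N : ℂ, N ≠ 0 → ∀ i m, Cj (c i) m ↔
        ∃ P : Matrix (Fin r) (Fin r) ℂ, P.det = 1 ∧
          m = P * bidiag (d i) (N • ε i) * adjugate P := by
  choose d ε P P' hP hP' hε hc hd using fun i => exists_bidiag (c i)
  refine ⟨d, ε, fun i a => hroot i _ (hd i a), fun i => ?_, hε, fun N hN i m => ?_⟩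
  · rw [← det_bidiag (d i) (ε i), ← hc i, det_mul, det_mul, hdet i, mul_one, ← det_mul, hP' i,
      det_one]
  · refine cj_iff_of_cj ?_ hr m
    obtain ⟨S, S', hS, hSe⟩ := bidiag_scale hN (d i) (ε i)
    have h1 : Cj (bidiag (d i) (N • ε i)) (bidiag (d i) (ε i)) := by
      have hS' : S' * S = 1 := mul_eq_one_comm.1 hS
      refine ⟨S', S, hS', ?_⟩
      rw [hSe, show S' * (S * bidiag (d i) (ε i) * S') * S =
          (S' * S) * bidiag (d i) (ε i) * (S' * S) by simp only [mul_assoc], hS', one_mul, mul_one]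
    refine h1.trans ⟨P i, P' i, hP i, ?_⟩
    rw [← hc i, show P i * (P' i * c i * P i) * P' i = (P i * P' i) * c i * (P i * P' i) by
      simp only [mul_assoc], hP i, one_mul, mul_one]

theorem root_mem_RM_of_dvd {n M : ℕ} (hM : 0 < M) (h : n ∣ M) {z : ℂ} (hz : z ^ n = 1) :
    z ∈ RM M := by
  obtain ⟨m, rfl⟩ := h
  exact root_mem_RM hM (by rw [pow_mul, hz, one_pow])

theorem RM_le {n M : ℕ} (hn : 0 < n) (hM : 0 < M) (h : n ∣ M) : RM n ≤ RM M := by
  refine Subring.closure_le.2 fun x hx => ?_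
  rcases hx with rfl | hx
  · exact Subring.subset_closure (Set.mem_insert _ _)
  · rw [Set.mem_singleton_iff] at hx
    subst hx
    exact root_mem_RM_of_dvd hM h (Complex.isPrimitiveRoot_exp n hn.ne').pow_eq_one

/-- No punctures: the integer points are dense near the scalar commutant points. -/
theorem hall_closed {g k : ℕ} (hg : 2 ≤ g) (hk : 2 ≤ k) (O : Subring ℂ)
    (D : Fin 0 → Matrix (Fin k) (Fin k) ℂ) {y : PT g 0 k ℂ} (hy : IsX D y) (hS : IsSchurX D y) :
    InX D O y := by
  have hrelX : ∀ z : PT g 0 k ℂ, relX D z = rel adjugate (hd z) := fun z => by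
    simp [relX, prodC, punList]
  intro f hf
  have key : InV (hd y) := inV_of_schur hg hk ⟨fun a => hy.1 _, (hrelX y).symm.trans hy.2⟩
    fun m hm => hS m hm fun j => j.elim0
  have he : ∀ z : Tup g k ℂ, MvPolynomial.eval (coord z)
      (MvPolynomial.bind₁ (fun v => Sum.elim (fun a => MvPolynomial.X (a, v.2.1, v.2.2))
        Fin.elim0 v.1) f) = MvPolynomial.eval (xcoord (Sum.elim z Fin.elim0 : PT g 0 k ℂ)) f := by
    intro z
    refine eval_bind (fun a b c => ?_) f
    cases a with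
    | inl a => simp [coord]
    | inr j => exact j.elim0
  have h0 : y = Sum.elim (hd y) Fin.elim0 := by
    funext a
    cases a with
    | inl a => rfl
    | inr j => exact j.elim0
  rw [h0, ← he]
  refine key _ fun τ hτ => ?_
  rw [he]
  refine hf _ ⟨⟨fun a => ?_, ?_⟩, fun a => mem_MatR.2 fun b c => ?_⟩
  · cases a with
    | inl a =>
      show (castT τ a).det = 1
      rw [castT, ← RingHom.map_det, (τ a).2, map_one]
    | inr j => exact j.elim0
  · rw [hrelX]
    show rel adjugate (castT τ) = 1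
    rw [castT_eq, ← map_rel (fun x : Matrix.SpecialLinearGroup (Fin k) ℤ => x⁻¹) adjugate
      (toC k) toC_inv, hτ, map_one]
  · cases a with
    | inl a => exact intCast_mem O _
    | inr j => exact j.elim0

/-- Density of the irreducible integral points for one punctured surface. -/
theorem dense_of_hall {g s k M : ℕ} (hk : 0 < k) (hM : 0 < M) (hg : s ≠ 0 → 2 ≤ g)
    (hall : 2 ≤ g → 2 ≤ k → Hall g s k M) {R : Subring ℂ} (hR : RM (2 * k * M) ≤ R) :
    Dense g s k M R := by
  intro c hc σ hσ hirr f hf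
  rcases Nat.lt_or_ge k 2 with hk1 | hk2
  · obtain rfl : k = 1 := by omega
    refine hf σ hσ hirr fun x a b => ?_
    have h := hσ.det x
    rw [Matrix.det_fin_one] at h
    rw [Subsingleton.elim a 0, Subsingleton.elim b 0, h]
    exact one_mem R
  rcases Nat.lt_or_ge g 2 with hg1 | hg2
  · exfalso
    obtain rfl : s = 0 := by
      by_contra h
      have := hg h
      omega
    have hone : k = 1 := by
      refine hirr.eq_one_of_scalar fun a => ?_
      rcases a with a | p
      swap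
      · exact p.elim0
      refine hirr.schur fun b => ?_
      rcases b with b | p
      swap
      · exact p.elim0
      obtain rfl : g = 1 := by have := a.1.isLt; omega
      have h1 : cm adjugate (σ (Sum.inl (0, false))) (σ (Sum.inl (0, true))) = 1 := by
        have h := hσ.rel
        rw [relW_eq_relP hσ.det] at h
        simpa [relP, rel, cmList] using h
      set x := σ (Sum.inl (0, false)) with hx
      set y := σ (Sum.inl (0, true)) with hy
      have ax : adjugate x * x = 1 := by rw [adjugate_mul, hσ.det, one_smul]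
      have ay : adjugate y * y = 1 := by rw [adjugate_mul, hσ.det, one_smul]
      have hxy : x * y = y * x := by
        calc x * y = x * y * adjugate x * adjugate y * (y * x) := by
              rw [mul_assoc (x * y * adjugate x), ← mul_assoc (adjugate y), ay, one_mul,
                mul_assoc (x * y), ax, mul_one]
          _ = y * x := by rw [show x * y * adjugate x * adjugate y = 1 from h1, one_mul]
      obtain ⟨a, p⟩ := a
      obtain ⟨b, q⟩ := b
      rw [Subsingleton.elim a 0, Subsingleton.elim b 0]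
      cases p <;> cases q <;> simp [← hx, ← hy, hxy]
    omega
  have hcdet : ∀ p, (c p).det = 1 := fun p => by
    obtain ⟨P, P', hP, he⟩ := hσ.cls p
    have h := hσ.det (Sum.inr p)
    rwa [← he, det_mul, det_mul, mul_comm P.det, mul_assoc, ← det_mul, hP, det_one, mul_one] at h
  obtain ⟨d, ε, hd, hprod, hε, hcj⟩ := exists_reps_pow hk c hcdet hc
  have h2 : 0 < 2 * k * M := Nat.mul_pos (by omega) hM
  obtain ⟨N, hN0, hNR, hN⟩ : ∃ N : ℂ, N ≠ 0 ∧ N ∈ RM (2 * k * M) ∧
      ∀ y : PT g s k ℂ, IsX (fun p => bidiag (d p) (N • ε p)) y →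
        IsSchurX (fun p => bidiag (d p) (N • ε p)) y →
        InX (fun p => bidiag (d p) (N • ε p)) (RM (2 * k * M)) y := by
    rcases Nat.eq_zero_or_pos s with rfl | hs
    · exact ⟨1, one_ne_zero, one_mem _, fun y hy hS => hall_closed hg2 hk2 _ _ hy hS⟩
    · exact hall (hg hs.ne') hk2 d ε hd hprod hε
  refine vanish_classes hg2 hk2 (fun p => by rw [det_bidiag]; exact hprod p)
    (fun p => mem_MatR.2 fun a b => ?_) hN (hcj N hN0) hσ.det hσ.cls hσ.rel
    (Or.inr fun m hm => hirr.schur hm) f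
    fun τ hτR hτd hτc hτr hτi => hf τ ⟨hτd, hτc, hτr⟩ ⟨hirr.1, hτi⟩ fun x a b => hR (hτR x a b)
  simp only [bidiag, of_apply, Pi.smul_apply, smul_eq_mul]
  split_ifs
  · exact root_mem_RM_of_dvd h2 ⟨2 * k, by ring⟩ (hd p a)
  · rcases hε p a with h | h <;> simp [h, hNR, zero_mem]
  · exact zero_mem _

/-- Products of curves: one ring for all boundary classes with eigenvalues of order dividing `M`. -/
theorem vanish_product_of_hall {I : Type} [Fintype I] [DecidableEq I] (g s : I → ℕ)
    (hg : ∀ i, s i ≠ 0 → 2 ≤ g i) {r M : ℕ} (hM : 0 < M)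
    (hall : ∀ g s k M : ℕ, 2 ≤ g → 2 ≤ k → 0 < M → Hall g s k M)
    (c : ∀ i, Fin (s i) → Matrix (Fin r) (Fin r) ℂ)
    (hc : ∀ i p z, (c i p).charpoly.IsRoot z → z ^ M = 1)
    (σ : (Σ i, Slot (g i) (s i)) → Matrix (Fin r) (Fin r) ℂ)
    (hσ : ∀ i, Pt (c i) fun a => σ ⟨i, a⟩)
    (hcomm : ∀ x y, x.1 ≠ y.1 → σ x * σ y = σ y * σ x)
    (hs : ∀ U, Prod.Inv σ U → ∃ V, Prod.Inv σ V ∧ IsCompl U V)
    (f : MvPolynomial ((Σ i, Slot (g i) (s i)) × Fin r × Fin r) ℂ)
    (hinv : ∀ (P P' : Matrix (Fin r) (Fin r) ℂ)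
      (ρ : (Σ i, Slot (g i) (s i)) → Matrix (Fin r) (Fin r) ℂ), P * P' = 1 →
      MvPolynomial.eval (fun v => (P * ρ v.1 * P') v.2.1 v.2.2) f =
        MvPolynomial.eval (fun v => ρ v.1 v.2.1 v.2.2) f)
    (hf : ∀ ρ : (Σ i, Slot (g i) (s i)) → Matrix (Fin r) (Fin r) ℂ,
      (∀ x a b, ρ x a b ∈ RM (2 * r.factorial * (M * r.factorial))) →
      (∀ i, Pt (c i) fun a => ρ ⟨i, a⟩) →
      (∀ x y, x.1 ≠ y.1 → ρ x * ρ y = ρ y * ρ x) →
      (∀ U, Prod.Inv ρ U → ∃ V, Prod.Inv ρ V ∧ IsCompl U V) →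
      MvPolynomial.eval (fun v => ρ v.1 v.2.1 v.2.2) f = 0) :
    MvPolynomial.eval (fun v => σ v.1 v.2.1 v.2.2) f = 0 := by
  have hM' : 0 < M * r.factorial := Nat.mul_pos hM r.factorial_pos
  have hbig : 0 < 2 * r.factorial * (M * r.factorial) :=
    Nat.mul_pos (Nat.mul_pos two_pos r.factorial_pos) hM'
  refine vanish_product g s hM
    (Subring.closure_mono (Set.singleton_subset_iff.2 (Set.mem_insert _ _)))
    (fun z hz => root_mem_RM_of_dvd hbig (dvd_mul_left _ _) hz)
    (fun i k hk hkr => dense_of_hall hk hM' (hg i)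
      (fun hg' hk' => hall _ _ _ _ hg' hk' hM') ?_)
    c hc σ hσ hcomm hs f hinv hf
  refine RM_le (Nat.mul_pos (by omega) hM') hbig (Nat.mul_dvd_mul_right ?_ _)
  exact Nat.mul_dvd_mul_left 2 (Nat.dvd_factorial hk hkr)

end Vale.Agent.P002.Bd
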