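import Vale.Agent.P002.Bd.Bridge
import Vale.Agent.P002.G2.Final

/-!
# P002: boundary classes in genus at least two
-/

namespace Vale.Agent.P002.Bd

open Matrix Vale.Agent.P002.Sb

set_option backward.isDefEq.respectTransparency false

variable {r g s : ℕ}

/-- Prescribed quasi-unipotent classes in genus at least two. -/
theorem vanish_boundary_classes (hg : 2 ≤ g) (hr : 2 ≤ r) (c : Fin s → Matrix (Fin r) (Fin r) ℂ)
    (hc1 : ∀ j, (c j).det = 1) (hqu : ∀ j, QU (c j)) :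
    ∃ M : ℕ, 0 < M ∧
      ∀ σ : (Fin g × Bool) ⊕ Fin s → Matrix (Fin r) (Fin r) ℂ, (∀ k, (σ k).det = 1) →
      (∀ j, Cj (c j) (σ (Sum.inr j))) →
      rel (fun N => N⁻¹) (fun k => σ (Sum.inl k)) * (List.ofFn fun j => σ (Sum.inr j)).prod = 1 →
      ((∀ U : Submodule ℂ (Fin r → ℂ), (∀ k, ∀ x ∈ U, σ k *ᵥ x ∈ U) →
          ∃ V : Submodule ℂ (Fin r → ℂ), (∀ k, ∀ x ∈ V, σ k *ᵥ x ∈ V) ∧ IsCompl U V) ∨
        (∀ m : Matrix (Fin r) (Fin r) ℂ, (∀ k, m * σ k = σ k * m) →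
          ∃ z : ℂ, m = z • (1 : Matrix (Fin r) (Fin r) ℂ))) →
      ∀ f : MvPolynomial (((Fin g × Bool) ⊕ Fin s) × Fin r × Fin r) ℂ,
      (∀ τ : (Fin g × Bool) ⊕ Fin s → Matrix (Fin r) (Fin r) ℂ,
        (∀ k a b, τ k a b ∈ RM M) → (∀ k, (τ k).det = 1) → (∀ j, Cj (c j) (τ (Sum.inr j))) →
        rel (fun N => N⁻¹) (fun k => τ (Sum.inl k)) * (List.ofFn fun j => τ (Sum.inr j)).prod = 1 →
        NoInvariant τ → MvPolynomial.eval (fun v => τ v.1 v.2.1 v.2.2) f = 0) →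
      MvPolynomial.eval (fun v => σ v.1 v.2.1 v.2.2) f = 0 := by
  rcases hg.eq_or_lt with rfl | hg3
  · exact G2.vanish_all_classes2 hr c hc1 hqu
  · exact vanish_all_classes hg3 hr c hc1 hqu

end Vale.Agent.P002.Bd
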