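import Vale.Agent.P002.Sb.BricksX

/-!
# P002: polynomials vanishing at irreducible integral points

Near every point with scalar commutant the last handle can be moved to a pair generating the matrix
algebra, so a polynomial vanishing only at the irreducible integral points still vanishes there.
-/

namespace Vale.Agent.P002.Bd

open Matrix Filter Topology Vale.Agent.P002.Sb
open scoped Matrix.Norms.Operator

set_option backward.isDefEq.respectTransparency false

variable {r g s : ℕ} {D : Fin s → Matrix (Fin r) (Fin r) ℂ} {O : Subring ℂ}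

/-- No invariant subspace other than zero and everything. -/
def NoInvariant {ι : Type*} (σ : ι → Matrix (Fin r) (Fin r) ℂ) : Prop :=
  ∀ U : Submodule ℂ (Fin r → ℂ), (∀ k, ∀ x ∈ U, σ k *ᵥ x ∈ U) → U = ⊥ ∨ U = ⊤

/-- The entries of the words `A^i B^k`. -/
noncomputable def pairMat (A B : Matrix (Fin r) (Fin r) ℂ) :
    Matrix (Fin r × Fin r) (Fin r × Fin r) ℂ :=
  Matrix.of fun p q => (A ^ (p.1 : ℕ) * B ^ (p.2 : ℕ)) q.1 q.2

open Fin.NatCast in
theorem exists_pairMat_ne (hr : 2 ≤ r) : ∃ A B : Matrix (Fin r) (Fin r) ℂ,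
    A.det = 1 ∧ B.det = 1 ∧ (pairMat A B).det ≠ 0 := by
  classical
  obtain ⟨n, rfl⟩ : ∃ n, r = n + 1 := ⟨r - 1, by omega⟩
  obtain ⟨l, hl, hl1, hl0⟩ := exists_indep hr
  let sh : Equiv.Perm (Fin (n + 1)) := finRotate (n + 1)
  let P : Matrix (Fin (n + 1)) (Fin (n + 1)) ℂ := sh.permMatrix ℂ
  have hP : P.det ≠ 0 := by
    rw [Matrix.det_permutation]
    exact Int.cast_ne_zero.2 (Units.ne_zero _)
  obtain ⟨c, hc⟩ := IsAlgClosed.exists_pow_nat_eq (P.det)⁻¹ (Nat.succ_pos n)
  have hc0 : c ≠ 0 := fun h => inv_ne_zero hP (by rw [← hc, h, zero_pow (Nat.succ_ne_zero n)])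
  refine ⟨diagonal l, c • P, by rw [det_diagonal, hl1],
    by rw [det_smul, Fintype.card_fin, hc, inv_mul_cancel₀ hP], fun hdet => ?_⟩
  obtain ⟨v, hv0, hv⟩ := exists_vecMul_eq_zero_iff.2 hdet
  apply hv0
  have hB : ∀ (k : ℕ) (a b : Fin (n + 1)),
      ((c • P) ^ k) a b = if b = a + (k : Fin (n + 1)) then c ^ k else 0 := by
    intro k
    induction k with
    | zero => intro a b; simp [Matrix.one_apply, eq_comm]
    | succ k ih =>
      intro a b
      rw [pow_succ, Matrix.mul_apply, Finset.sum_eq_single (a + (k : Fin (n + 1)))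
        (fun l _ hl => by rw [ih, if_neg hl, zero_mul]) (fun h' => absurd (Finset.mem_univ _) h'),
        ih, if_pos rfl]
      simp [P, sh, Equiv.toPEquiv_apply, add_assoc, pow_succ, eq_comm]
  funext ⟨i, k⟩
  have key : ∀ a, ∑ i : Fin (n + 1), v (i, k) * l a ^ (i : ℕ) = 0 := by
    intro a
    have h := congrFun hv (a, a + k)
    simp only [Pi.zero_apply, vecMul, dotProduct, pairMat, of_apply, Fintype.sum_prod_type,
      diagonal_pow, diagonal_mul, Pi.pow_apply, hB] at h
    rw [Finset.sum_congr rfl fun i _ => Finset.sum_eq_single k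
      (fun k' _ hk => by
        rw [if_neg (fun e => hk (by
          have := add_left_cancel e
          exact (Fin.cast_val_eq_self k').symm.trans this.symm)), mul_zero, mul_zero])
      (fun h' => absurd (Finset.mem_univ k) h')] at h
    simp only [Fin.cast_val_eq_self, if_true] at h
    have h2 : (∑ i : Fin (n + 1), v (i, k) * l a ^ (i : ℕ)) * c ^ (k : ℕ) = 0 := by
      rw [Finset.sum_mul, ← h]
      exact Finset.sum_congr rfl fun i _ => by ring
    exact (mul_eq_zero.1 h2).resolve_right (pow_ne_zero _ hc0)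
  have := Matrix.eq_zero_of_forall_index_sum_mul_pow_eq_zero (f := l)
    (v := fun i => v (i, k)) hl.injective key
  exact congrFun this i

theorem noInvariant_of_pairMat {ι : Type*} {σ : ι → Matrix (Fin r) (Fin r) ℂ} {a b : ι}
    (h : (pairMat (σ a) (σ b)).det ≠ 0) : NoInvariant σ := by
  classical
  intro U hU
  by_cases hbot : U = ⊥
  · exact Or.inl hbot
  refine Or.inr (eq_top_iff.2 fun y _ => ?_)
  obtain ⟨x, hxU, hx0⟩ := Submodule.exists_mem_ne_zero_of_ne_bot hbot
  obtain ⟨i, hi⟩ := Function.ne_iff.1 hx0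
  have hpow : ∀ (c : ι) (k : ℕ), ∀ z ∈ U, (σ c ^ k) *ᵥ z ∈ U := fun c k => by
    induction k with
    | zero => intro z hz; simpa using hz
    | succ k ih => intro z hz; rw [pow_succ, ← mulVec_mulVec]; exact ih _ (hU c z hz)
  have hu : IsUnit (pairMat (σ a) (σ b)).det := isUnit_iff_ne_zero.2 h
  -- every matrix is a combination of the words
  let M : Matrix (Fin r) (Fin r) ℂ := Matrix.of fun p q => if q = i then y p / x i else 0
  have hMx : M *ᵥ x = y := by
    funext p
    have hxi : x i ≠ 0 := hi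
    simp [M, mulVec, dotProduct, hxi]
  let w : Fin r × Fin r → ℂ := (fun q => M q.1 q.2) ᵥ* (pairMat (σ a) (σ b))⁻¹
  have hw : w ᵥ* pairMat (σ a) (σ b) = fun q => M q.1 q.2 := by
    simp only [w, vecMul_vecMul, Matrix.nonsing_inv_mul _ hu, vecMul_one]
  have hsum : M = ∑ p : Fin r × Fin r, w p • (σ a ^ (p.1 : ℕ) * σ b ^ (p.2 : ℕ)) := by
    ext p q
    have := congrFun hw (p, q)
    simp only [vecMul, dotProduct, pairMat, of_apply] at this
    rw [← this, Matrix.sum_apply]
    simp
  rw [← hMx, hsum, sum_mulVec]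
  exact Submodule.sum_mem _ fun p _ => by
    rw [smul_mulVec, ← mulVec_mulVec]
    exact U.smul_mem _ (hpow a _ _ (hpow b _ _ hxU))

/-- Near a point with scalar commutant the last handle generates the matrix algebra. -/
theorem exists_pairMat_near (hg : 2 ≤ g) (hr : 2 ≤ r) (hD : ∀ j, (D j).det = 1) {L : Fin g}
    (hL : L.1 + 1 = g) {x : PT g s r ℂ} (hx : IsX D x) (hS : IsSchurX D x)
    {N : Set (PT g s r ℂ)} (hN : N ∈ 𝓝 x) :
    ∃ y ∈ N, IsX D y ∧ IsSchurX D y ∧
      (pairMat (y (Sum.inl (L, false))) (y (Sum.inl (L, true)))).det ≠ 0 := by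
  obtain ⟨N', hN'sub, hN'o, hxN'⟩ :=
    mem_nhds_iff.1 (Filter.inter_mem hN (eventually_isSchurX (by omega) hS))
  obtain ⟨x₁, hx₁N, hx₁, -, hrest⟩ :=
    exists_rest_schurX hg (by omega) hD L hx hS (hN'o.mem_nhds hxN')
  have hev := exists_last (by omega) hD hL hx₁ hrest (hN'o.mem_nhds hx₁N)
  obtain ⟨A, B, hA, hB, hgen⟩ := exists_pairMat_ne hr
  obtain ⟨γ, hγ, hγ0, hγ1, hγd⟩ := exists_sl_path hr (hx₁.1 (Sum.inl (L, false))) hA
  obtain ⟨δ, hδ, hδ0, hδ1, hδd⟩ := exists_sl_path hr (hx₁.1 (Sum.inl (L, true))) hB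
  let G : ℂ → ℂ := fun t => (pairMat (γ t) (δ t)).det
  have hG : ContDiff ℂ 1 G := by
    have he : ∀ p q : Fin r × Fin r, ContDiff ℂ 1 fun t => pairMat (γ t) (δ t) p q := fun p q =>
      (contDiff_entry q.1 q.2).comp ((hγ.pow (p.1 : ℕ)).mul (hδ.pow (p.2 : ℕ)))
    simp only [G, Matrix.det_apply]
    exact ContDiff.sum fun σ _ => (contDiff_prod fun a _ => he _ _).const_smul _
  have hfreq : ∃ᶠ t in 𝓝 (0 : ℂ), G t ≠ 0 := by
    intro h
    simp only [not_not] at h
    have han : AnalyticOnNhd ℂ G Set.univ :=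
      (hG.differentiable one_ne_zero).differentiableOn.analyticOnNhd isOpen_univ
    have := han.eqOn_zero_of_preconnected_of_eventuallyEq_zero isPreconnected_univ
      (Set.mem_univ 0) h (Set.mem_univ 1)
    exact hgen (by simpa [G, hγ1, hδ1] using this)
  have ht : Tendsto (fun t => (γ t, δ t)) (𝓝 0)
      (𝓝 (x₁ (Sum.inl (L, false)), x₁ (Sum.inl (L, true)))) := by
    rw [← hγ0, ← hδ0]
    exact (hγ.continuous.prodMk hδ.continuous).tendsto 0
  obtain ⟨t, ht0, htev⟩ := (hfreq.and_eventually (ht.eventually hev)).exists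
  obtain ⟨y, hyN, hy, e1, e2⟩ := htev (hγd t) (hδd t)
  obtain ⟨h1, h2⟩ := hN'sub hyN
  exact ⟨y, h1, hy, h2, by rw [e1, e2]; exact ht0⟩

/-- If every point with scalar commutant is in the closure of the integral points, a polynomial
vanishing at the irreducible integral points vanishes at every such point and at every semisimple
one. -/
theorem vanish_irr (hg : 2 ≤ g) (hr : 2 ≤ r) (hD : ∀ j, (D j).det = 1)
    (hall : ∀ y : PT g s r ℂ, IsX D y → IsSchurX D y → InX D O y)
    {f : MvPolynomial (XVar g s r) ℂ}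
    (hf : ∀ y, IntX D O y → NoInvariant (allT D y) → MvPolynomial.eval (xcoord y) f = 0)
    {x : PT g s r ℂ} (hx : IsX D x) (hσ : IsSchurX D x ∨ IsSemisimpleRep (allT D x)) :
    MvPolynomial.eval (xcoord x) f = 0 := by
  classical
  let L : Fin g := ⟨g - 1, by omega⟩
  have hL : L.1 + 1 = g := by show g - 1 + 1 = g; omega
  obtain ⟨T, hT⟩ : ∃ T : MvPolynomial (XVar g s r) ℂ, ∀ y, MvPolynomial.eval (xcoord y) T =
      (pairMat (y (Sum.inl (L, false))) (y (Sum.inl (L, true)))).det := by
    choose U hU using fun p : Fin r × Fin r =>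
      ((polyMat_proj (g := g) (s := s) (r := r) (Sum.inl (L, false))).pow (p.1 : ℕ)).mul
        ((polyMat_proj (Sum.inl (L, true))).pow (p.2 : ℕ))
    refine ⟨(Matrix.of fun (p q : Fin r × Fin r) => U p q.1 q.2).det, fun y => ?_⟩
    rw [RingHom.map_det]
    congr 1
    ext p q
    exact congrFun (congrFun (hU p y) q.1) q.2
  have hfT : VanX D O (f * T) := fun y hy => by
    rw [map_mul, hT]
    by_cases h0 : (pairMat (y (Sum.inl (L, false))) (y (Sum.inl (L, true)))).det = 0
    · rw [h0, mul_zero]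
    · have hir : NoInvariant (allT D y) := by
        refine noInvariant_of_pairMat (a := (Fin.castAdd s L, false))
          (b := (Fin.castAdd s L, true)) ?_
        simpa [allT] using h0
      rw [hf y hy hir, zero_mul]
  set Z : Set (PT g s r ℂ) := {y | MvPolynomial.eval (xcoord y) f = 0}
  have hZ : IsClosed Z := isClosed_eq ((MvPolynomial.continuous_eval f).comp
    (continuous_pi fun v => (continuous_apply v.2.2).comp
      ((continuous_apply v.2.1).comp (continuous_apply v.1)))) continuous_const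
  have hS : ∀ y, IsX D y → IsSchurX D y → y ∈ Z := fun y hy hyS => by
    refine hZ.closure_subset (mem_closure_iff_nhds.2 fun N hN => ?_)
    obtain ⟨z, hzN, hz, hzS, hne⟩ := exists_pairMat_near hg hr hD hL hy hyS hN
    have h := hall z hz hzS _ hfT
    rw [map_mul, hT] at h
    exact ⟨z, hzN, (mul_eq_zero.1 h).resolve_right hne⟩
  rcases hσ with hS' | hs
  · exact hS x hx hS'
  · obtain ⟨N, e, he⟩ := exists_bricks (by omega) hs
    exact mem_of_bricks hg hr hD hZ hS N hx he

end Vale.Agent.P002.Bd
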