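import Vale.Agent.P002.Rank

/-!
# P002: a bidiagonal normal form
-/

namespace Vale.Agent.P002.Bd

open Matrix

variable {r : ℕ}

/-- Upper bidiagonal matrices. -/
def bidiag (d ε : Fin r → ℂ) : Matrix (Fin r) (Fin r) ℂ :=
  Matrix.of fun a b => if a = b then d a else if b.1 = a.1 + 1 then ε a else 0

/-- Every complex matrix is conjugate to an upper bidiagonal one with superdiagonal `0` or `1`. -/
theorem exists_bidiag (c : Matrix (Fin r) (Fin r) ℂ) :
    ∃ (d ε : Fin r → ℂ) (P P' : Matrix (Fin r) (Fin r) ℂ), P * P' = 1 ∧ P' * P = 1 ∧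
      (∀ a, ε a = 0 ∨ ε a = 1) ∧ P' * c * P = bidiag d ε ∧ ∀ a, c.charpoly.IsRoot (d a) := by
  classical
  let f : Module.End ℂ (Fin r → ℂ) := Matrix.toLinAlgEquiv' c
  obtain ⟨ι, _, p, hp, e, ⟨E⟩⟩ := Module.equiv_directSum_of_isTorsion
    (R := Polynomial ℂ) (M := Module.AEval' f)
    (Module.AEval.isTorsion_of_finiteDimensional ℂ (Fin r → ℂ) f)
  have hlin : ∀ i, ∃ μ : ℂ, Associated (p i) (Polynomial.X - Polynomial.C μ) := fun i => by
    obtain ⟨μ, hμ⟩ := IsAlgClosed.exists_root (p i) (Polynomial.degree_pos_of_irreducible (hp i)).ne'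
    exact ⟨μ, ((Polynomial.prime_X_sub_C μ).irreducible.associated_of_dvd (hp i)
      (Polynomial.dvd_iff_isRoot.2 hμ)).symm⟩
  choose μ hμ using hlin
  let L : ι → Polynomial ℂ := fun i => Polynomial.X - Polynomial.C (μ i)
  let Qt : ι → Submodule (Polynomial ℂ) (Polynomial ℂ) := fun i => Polynomial ℂ ∙ p i ^ e i
  have hmem : ∀ i q, q ∈ Qt i ↔ L i ^ e i ∣ q := fun i q => by
    rw [((hμ i).pow_pow).dvd_iff_dvd_left.symm]
    exact Ideal.mem_span_singleton
  let Φ : (i : ι) → (Fin (e i) → ℂ) →ₗ[ℂ] Polynomial ℂ ⧸ Qt i := fun i =>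
    ((Qt i).mkQ.restrictScalars ℂ).comp (∑ k : Fin (e i),
      (LinearMap.proj k).smulRight (L i ^ (Fin.rev k : ℕ)))
  have hΦ : ∀ i v, Φ i v =
      Submodule.Quotient.mk (∑ k : Fin (e i), v k • L i ^ (Fin.rev k : ℕ)) := fun i v => by
    show Submodule.Quotient.mk ((∑ k : Fin (e i),
      (LinearMap.proj k).smulRight (L i ^ (Fin.rev k : ℕ))) v) = _
    rw [LinearMap.sum_apply]
    rfl
  have hΦb : ∀ i, Function.Bijective (Φ i) := by
    intro i
    refine ⟨(injective_iff_map_eq_zero _).2 fun v hv => ?_, fun x => ?_⟩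
    · rw [hΦ, Submodule.Quotient.mk_eq_zero, hmem] at hv
      set q := ∑ k : Fin (e i), v k • L i ^ (Fin.rev k : ℕ) with hq
      have hqdeg : q.degree < (L i ^ e i).degree := by
        rw [Polynomial.degree_pow, Polynomial.degree_X_sub_C]
        refine lt_of_le_of_lt (Polynomial.degree_sum_le _ _) ?_
        rw [Finset.sup_lt_iff (by simp)]
        intro k _
        refine lt_of_le_of_lt (Polynomial.degree_smul_le _ _) ?_
        rw [Polynomial.degree_pow, Polynomial.degree_X_sub_C]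
        simp only [nsmul_one]
        exact_mod_cast (Fin.rev k).2
      have hq0 : q = 0 := Polynomial.eq_zero_of_dvd_of_degree_lt hv hqdeg
      have h2 := congrArg (Polynomial.taylor (μ i)) hq0
      rw [hq, map_sum, map_zero] at h2
      funext k
      have h3 := congrArg (fun P : Polynomial ℂ => P.coeff (Fin.rev k : ℕ)) h2
      simp only [map_smul, L, Polynomial.taylor_pow, map_sub, Polynomial.taylor_X,
        Polynomial.taylor_C, add_sub_cancel_right, Polynomial.finsetSum_coeff, Polynomial.coeff_smul,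
        Polynomial.coeff_X_pow, Polynomial.coeff_zero] at h3
      rw [Finset.sum_eq_single k (fun j _ hj => by
        rw [if_neg (fun h => hj (Fin.rev_injective (Fin.ext h)).symm), smul_zero])
        (by simp), if_pos rfl, smul_eq_mul, mul_one] at h3
      exact h3
    · obtain ⟨q, rfl⟩ := Submodule.Quotient.mk_surjective _ x
      refine ⟨fun k => (Polynomial.taylor (μ i) q).coeff (Fin.rev k : ℕ), ?_⟩
      rw [hΦ, Submodule.Quotient.eq, hmem]
      set t := Polynomial.taylor (μ i) q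
      have hsum : ∑ k : Fin (e i), t.coeff (Fin.rev k : ℕ) • L i ^ (Fin.rev k : ℕ) =
          ∑ k ∈ Finset.range (e i), t.coeff k • L i ^ k := by
        rw [← Fin.sum_univ_eq_sum_range (fun k => t.coeff k • L i ^ k)]
        exact Equiv.sum_comp Fin.revPerm (fun k : Fin (e i) => t.coeff (k : ℕ) • L i ^ (k : ℕ))
      rw [hsum]
      have hq' : q = ∑ k ∈ Finset.range (e i + (t.natDegree + 1)),
          Polynomial.C (t.coeff k) * (Polynomial.X - Polynomial.C (μ i)) ^ k := by
        rw [← Polynomial.sum_over_range' t (f := fun k z => Polynomial.C z *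
          (Polynomial.X - Polynomial.C (μ i)) ^ k) (fun n => by simp) _ (by omega)]
        exact (Polynomial.sum_taylor_eq q (μ i)).symm
      rw [hq', Finset.sum_range_add]
      simp only [Polynomial.smul_eq_C_mul, L]
      rw [sub_add_eq_sub_sub, sub_self, zero_sub, dvd_neg]
      exact Finset.dvd_sum fun k _ => Dvd.dvd.mul_left (pow_dvd_pow _ (Nat.le_add_right _ _)) _
  let bq : (i : ι) → Module.Basis (Fin (e i)) ℂ (Polynomial ℂ ⧸ Qt i) := fun i =>
    (Pi.basisFun ℂ (Fin (e i))).map (LinearEquiv.ofBijective (Φ i) (hΦb i))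
  have hbq : ∀ i k, bq i k = Submodule.Quotient.mk (L i ^ (Fin.rev k : ℕ)) := fun i k => by
    simp only [bq, Module.Basis.map_apply, Pi.basisFun_apply, LinearEquiv.ofBijective_apply, hΦ]
    congr 1
    rw [Fintype.sum_eq_single k fun j hj => by simp [hj]]
    simp
  let eι := Fintype.equivFin ι
  let ι' := Fin (Fintype.card ι)
  let of := Module.AEval'.of f
  let B : Module.Basis (Σ i, Fin (e i)) ℂ (Fin r → ℂ) :=
    ((DFinsupp.basis bq).map ((E.symm.restrictScalars ℂ).trans of.symm))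
  have hB : ∀ i k, B ⟨i, k⟩ = of.symm (E.symm (DirectSum.lof (Polynomial ℂ) ι _ i
      (Submodule.Quotient.mk (L i ^ (Fin.rev k : ℕ))))) := fun i k => by
    rw [← hbq]
    have hsingle : (DFinsupp.basis bq) ⟨i, k⟩ = DFinsupp.single i (bq i k) := by
      simp [DFinsupp.basis, Module.Basis.coe_ofRepr]
    simp only [B, Module.Basis.map_apply, hsingle]
    rfl
  have ha : ∀ x, c *ᵥ x = of.symm ((Polynomial.X : Polynomial ℂ) • of x) := fun x => by
    rw [Module.AEval'.X_smul_of, LinearEquiv.symm_apply_apply]; rfl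
  have hsm : ∀ (z : ℂ) x, of.symm ((Polynomial.C z : Polynomial ℂ) • x) = z • of.symm x := by
    intro z x
    rw [← Polynomial.algebraMap_eq, algebraMap_smul, map_smul]
  have hstep : ∀ i k, c *ᵥ B ⟨i, k⟩ = μ i • B ⟨i, k⟩ +
      if h : (k : ℕ) = 0 then 0 else B ⟨i, ⟨(k : ℕ) - 1, by omega⟩⟩ := by
    intro i k
    have hX : (Polynomial.X : Polynomial ℂ) = L i + Polynomial.C (μ i) := by simp [L]
    rw [hB, ha, LinearEquiv.apply_symm_apply, hX, add_smul, map_add, hsm, add_comm]
    congr 1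
    rw [← map_smul E.symm, ← map_smul (DirectSum.lof (Polynomial ℂ) ι _ i),
      ← Submodule.Quotient.mk_smul, smul_eq_mul, ← pow_succ']
    split_ifs with h
    · have : (Fin.rev k : ℕ) + 1 = e i := by simp [Fin.val_rev, h]; omega
      rw [this, (Submodule.Quotient.mk_eq_zero _).2 ((hmem i _).2 dvd_rfl)]
      simp
    · rw [hB]
      have : (Fin.rev k : ℕ) + 1 = (Fin.rev (⟨(k : ℕ) - 1, by omega⟩ : Fin (e i)) : ℕ) := by
        simp [Fin.val_rev]; omega
      rw [this]
  -- the lexicographic numbering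
  let n : ι' → ℕ := fun i => e (eι.symm i)
  have hcard : ∑ i, n i = r := by
    have h := Module.finrank_eq_card_basis B
    rw [Module.finrank_fintype_fun_eq_card, Fintype.card_fin, Fintype.card_sigma] at h
    simp only [Fintype.card_fin] at h
    rw [h, ← eι.symm.sum_comp]
  let idx : (Σ i : ι', Fin (n i)) ≃ Fin r := finSigmaFinEquiv.trans (finCongr hcard)
  let B' : Module.Basis (Fin r) ℂ (Fin r → ℂ) :=
    (B.reindex ((Equiv.sigmaCongrLeft eι.symm).symm.trans idx))
  have hB' : ∀ i (k : Fin (n i)), B' (idx ⟨i, k⟩) = B ⟨eι.symm i, k⟩ := fun i k => by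
    simp only [B', Module.Basis.reindex_apply, Equiv.symm_trans_apply, Equiv.symm_apply_apply,
      Equiv.symm_symm]
    rfl
  let d : Fin r → ℂ := fun a => μ (eι.symm (idx.symm a).1)
  let ε : Fin r → ℂ := fun a =>
    if ((idx.symm a).2 : ℕ) + 1 < n (idx.symm a).1 then 1 else 0
  have hidx : ∀ i (k : Fin (n i)) (h : (k : ℕ) + 1 < n i),
      (idx ⟨i, ⟨(k : ℕ) + 1, h⟩⟩).1 = (idx ⟨i, k⟩).1 + 1 := fun i k h => by
    simp only [idx, Equiv.trans_apply, finCongr_apply_coe]
    rw [finSigmaFinEquiv_apply, finSigmaFinEquiv_apply]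
    dsimp only
    omega
  set P := (Pi.basisFun ℂ (Fin r)).toMatrix B' with hPdef
  set P' := B'.toMatrix (Pi.basisFun ℂ (Fin r)) with hP'def
  have h2 : P' * P = 1 := Module.Basis.toMatrix_mul_toMatrix_flip _ _
  have hPc : ∀ a b, P a b = B' b a := fun a b => by simp [hPdef, Module.Basis.toMatrix_apply]
  have hd : ∀ a, c.charpoly.IsRoot (d a) := by
    intro a
    rw [Polynomial.IsRoot, Matrix.eval_charpoly, ← Matrix.exists_mulVec_eq_zero_iff]
    obtain ⟨⟨i, k⟩, rfl⟩ := idx.surjective a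
    refine ⟨B ⟨eι.symm i, ⟨0, k.pos⟩⟩, B.ne_zero _, ?_⟩
    rw [sub_mulVec, hstep, dif_pos rfl, add_zero]
    funext x
    simp [d, scalar_apply]
  refine ⟨d, ε, P, P', Module.Basis.toMatrix_mul_toMatrix_flip _ _, h2, fun a => ?_, ?_, hd⟩
  · simp only [ε]; split_ifs <;> simp
  have hε : ∀ j (l : Fin (n j)), ε (idx ⟨j, l⟩) = if (l : ℕ) + 1 < n j then 1 else 0 := fun j l => by
    show (if _ then _ else _) = _
    rw [idx.symm_apply_apply]
  have key : c * P = P * bidiag d ε := by
    ext a b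
    obtain ⟨⟨i, k⟩, rfl⟩ := idx.surjective b
    have hl : (c * P) a (idx ⟨i, k⟩) = (c *ᵥ B ⟨eι.symm i, k⟩) a := by
      simp [Matrix.mul_apply, mulVec, dotProduct, hPc, hB']
    rw [hl, hstep, Matrix.mul_apply, Pi.add_apply, Pi.smul_apply, smul_eq_mul]
    have hsplit : ∀ x, P a x * bidiag d ε x (idx ⟨i, k⟩) =
        (if x = idx ⟨i, k⟩ then P a x * d x else 0) +
        (if (idx ⟨i, k⟩).1 = x.1 + 1 then P a x * ε x else 0) := by
      intro x
      simp only [bidiag, of_apply]
      by_cases hx : x = idx ⟨i, k⟩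
      · subst hx; simp
      · simp only [if_neg hx, zero_add]; split_ifs <;> simp
    simp only [hsplit, Finset.sum_add_distrib, Finset.sum_ite_eq', Finset.mem_univ, if_true]
    rw [hPc, hB', show d (idx ⟨i, k⟩) = μ (eι.symm i) by simp [d], mul_comm]
    congr 1
    split_ifs with hk
    · refine (Finset.sum_eq_zero fun x _ => ?_).symm
      split_ifs with hx
      · obtain ⟨⟨j, l⟩, rfl⟩ := idx.surjective x
        rw [hε]
        split_ifs with hl
        · exfalso
          have h := (hidx j l hl).trans hx.symm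
          have := idx.injective (Fin.ext h)
          cases this
          simp at hk
        · simp
      · rfl
    · have hk' : (k : ℕ) - 1 < n i := by omega
      rw [Finset.sum_eq_single (idx ⟨i, ⟨(k : ℕ) - 1, hk'⟩⟩)]
      · have h1 : ((⟨(k : ℕ) - 1, hk'⟩ : Fin (n i)) : ℕ) + 1 < n i := by simp; omega
        have h := hidx i ⟨(k : ℕ) - 1, hk'⟩ h1
        have he : (⟨((⟨(k : ℕ) - 1, hk'⟩ : Fin (n i)) : ℕ) + 1, h1⟩ : Fin (n i)) = k :=
          Fin.ext (by simp; omega)
        rw [he] at h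
        rw [if_pos h, hPc, hB', show ε (idx ⟨i, ⟨(k : ℕ) - 1, hk'⟩⟩) = 1 by
          rw [hε]; exact if_pos h1, mul_one]
      · intro x _ hx
        split_ifs with h'
        · exfalso
          have h1 : ((⟨(k : ℕ) - 1, hk'⟩ : Fin (n i)) : ℕ) + 1 < n i := by simp; omega
          have h := hidx i ⟨(k : ℕ) - 1, hk'⟩ h1
          have he : (⟨((⟨(k : ℕ) - 1, hk'⟩ : Fin (n i)) : ℕ) + 1, h1⟩ : Fin (n i)) = k :=
            Fin.ext (by simp; omega)
          rw [he] at h
          exact hx (Fin.ext (by omega))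
        · rfl
      · simp
  rw [mul_assoc, key, ← mul_assoc, h2, one_mul]

end Vale.Agent.P002.Bd
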