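import Vale.Agent.P002.Flow

/-!
# P002: surface groups with prescribed boundary classes, moves preserving the integral points

A representation of the genus `g` surface group with `n - g` punctures is recorded as a tuple of
`n` handles whose `b`-entries at the positions `k ≥ g` are pinned to fixed matrices `J k`; the
product of the commutators is a fixed matrix `W`.
-/

namespace Vale.Agent.P002.Bd

open Matrix

variable {n r : ℕ}

/-- A move on quadruples preserving the product of two commutators in every group. -/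
structure QMove where
  /-- The formula. -/
  Q : ∀ {M : Type} [Monoid M], (M → M) → M × M × M × M → M × M × M × M
  /-- Naturality. -/
  nat : ∀ {M N : Type} [Monoid M] [Monoid N] (iv : M → M) (iv' : N → N) (h : M →* N),
    (∀ x, h (iv x) = iv' (h x)) → ∀ a b c d,
      (h (Q iv (a, b, c, d)).1, h (Q iv (a, b, c, d)).2.1, h (Q iv (a, b, c, d)).2.2.1,
        h (Q iv (a, b, c, d)).2.2.2) = Q iv' (h a, h b, h c, h d)
  /-- The product of commutators is kept. -/
  comm : ∀ {G : Type} [Group G] (a b c d : G),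
    cm (fun x : G => x⁻¹) (Q (fun x : G => x⁻¹) (a, b, c, d)).1
        (Q (fun x : G => x⁻¹) (a, b, c, d)).2.1 *
      cm (fun x : G => x⁻¹) (Q (fun x : G => x⁻¹) (a, b, c, d)).2.2.1
        (Q (fun x : G => x⁻¹) (a, b, c, d)).2.2.2 =
    cm (fun x : G => x⁻¹) a b * cm (fun x : G => x⁻¹) c d

/-- The slide `ψ`. -/
def qPsi : QMove where
  Q := fun iv q => psiQ iv q
  nat := by intro M N _ _ iv iv' h hiv a b c d; simp [psiQ, hiv]
  comm := by intro G _ a b c d; exact psiQ_comm a b c d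

/-- The slide `φ`. -/
def qPhi : QMove where
  Q := fun iv q => phiQ iv q
  nat := by intro M N _ _ iv iv' h hiv a b c d; simp [phiQ, hiv]
  comm := by intro G _ a b c d; exact phiQ_comm a b c d

/-- The puncture move, leaving the pinned entry `d` in place. -/
def qPun : QMove where
  Q := fun iv q =>
    let z := q.2.2.1 * q.2.2.2 * iv q.2.2.1
    (q.1 * z, iv z * q.2.1 * z, iv z * q.2.1 * q.2.2.1, q.2.2.2)
  nat := by intro M N _ _ iv iv' h hiv a b c d; simp [hiv]
  comm := by intro G _ a b c d; simp only [cm]; group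

/-- The inverse of the puncture move. -/
def qPun' : QMove where
  Q := fun iv q =>
    let z := iv q.2.1 * (q.2.2.1 * q.2.2.2 * iv q.2.2.1) * q.2.1
    (q.1 * iv z, z * q.2.1 * iv z, z * iv q.2.1 * q.2.2.1, q.2.2.2)
  nat := by intro M N _ _ iv iv' h hiv a b c d; simp [hiv]
  comm := by intro G _ a b c d; simp only [cm]; group

/-- On a handle with `b = 1` this is `a ↦ a⁻¹`. -/
def qInv : QMove where
  Q := fun iv q =>
    (cm iv q.1 q.2.1 * iv q.1, q.1 * iv q.2.1 * iv q.1, q.2.2.1, q.2.2.2)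
  nat := by intro M N _ _ iv iv' h hiv a b c d; simp [cm, hiv]
  comm := by intro G _ a b c d; simp only [cm]; group

/-- The inverse of `qInv`. -/
def qInv' : QMove where
  Q := fun iv q =>
    (q.2.1 * iv q.1 * iv q.2.1, q.2.1 * q.1 * iv q.2.1 * iv q.1 * iv q.2.1, q.2.2.1, q.2.2.2)
  nat := by intro M N _ _ iv iv' h hiv a b c d; simp [hiv]
  comm := by intro G _ a b c d; simp only [cm]; group

/-- The twist `a ↦ a b` of the second handle. -/
def qAtw : QMove where
  Q := fun _ q => (q.1, q.2.1, q.2.2.1 * q.2.2.2, q.2.2.2)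
  nat := by intro M N _ _ iv iv' h hiv a b c d; simp
  comm := by intro G _ a b c d; simp only [cm]; group

/-- The inverse of `qAtw`. -/
def qAtw' : QMove where
  Q := fun iv q => (q.1, q.2.1, q.2.2.1 * iv q.2.2.2, q.2.2.2)
  nat := by intro M N _ _ iv iv' h hiv a b c d; simp [hiv]
  comm := by intro G _ a b c d; simp only [cm]; group

/-- `P'` undoes `P` in every group. -/
def QMove.LeftInv (P' P : QMove) : Prop :=
  ∀ (G : Type) [Group G] (q : G × G × G × G),
    P'.Q (fun x : G => x⁻¹) (P.Q (fun x : G => x⁻¹) q) = q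

theorem qPhi_psi : qPhi.LeftInv qPsi := fun _ _ q => phiQ_psiQ q

theorem qPun_left : qPun'.LeftInv qPun := by
  intro G _ ⟨a, b, c, d⟩
  simp only [qPun, qPun', Prod.mk.injEq]
  refine ⟨?_, ?_, ?_, trivial⟩ <;> group

theorem qInv_left : qInv'.LeftInv qInv := by
  intro G _ ⟨a, b, c, d⟩
  simp only [qInv, qInv', cm, Prod.mk.injEq]
  refine ⟨?_, ?_, trivial⟩ <;> group

theorem qAtw_left : qAtw'.LeftInv qAtw := by
  intro G _ ⟨a, b, c, d⟩
  simp [qAtw, qAtw']

/-- `P` leaves the last entry alone. -/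
def QMove.Fix4 (P : QMove) : Prop :=
  ∀ (M : Type) [Monoid M] (iv : M → M) (q : M × M × M × M), (P.Q iv q).2.2.2 = q.2.2.2

theorem qPun_fix : qPun.Fix4 := fun _ _ _ _ => rfl

theorem qPun'_fix : qPun'.Fix4 := fun _ _ _ _ => rfl

theorem qInv_fix : qInv.Fix4 := fun _ _ _ _ => rfl

theorem qInv'_fix : qInv'.Fix4 := fun _ _ _ _ => rfl

/-- A move applied to the handles `i < j` of a matrix tuple. -/
def sM (P : QMove) (i j : Fin n) : Tup n r ℂ → Tup n r ℂ := slide adjugate (P.Q adjugate) i j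

theorem sM_psi (i j : Fin n) : (sM qPsi i j : Tup n r ℂ → _) = psiM i j := rfl

theorem sM_phi (i j : Fin n) : (sM qPhi i j : Tup n r ℂ → _) = phiM i j := rfl

theorem sM_of_ne (P : QMove) {i j : Fin n} (σ : Tup n r ℂ) {k : Fin n × Bool} (hi : k.1 ≠ i)
    (hj : k.1 ≠ j) : sM P i j σ k = σ k := by
  simp [sM, slide, hi, hj]

theorem map_slide {M N : Type} [Monoid M] [Monoid N] (iv : M → M) (iv' : N → N) (h : M →* N)
    (hiv : ∀ x, h (iv x) = iv' (h x)) (P : QMove) (i j : Fin n) (τ : Fin n × Bool → M) :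
    (fun k => h (slide iv (P.Q iv) i j τ k)) =
      slide iv' (P.Q iv') i j (fun k => h (τ k)) := by
  funext ⟨k, c⟩
  have e := P.nat iv iv' h hiv (τ (i, false)) (τ (i, true))
    (mid iv i j τ * τ (j, false) * iv (mid iv i j τ))
    (mid iv i j τ * τ (j, true) * iv (mid iv i j τ))
  simp only [map_mul, hiv, map_mid iv iv' h hiv] at e
  simp only [slide, quadAt]
  rw [← e]
  split_ifs <;> cases c <;> simp [hiv, map_mid iv iv' h hiv]

theorem slide_left {G : Type} [Group G] {P' P : QMove} (hP : P'.LeftInv P) {i j : Fin n}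
    (hij : i < j) (σ : Fin n × Bool → G) :
    slide (fun x : G => x⁻¹) (P'.Q fun x : G => x⁻¹) i j
      (slide (fun x : G => x⁻¹) (P.Q fun x : G => x⁻¹) i j σ) = σ := by
  have hne : j ≠ i := ne_of_gt hij
  have hq : quadAt (fun x : G => x⁻¹) i j
      (slide (fun x : G => x⁻¹) (P.Q fun x : G => x⁻¹) i j σ) =
      P.Q (fun x : G => x⁻¹) (quadAt (fun x : G => x⁻¹) i j σ) := by
    simp only [quadAt, mid_slide]
    simp only [slide, quadAt, hne, if_true, if_false, cond_false, cond_true]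
    refine Prod.ext rfl (Prod.ext rfl (Prod.ext ?_ ?_)) <;> (simp only; group)
  funext ⟨k, c⟩
  show slide (fun x : G => x⁻¹) (P'.Q fun x : G => x⁻¹) i j
    (slide (fun x : G => x⁻¹) (P.Q fun x : G => x⁻¹) i j σ) (k, c) = _
  rw [slide]
  simp only [hq, hP G, mid_slide]
  split_ifs with h1 h2
  · subst h1; cases c <;> rfl
  · subst h2; cases c <;> simp only [quadAt, cond_false, cond_true] <;> group
  · simp [slide, h1, h2]

section lift

variable {K : Type} [CommRing K] (φ : K →+* ℂ)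

/-- From the special linear group over `K` to complex matrices. -/
def toK : Matrix.SpecialLinearGroup (Fin r) K →* Matrix (Fin r) (Fin r) ℂ :=
  φ.mapMatrix.toMonoidHom.comp Matrix.SpecialLinearGroup.coeMonoidHom

theorem toK_inv (x : Matrix.SpecialLinearGroup (Fin r) K) :
    toK φ x⁻¹ = adjugate (toK φ x) :=
  RingHom.map_adjugate φ (x : Matrix (Fin r) (Fin r) K)

theorem det_toK (x : Matrix.SpecialLinearGroup (Fin r) K) : (toK φ x).det = 1 := by
  show (φ.mapMatrix (x : Matrix (Fin r) (Fin r) K)).det = 1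
  rw [← RingHom.map_det, x.2, map_one]

theorem sM_toK (P : QMove) (i j : Fin n)
    (τ : Fin n × Bool → Matrix.SpecialLinearGroup (Fin r) K) :
    sM P i j (fun k => toK φ (τ k)) = fun k =>
      toK φ (slide (fun x => x⁻¹) (P.Q fun x => x⁻¹) i j τ k) :=
  (map_slide _ adjugate (toK φ) (toK_inv φ) P i j τ).symm

theorem rel_toK (τ : Fin n × Bool → Matrix.SpecialLinearGroup (Fin r) K) :
    rel adjugate (fun k => toK φ (τ k)) = toK φ (rel (fun x => x⁻¹) τ) :=
  (map_rel _ adjugate (toK φ) (toK_inv φ) τ).symm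

theorem mid_toK (i j : Fin n) (τ : Fin n × Bool → Matrix.SpecialLinearGroup (Fin r) K) :
    mid adjugate i j (fun k => toK φ (τ k)) = toK φ (mid (fun x => x⁻¹) i j τ) :=
  (map_mid _ adjugate (toK φ) (toK_inv φ) i j τ).symm

end lift

theorem exists_liftC {σ : Tup n r ℂ} (h : ∀ k, (σ k).det = 1) :
    ∃ τ : Fin n × Bool → Matrix.SpecialLinearGroup (Fin r) ℂ,
      (fun k => toK (RingHom.id ℂ) (τ k)) = σ :=
  ⟨fun k => ⟨σ k, h k⟩, by funext k; ext a b; rfl⟩

theorem exists_liftR {R : Subring ℂ} {σ : Tup n r ℂ} (h : ∀ k, (σ k).det = 1)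
    (hR : ∀ k a b, σ k a b ∈ R) :
    ∃ τ : Fin n × Bool → Matrix.SpecialLinearGroup (Fin r) R,
      (fun k => toK R.subtype (τ k)) = σ := by
  have hd : ∀ k, (Matrix.of fun a b => (⟨σ k a b, hR k a b⟩ : R)).det = 1 := fun k => by
    refine Subtype.val_injective ?_
    show R.subtype _ = R.subtype 1
    rw [RingHom.map_det, map_one, ← h k]
    congr 1
  exact ⟨fun k => ⟨_, hd k⟩, by funext k; ext a b; rfl⟩

theorem det_sM (P : QMove) {i j : Fin n} {σ : Tup n r ℂ} (h : ∀ k, (σ k).det = 1) :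
    ∀ k, (sM P i j σ k).det = 1 := by
  obtain ⟨τ, rfl⟩ := exists_liftC h
  intro k
  rw [sM_toK]
  exact det_toK _ _

theorem rel_sM (P : QMove) {i j : Fin n} (hij : i < j) {σ : Tup n r ℂ}
    (h : ∀ k, (σ k).det = 1) : rel adjugate (sM P i j σ) = rel adjugate σ := by
  obtain ⟨τ, rfl⟩ := exists_liftC h
  rw [sM_toK, rel_toK, rel_toK, rel_slide _ (fun a b c d => P.comm a b c d) i j hij]

theorem sM_left {P' P : QMove} (hP : P'.LeftInv P) {i j : Fin n} (hij : i < j) {σ : Tup n r ℂ}
    (h : ∀ k, (σ k).det = 1) : sM P' i j (sM P i j σ) = σ := by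
  obtain ⟨τ, rfl⟩ := exists_liftC h
  rw [sM_toK, sM_toK, slide_left hP hij]

theorem mem_sM (P : QMove) {i j : Fin n} {R : Subring ℂ} {σ : Tup n r ℂ}
    (h : ∀ k, (σ k).det = 1) (hR : ∀ k a b, σ k a b ∈ R) :
    ∀ k a b, sM P i j σ k a b ∈ R := by
  obtain ⟨τ, rfl⟩ := exists_liftR h hR
  intro k a b
  rw [sM_toK]
  exact ((slide _ _ i j τ k).1 a b).2

theorem det_mid {σ : Tup n r ℂ} (h : ∀ k, (σ k).det = 1) (i j : Fin n) :
    (mid adjugate i j σ).det = 1 := by
  obtain ⟨τ, rfl⟩ := exists_liftC h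
  rw [mid_toK]
  exact det_toK _ _

/-- The data: number of free handles, pinned entries, value of the relator, ring of integers. -/
structure Pins (n r : ℕ) where
  /-- The genus. -/
  g : ℕ
  /-- The pinned entries. -/
  J : Fin n → Matrix (Fin r) (Fin r) ℂ
  /-- The value of the product of the commutators. -/
  W : Matrix (Fin r) (Fin r) ℂ
  /-- The ring of coefficients. -/
  R : Subring ℂ

variable (D : Pins n r)

/-- The pinned entries have their values. -/
def IsPin (σ : Tup n r ℂ) : Prop := ∀ k : Fin n, D.g ≤ k.1 → σ (k, true) = D.J k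

/-- Representations with prescribed boundary. -/
def IsRepB (σ : Tup n r ℂ) : Prop :=
  (∀ k, (σ k).det = 1) ∧ rel adjugate σ = D.W ∧ IsPin D σ

/-- Integral representations with prescribed boundary. -/
def IsPt (σ : Tup n r ℂ) : Prop := IsRepB D σ ∧ ∀ k a b, σ k a b ∈ D.R

theorem pin_sM (P : QMove) {i j : Fin n} (hij : i < j) (hi : i.1 < D.g)
    (hj : j.1 < D.g ∨ P.Fix4) {σ : Tup n r ℂ} (hd : ∀ k, (σ k).det = 1) (h : IsPin D σ) :
    IsPin D (sM P i j σ) := by
  intro k hk
  have hki : k ≠ i := fun e => by subst e; omega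
  by_cases hkj : k = j
  · subst hkj
    obtain ⟨m1, m2⟩ := mul_adj_cancel (det_mid hd i k)
    have hfix : P.Fix4 := hj.resolve_left (by omega)
    rw [← h k hk]
    simp only [sM, slide, hki, if_false, if_true, cond_true, hfix _ adjugate, quadAt]
    simp only [mul_assoc, m2, mul_one]
    rw [← mul_assoc, m2, one_mul]
  · rw [sM_of_ne P σ hki hkj]
    exact h k hk

theorem isRepB_sM (P : QMove) {i j : Fin n} (hij : i < j) (hi : i.1 < D.g)
    (hj : j.1 < D.g ∨ P.Fix4) {σ : Tup n r ℂ} (h : IsRepB D σ) : IsRepB D (sM P i j σ) :=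
  ⟨det_sM P h.1, by rw [rel_sM P hij h.1, h.2.1], pin_sM D P hij hi hj h.1 h.2.2⟩

/-- `f` vanishes at every integral representation. -/
def VanB (f : MvPolynomial (Var n r) ℂ) : Prop :=
  ∀ σ, IsPt D σ → MvPolynomial.eval (coord σ) f = 0

/-- `σ` is in the closure of the integral representations. -/
def InB (σ : Tup n r ℂ) : Prop := ∀ f, VanB D f → MvPolynomial.eval (coord σ) f = 0

/-- `T` pulls the ideal of the integral representations into itself. -/
def PullB (T : Tup n r ℂ → Tup n r ℂ) : Prop :=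
  ∀ f, VanB D f → ∃ f', VanB D f' ∧
    ∀ σ, MvPolynomial.eval (coord σ) f' = MvPolynomial.eval (coord (T σ)) f

variable {D}

theorem PullB.inB {T : Tup n r ℂ → Tup n r ℂ} (hT : PullB D T) {σ : Tup n r ℂ} (h : InB D σ) :
    InB D (T σ) := by
  intro f hf
  obtain ⟨f', hf', he⟩ := hT f hf
  rw [← he]; exact h f' hf'

theorem PullB.id : PullB D (fun σ => σ) := fun f hf => ⟨f, hf, fun _ => rfl⟩

theorem PullB.comp {S T : Tup n r ℂ → Tup n r ℂ} (hS : PullB D S) (hT : PullB D T) :
    PullB D fun σ => S (T σ) := by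
  intro f hf
  obtain ⟨f', hf', he⟩ := hS f hf
  obtain ⟨f'', hf'', he'⟩ := hT f' hf'
  exact ⟨f'', hf'', fun σ => by rw [he', he]⟩

theorem PullB.iterate {T : Tup n r ℂ → Tup n r ℂ} (hT : PullB D T) : ∀ m, PullB D T^[m]
  | 0 => fun f hf => ⟨f, hf, fun _ => rfl⟩
  | m + 1 => by
    rw [Function.iterate_succ]
    exact (hT.iterate m).comp hT

theorem pullB_of (T : Tup n r ℂ → Tup n r ℂ) (TP : Tup n r (MvPolynomial (Var n r) ℂ))
    (h1 : ∀ σ k, (MvPolynomial.eval (coord σ)).mapMatrix (TP k) = T σ k)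
    (h2 : ∀ σ, IsPt D σ → IsPt D (T σ)) : PullB D T :=
  fun f hf => ⟨MvPolynomial.bind₁ (coord TP) f,
    fun σ hσ => by rw [eval_subst (h1 σ) f]; exact hf _ (h2 σ hσ),
    fun σ => eval_subst (h1 σ) f⟩

theorem pull_sM (P : QMove) {i j : Fin n} (hij : i < j) (hi : i.1 < D.g)
    (hj : j.1 < D.g ∨ P.Fix4) : PullB D (sM (r := r) P i j) := by
  refine pullB_of _ (slide adjugate (P.Q adjugate) i j gen) (fun σ k => ?_) (fun σ hσ =>
    ⟨isRepB_sM D P hij hi hj hσ.1, mem_sM P hσ.1.1 hσ.2⟩)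
  have := congrFun (map_slide (M := Matrix (Fin r) (Fin r) (MvPolynomial (Var n r) ℂ))
    adjugate adjugate (MvPolynomial.eval (coord σ)).mapMatrix.toMonoidHom
    (fun x => RingHom.map_adjugate _ x) P i j gen) k
  simp only [RingHom.toMonoidHom_eq_coe, MonoidHom.coe_coe, gen_map] at this
  exact this

theorem pull_twistB {i : Fin n} (hi : i.1 < D.g) (m : ℕ) :
    PullB D (twist (M := Matrix (Fin r) (Fin r) ℂ) i m) := by
  refine pullB_of _ (twist i m gen) (fun σ k => ?_) (fun σ hσ => ?_)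
  · have := congrFun (map_twist (M := Matrix (Fin r) (Fin r) (MvPolynomial (Var n r) ℂ))
      (MvPolynomial.eval (coord σ)).mapMatrix.toMonoidHom i m gen) k
    simp only [RingHom.toMonoidHom_eq_coe, MonoidHom.coe_coe, gen_map] at this
    exact this
  · obtain ⟨τ, rfl⟩ := exists_liftR hσ.1.1 hσ.2
    have e : (fun k => toK D.R.subtype (twist i m τ k)) =
        twist i m (fun k => toK D.R.subtype (τ k)) := map_twist _ i m τ
    rw [← e]
    refine ⟨⟨fun k => det_toK _ _, ?_, fun k hk => ?_⟩, fun k a b => ((twist i m τ k).1 a b).2⟩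
    · rw [rel_toK, rel_twist, ← rel_toK]; exact hσ.1.2.1
    · rw [← hσ.1.2.2 k hk]
      have : k ≠ i := fun e => by subst e; omega
      simp [twist, this]

theorem InB.isRepB {σ : Tup n r ℂ} (h : InB D σ) : IsRepB D σ := by
  have key : ∀ (p : MvPolynomial (Var n r) ℂ) (z : Tup n r ℂ → ℂ) (w : ℂ),
      (∀ ρ, MvPolynomial.eval (coord ρ) p = z ρ) → (∀ ρ, IsPt D ρ → z ρ = w) → z σ = w := by
    intro p z w hp hz
    have := h (p - MvPolynomial.C w) fun ρ hρ => by
      rw [map_sub, MvPolynomial.eval_C, hp, hz ρ hρ, sub_self]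
    rwa [map_sub, MvPolynomial.eval_C, hp, sub_eq_zero] at this
  refine ⟨fun k => ?_, ?_, fun k hk => ?_⟩
  · exact key (gen k).det (fun ρ => (ρ k).det) 1
      (fun ρ => by rw [RingHom.map_det, gen_map]) (fun ρ hρ => hρ.1.1 k)
  · ext a b
    refine key (rel adjugate gen a b) (fun ρ => rel adjugate ρ a b) _ (fun ρ => ?_)
      (fun ρ hρ => by rw [hρ.1.2.1])
    have := map_rel (M := Matrix (Fin r) (Fin r) (MvPolynomial (Var n r) ℂ))
      adjugate adjugate (MvPolynomial.eval (coord ρ)).mapMatrix.toMonoidHom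
      (fun x => RingHom.map_adjugate _ x) gen
    simp only [RingHom.toMonoidHom_eq_coe, MonoidHom.coe_coe, gen_map] at this
    exact congrFun (congrFun this a) b
  · ext a b
    exact key (MvPolynomial.X ((k, true), a, b)) (fun ρ => ρ (k, true) a b) _
      (fun ρ => by simp [coord]) (fun ρ hρ => by rw [hρ.1.2.2 k hk])

/-- Scaling `b` at handle `i` by `ζ`. -/
def scaleB (i : Fin n) (ζ : ℂ) (σ : Tup n r ℂ) : Tup n r ℂ :=
  Function.update σ (i, true) (ζ • σ (i, true))

theorem cm_smul_right {ζ : ℂ} (hζ : ζ ^ r = 1) (a b : Matrix (Fin r) (Fin r) ℂ) :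
    cm adjugate a (ζ • b) = cm adjugate a b := by
  rcases Nat.eq_zero_or_pos r with hr | hr
  · subst hr; exact Subsingleton.elim _ _
  simp only [cm, adjugate_smul, Fintype.card_fin, Matrix.mul_smul, Matrix.smul_mul, smul_smul]
  rw [← pow_succ, Nat.sub_add_cancel hr, hζ, one_smul]

theorem isRepB_scaleB {i : Fin n} (hi : i.1 < D.g) {ζ : ℂ} (hζ : ζ ^ r = 1) {σ : Tup n r ℂ}
    (h : IsRepB D σ) : IsRepB D (scaleB i ζ σ) := by
  refine ⟨fun k => ?_, ?_, fun k hk => ?_⟩
  · simp only [scaleB, Function.update_apply]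
    split_ifs with e
    · rw [det_smul, Fintype.card_fin, hζ, one_mul, h.1]
    · exact h.1 k
  · rw [← h.2.1]
    refine congrArg List.prod (congrArg List.ofFn (funext fun k => ?_))
    by_cases hk : k = i
    · subst hk; simp [scaleB, cm_smul_right hζ]
    · simp [scaleB, hk]
  · have : k ≠ i := fun e => by subst e; omega
    simpa [scaleB, this] using h.2.2 k hk

end Vale.Agent.P002.Bd
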