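import Vale.Agent.P002.Bd.Emb

/-!
# P002: the boundary monodromies of a tuple with pinned handles, irreducibility
-/

namespace Vale.Agent.P002.Bd

open Matrix Filter Topology
open scoped Matrix.Norms.Operator

variable {n r : ℕ} (D : Pins n r)

/-- The product `J (m - 1) ⋯ J g`. -/
noncomputable def Kp : ℕ → Matrix (Fin r) (Fin r) ℂ
  | 0 => 1
  | m + 1 => if hm : m < n ∧ D.g ≤ m then D.J ⟨m, hm.1⟩ * Kp m else Kp m

theorem det_Kp (hJ : ∀ k, (D.J k).det = 1) : ∀ m, (Kp D m).det = 1
  | 0 => det_one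
  | m + 1 => by
    simp only [Kp]
    split_ifs
    · rw [det_mul, hJ, det_Kp hJ m, one_mul]
    · exact det_Kp hJ m

/-- The monodromy at the pinned handle `k`. -/
noncomputable def bdry (σ : Tup n r ℂ) (k : Fin n) : Matrix (Fin r) (Fin r) ℂ :=
  adjugate (Kp D k) * (σ (k, false) * D.J k * adjugate (σ (k, false))) * Kp D k

/-- The generators of the image: free handles and boundary monodromies. -/
noncomputable def valT (σ : Tup n r ℂ) : Tup n r ℂ := fun k =>
  if k.1.1 < D.g then σ k else bif k.2 then 1 else bdry D σ k.1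

theorem valT_free {σ : Tup n r ℂ} {k : Fin n} (hk : k.1 < D.g) (c : Bool) :
    valT D σ (k, c) = σ (k, c) := by simp [valT, hk]

theorem valT_pin {σ : Tup n r ℂ} {k : Fin n} (hk : D.g ≤ k.1) (c : Bool) :
    valT D σ (k, c) = bif c then 1 else bdry D σ k := by simp [valT, not_lt.2 hk]

theorem continuous_valT : Continuous (valT (r := r) D) := by
  have hd : Continuous (adjugate : Matrix (Fin r) (Fin r) ℂ → _) := contDiff_adjugate.continuous
  refine continuous_pi fun ⟨k, c⟩ => ?_
  simp only [valT]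
  split_ifs
  · exact continuous_apply _
  · cases c <;> simp only [cond_false, cond_true, bdry]
    · exact (continuous_const.mul (((continuous_apply _).mul continuous_const).mul
        (hd.comp (continuous_apply _)))).mul continuous_const
    · exact continuous_const

/-- The image spans all matrices. -/
def IsIrr (σ : Tup n r ℂ) : Prop := Algebra.adjoin ℂ (Set.range (valT D σ)) = ⊤

/-- `f` vanishes at the irreducible integral representations. -/
def VanIrr (f : MvPolynomial (Var n r) ℂ) : Prop :=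
  ∀ σ, IsPt D σ → IsIrr D σ → MvPolynomial.eval (coord σ) f = 0

/-- `σ` is in the closure of the irreducible integral representations. -/
def InIrr (σ : Tup n r ℂ) : Prop := ∀ f, VanIrr D f → MvPolynomial.eval (coord σ) f = 0

variable {D}

/-- A polynomial witnessing irreducibility. -/
theorem exists_witness {σ₀ : Tup n r ℂ} (h0 : IsIrr D σ₀) :
    ∃ Q : MvPolynomial (Var n r) ℂ, MvPolynomial.eval (coord σ₀) Q ≠ 0 ∧
      ∀ σ, MvPolynomial.eval (coord σ) Q ≠ 0 → IsIrr D σ := by
  classical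
  let P := MvPolynomial (Var n r) ℂ
  let C' : Matrix (Fin r) (Fin r) ℂ →+* Matrix (Fin r) (Fin r) P :=
    (MvPolynomial.C : ℂ →+* P).mapMatrix
  let vP : Fin n × Bool → Matrix (Fin r) (Fin r) P := fun k =>
    if k.1.1 < D.g then gen k else bif k.2 then 1 else
      C' (adjugate (Kp D k.1)) * (gen (k.1, false) * C' (D.J k.1) * adjugate (gen (k.1, false))) *
        C' (Kp D k.1)
  let φ : Tup n r ℂ → (Matrix (Fin r) (Fin r) P →ₐ[ℂ] Matrix (Fin r) (Fin r) ℂ) := fun σ =>
    (MvPolynomial.aeval (coord σ)).mapMatrix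
  have hφ : ∀ σ (M : Matrix (Fin r) (Fin r) P), φ σ M = (MvPolynomial.eval (coord σ)).mapMatrix M :=
    fun σ M => by
      ext a b
      simp [φ, MvPolynomial.aeval_eq_eval]
  have hv : ∀ σ k, φ σ (vP k) = valT D σ k := by
    intro σ k
    rw [hφ]
    simp only [vP, valT, bdry]
    split_ifs
    · exact gen_map σ k
    · cases k.2 <;> simp only [cond_false, cond_true, map_one, map_mul, C', mapMatrix_adjoin_C,
        RingHom.map_adjugate, gen_map]
      erw [mapMatrix_adjoin_C, mapMatrix_adjoin_C]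
  let K := Algebra.adjoin ℂ (Set.range vP)
  have hmap : ∀ σ, K.map (φ σ) = Algebra.adjoin ℂ (Set.range (valT D σ)) := by
    intro σ
    rw [AlgHom.map_adjoin, ← Set.range_comp]
    congr 1
    exact congrArg Set.range (funext (hv σ))
  have hsel : ∀ q : Fin r × Fin r, ∃ F ∈ K, φ σ₀ F = Matrix.single q.1 q.2 1 := by
    intro q
    have : (Matrix.single q.1 q.2 1 : Matrix (Fin r) (Fin r) ℂ) ∈ K.map (φ σ₀) := by
      rw [hmap, h0]; exact Algebra.mem_top
    exact Subalgebra.mem_map.1 this
  choose F hFK hF0 using hsel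
  let M : Matrix (Fin r × Fin r) (Fin r × Fin r) P := Matrix.of fun p q => F p q.1 q.2
  have hM : ∀ σ, (MvPolynomial.eval (coord σ)).mapMatrix M =
      Matrix.of fun p q => φ σ (F p) q.1 q.2 := by
    intro σ
    ext p q
    simp [M, hφ]
  refine ⟨M.det, ?_, fun σ hσ => ?_⟩
  · rw [RingHom.map_det, hM]
    have : (Matrix.of fun p q => φ σ₀ (F p) q.1 q.2 :
        Matrix (Fin r × Fin r) (Fin r × Fin r) ℂ) = 1 := by
      ext ⟨a, b⟩ ⟨c, d⟩
      simp [hF0, Matrix.single_apply, Matrix.one_apply, Prod.ext_iff]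
    rw [this, det_one]
    exact one_ne_zero
  rw [RingHom.map_det, hM] at hσ
  set G := (Matrix.of fun p q => φ σ (F p) q.1 q.2 : Matrix (Fin r × Fin r) (Fin r × Fin r) ℂ)
  refine eq_top_iff.2 fun X _ => ?_
  let c := Matrix.vecMul (fun q : Fin r × Fin r => X q.1 q.2) G⁻¹
  have hX : X = ∑ p, c p • φ σ (F p) := by
    have : Matrix.vecMul c G = fun q => X q.1 q.2 := by
      rw [Matrix.vecMul_vecMul, Matrix.nonsing_inv_mul _ (isUnit_iff_ne_zero.2 hσ),
        Matrix.vecMul_one]
    ext a b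
    rw [Matrix.sum_apply]
    exact (congrFun this (a, b)).symm.trans rfl
  rw [hX]
  refine Subalgebra.sum_mem _ fun p _ => Subalgebra.smul_mem _ ?_ _
  rw [← hmap]
  exact Subalgebra.mem_map.2 ⟨F p, hFK p, rfl⟩

/-- In the irreducible locus the two closures agree. -/
theorem InB.inIrr {σ : Tup n r ℂ} (h : InB D σ) (hI : IsIrr D σ) : InIrr D σ := by
  intro f hf
  obtain ⟨Q, hQ, hQ'⟩ := exists_witness hI
  have := h (f * Q) fun ρ hρ => by
    rw [map_mul]
    by_cases hq : MvPolynomial.eval (coord ρ) Q = 0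
    · rw [hq, mul_zero]
    · rw [hf ρ hρ (hQ' ρ hq), zero_mul]
  rw [map_mul] at this
  exact (mul_eq_zero.1 this).resolve_right hQ

theorem eventually_isIrr {σ₀ : Tup n r ℂ} (h0 : IsIrr D σ₀) : ∀ᶠ σ in 𝓝 σ₀, IsIrr D σ := by
  obtain ⟨Q, hQ, hQ'⟩ := exists_witness h0
  exact ((contDiff_eval Q contDiff_id).continuous.continuousAt.eventually_ne hQ).mono fun σ hσ =>
    hQ' σ hσ

end Vale.Agent.P002.Bd
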