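import Vale.Agent.P002.Bd.Velo
import Vale.Agent.P002.Bd.Val

/-!
# P002: an open piece of the representations with boundary conditions in the closure of the
integral ones
-/

namespace Vale.Agent.P002.Bd

open Matrix Filter Topology
open scoped Matrix.Norms.Operator

set_option backward.isDefEq.respectTransparency false

variable {n r l : ℕ} {D : Pins n r} {α β : Matrix (Fin r) (Fin r) ℂ}

theorem fderiv_Requ_det {σ : Tup n r ℂ} (hσ : ∀ k, (σ k).det = 1) (v : Tup n r ℂ) :
    (fderiv ℂ Requ σ v).1 = fun k => trace (adjugate (σ k) * v k) := by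
  have h0 : σ = (fun s : ℂ => σ + s • v) 0 := by
    show σ = σ + (0 : ℂ) • v
    rw [zero_smul, add_zero]
  have hR := ((contDiff_Requ (r := r) (g := n)).differentiable one_ne_zero
    σ).hasFDerivAt.comp_hasDerivAt_of_eq (0 : ℂ) (hasDerivAt_line σ v) h0
  funext k
  exact (hasDerivAt_pi.1 hR.fst k).unique
    (hasDerivAt_det (γ := fun s : ℂ => σ k + s • v k) (by simp) (hσ k) (hasDerivAt_line _ _))

/-- Reading off the pinned entries. -/
noncomputable def pinCLM (D : Pins n r) :
    Tup n r ℂ →L[ℂ] (Fin n → Matrix (Fin r) (Fin r) ℂ) :=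
  ContinuousLinearMap.pi fun k =>
    if D.g ≤ k.1 then ContinuousLinearMap.proj (k, true) else 0

theorem pinCLM_apply (σ : Tup n r ℂ) (k : Fin n) :
    pinCLM D σ k = if D.g ≤ k.1 then σ (k, true) else 0 := by
  simp only [pinCLM, ContinuousLinearMap.pi_apply]
  split_ifs <;> rfl

/-- The equations of the representations with boundary conditions. -/
noncomputable def EqB (D : Pins n r) (σ : Tup n r ℂ) :
    ((Fin n × Bool → ℂ) × Matrix (Fin r) (Fin r) ℂ) × (Fin n → Matrix (Fin r) (Fin r) ℂ) :=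
  (Requ σ, pinCLM D σ)

/-- The value of the equations. -/
noncomputable def EqVal (D : Pins n r) :
    ((Fin n × Bool → ℂ) × Matrix (Fin r) (Fin r) ℂ) × (Fin n → Matrix (Fin r) (Fin r) ℂ) :=
  ((fun _ => 1, D.W), fun k => if D.g ≤ k.1 then D.J k else 0)

theorem eqB_eq {σ : Tup n r ℂ} (h : IsRepB D σ) : EqB D σ = EqVal D := by
  refine Prod.ext (Prod.ext (funext h.1) h.2.1) (funext fun k => ?_)
  show pinCLM D σ k = _
  rw [pinCLM_apply]
  simp only [EqVal]
  split_ifs with hk
  exacts [h.2.2 k hk, rfl]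

theorem contDiff_EqB : ContDiff ℂ 1 (EqB (r := r) D) :=
  contDiff_Requ.prodMk (pinCLM D).contDiff

theorem fderiv_EqB (σ v : Tup n r ℂ) :
    fderiv ℂ (EqB D) σ v = (fderiv ℂ Requ σ v, pinCLM D v) := by
  rw [show fderiv ℂ (EqB D) σ = _ from HasFDerivAt.fderiv (f := EqB D)
    ((((contDiff_Requ (r := r) (g := n)).differentiable one_ne_zero σ).hasFDerivAt).prodMk
      (pinCLM D).hasFDerivAt)]
  rfl

/-- The words span the traceless matrices. -/
theorem span_words (hr : r ≠ 0) {lam : Fin r → ℂ} (hinj : Function.Injective lam)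
    (h1 : ∏ a, lam a = 1) (h0 : ∀ a, lam a ≠ 0) {A : Fin l → Matrix (Fin r) (Fin r) ℂ} {e f : Fin l}
    (hf : A f = diagonal lam) (hne : ∀ a b, A e a b ≠ 0) {c : Matrix (Fin r) (Fin r) ℂ}
    (hc : c.det = 1) {Y : Matrix (Fin r) (Fin r) ℂ} (hY : trace Y = 0) :
    Y ∈ Submodule.span ℂ (Set.range fun p : ℕ × ℕ => word A e f p.1 p.2 c) := by
  by_contra hno
  obtain ⟨φ, hφ, hφs⟩ := Submodule.exists_dual_map_eq_bot_of_notMem hno inferInstance
  obtain ⟨u, hu⟩ := exists_trace_repr φ
  have htl : ∀ X, trace (u * tl X) = trace (tl u * X) := fun X => by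
    simp [tl, mul_sub, sub_mul, trace_sub]
    ring
  have hz : ∀ p q : ℕ, ∑ a, (∑ b, (c * tl u) b a * A e a b * lam b ^ q) * (lam a)⁻¹ ^ p = 0 := by
    intro p q
    have h2 : φ (word A e f p q c) ∈ Submodule.map φ
        (Submodule.span ℂ (Set.range fun p : ℕ × ℕ => word A e f p.1 p.2 c)) :=
      Submodule.mem_map_of_mem (Submodule.subset_span ⟨(p, q), rfl⟩)
    rw [hφs, Submodule.mem_bot, hu, word, htl, hf, (diag_adj h1 h0).2, diagonal_pow, diagonal_pow,
      ← mul_assoc, trace_mul_comm, ← mul_assoc] at h2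
    rw [← h2]
    simp only [trace, diag_apply, Matrix.mul_apply (M := c * tl u), mul_diagonal, diagonal_mul,
      Pi.pow_apply, Finset.sum_mul]
    rw [Finset.sum_comm]
    exact Finset.sum_congr rfl fun b _ => Finset.sum_congr rfl fun a _ => by ring
  have hab : ∀ a b, (c * tl u) b a = 0 := by
    intro a
    have hq : ∀ q : ℕ, ∑ b, (c * tl u) b a * A e a b * lam b ^ q = 0 := fun q =>
      congrFun (Matrix.eq_zero_of_forall_pow_sum_mul_pow_eq_zero
        (f := fun a => (lam a)⁻¹) (fun x y h => hinj (inv_injective h))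
        fun p => hz p q) a
    intro b
    exact (mul_eq_zero.1 (congrFun (Matrix.eq_zero_of_forall_pow_sum_mul_pow_eq_zero
      (f := lam) hinj fun q => hq q) b)).resolve_right (hne a b)
  have hcu : c * tl u = 0 := by ext a b; exact hab b a
  have hu0 : tl u = 0 := by
    rw [← one_mul (tl u), ← (mul_adj_cancel hc).2, mul_assoc, hcu, mul_zero]
  apply hφ
  rw [hu, show Y = tl Y by simp [tl, hY], htl, hu0, zero_mul, trace_zero]

/-- The velocities reach every tangent direction outside the lag handles. -/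
theorem rest_cover (h : Base D l α β) {A : Fin l → Matrix (Fin r) (Fin r) ℂ}
    (hA : ∀ a, (A a).det = 1) {e f : Fin l} (hef : e < f) {lam : Fin r → ℂ} (hl : Indep lam)
    (h1 : ∏ a, lam a = 1) (h0 : ∀ a, lam a ≠ 0) (hf : A f = diagonal lam)
    (hne : ∀ a b, A e a b ≠ 0) {v : Tup n r ℂ}
    (htr : ∀ k : Fin n × Bool, l ≤ k.1.1 → trace (adjugate (emb D α β A k) * v k) = 0)
    (hpin : ∀ k : Fin n, l < k.1 → v (k, true) = 0) :
    ∃ w ∈ Submodule.span ℂ (Vel D α β l A), ∀ k : Fin n × Bool, l ≤ k.1.1 → w k = v k := by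
  classical
  have hr : r ≠ 0 := by have := h.two_le; omega
  have hinj := hl.injective
  let κ := {k : Fin n × Bool // l ≤ k.1.1}
  let π : Tup n r ℂ →ₗ[ℂ] (κ → Matrix (Fin r) (Fin r) ℂ) :=
    LinearMap.pi fun k => LinearMap.proj k.1
  set K := Submodule.map π (Submodule.span ℂ (Vel D α β l A))
  suffices hK : π v ∈ K by
    obtain ⟨w, hw, he⟩ := Submodule.mem_map.1 hK
    exact ⟨w, hw, fun k hk => congrFun he ⟨k, hk⟩⟩
  let kL : Bool → κ := fun c => ⟨(h.last, c), le_rfl⟩
  -- the image of a linear function of a word stays in `K`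
  have hlin : ∀ (Λ : Matrix (Fin r) (Fin r) ℂ →ₗ[ℂ] (κ → Matrix (Fin r) (Fin r) ℂ))
      (c : Matrix (Fin r) (Fin r) ℂ), c.det = 1 → (∀ p q, Λ (word A e f p q c) ∈ K) →
      ∀ X, trace X = 0 → Λ X ∈ K := by
    intro Λ c hc hw X hX
    have hsub : Submodule.span ℂ (Set.range fun p : ℕ × ℕ => word A e f p.1 p.2 c) ≤
        K.comap Λ := Submodule.span_le.2 (by rintro _ ⟨⟨p, q⟩, rfl⟩; exact hw p q)
    exact hsub (span_words hr hinj h1 h0 hf hne hc hX)
  let S : κ → Matrix (Fin r) (Fin r) ℂ →ₗ[ℂ] (κ → Matrix (Fin r) (Fin r) ℂ) := fun k =>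
    LinearMap.single ℂ (fun _ : κ => Matrix (Fin r) (Fin r) ℂ) k
  let Λ1 := (S (kL false)).comp (LinearMap.mulLeft ℂ α - LinearMap.mulRight ℂ α) +
    (S (kL true)).comp (LinearMap.mulLeft ℂ β)
  let Λ2 := (S (kL false)).comp (-LinearMap.mulRight ℂ α) + (S (kL true)).comp (LinearMap.mulLeft ℂ β)
  have hπL : ∀ (w : Tup n r ℂ) (P Q : Matrix (Fin r) (Fin r) ℂ), w (h.last, false) = P →
      w (h.last, true) = Q → (∀ k : Fin n, l < k.1 → ∀ c, w (k, c) = 0) →
      π w = S (kL false) P + S (kL true) Q := by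
    intro w P Q hP hQ hw
    funext ⟨⟨k, c⟩, hk⟩
    simp only [π, LinearMap.pi_apply, LinearMap.proj_apply, S, LinearMap.coe_single, Pi.add_apply]
    by_cases hkL : k = h.last
    · subst hkL
      cases c
      · rw [hP, Pi.single_apply, Pi.single_apply, if_pos rfl, if_neg (fun e => by simpa [kL] using congrArg Subtype.val e), add_zero]
      · rw [hQ, Pi.single_apply, Pi.single_apply, if_neg (fun e => by simpa [kL] using congrArg Subtype.val e), if_pos rfl, zero_add]
    · rw [hw k (lt_of_le_of_ne hk fun e => hkL (Fin.ext e.symm)) c, Pi.single_apply,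
        Pi.single_apply, if_neg (fun e => by simpa [kL, hkL] using congrArg Subtype.val e), if_neg (fun e => by simpa [kL, hkL] using congrArg Subtype.val e), add_zero]
  have hΛ1 : ∀ X, trace X = 0 → Λ1 X ∈ K := hlin Λ1 α h.detA fun p q => by
    obtain ⟨w, hw, e1, e2, e3⟩ := (velo_handle h hA hef hl h1 h0 p q).1
    exact Submodule.mem_map.2 ⟨w, Submodule.subset_span hw, (hπL w _ _ e1 e2 e3).trans rfl⟩
  have hΛ2 : ∀ X, trace X = 0 → Λ2 X ∈ K := hlin Λ2 (α * β) (by simp [h.detA, h.detB]) fun p q => by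
    obtain ⟨w, hw, e1, e2, e3⟩ := (velo_handle h hA hef hl h1 h0 p q).2
    exact Submodule.mem_map.2 ⟨w, Submodule.subset_span hw, (hπL w _ _ e1 e2 e3).trans rfl⟩
  have hU : ∀ U, trace (adjugate α * U) = 0 → S (kL false) U ∈ K := by
    intro U hU
    have hX : trace (adjugate α * U) = 0 := hU
    have e : Λ1 (adjugate α * U) - Λ2 (adjugate α * U) = S (kL false) U := by
      simp only [Λ1, Λ2, LinearMap.add_apply, LinearMap.comp_apply, LinearMap.sub_apply,
        LinearMap.neg_apply, LinearMap.mulLeft_apply, LinearMap.mulRight_apply]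
      rw [← mul_assoc α, (mul_adj_cancel h.detA).1, one_mul, map_sub, map_neg]
      abel
    rw [← e]
    exact K.sub_mem (hΛ1 _ hX) (hΛ2 _ hX)
  have hV : ∀ V, trace (adjugate β * V) = 0 → S (kL true) V ∈ K := by
    intro V hV
    set X := adjugate β * V
    have e : Λ1 X - S (kL false) (α * X - X * α) = S (kL true) V := by
      simp only [Λ1, LinearMap.add_apply, LinearMap.comp_apply, LinearMap.sub_apply,
        LinearMap.mulLeft_apply, LinearMap.mulRight_apply, X]
      rw [← mul_assoc β, (mul_adj_cancel h.detB).1, one_mul]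
      abel
    rw [← e]
    refine K.sub_mem (hΛ1 _ hV) (hU _ ?_)
    rw [mul_sub, trace_sub, ← mul_assoc, (mul_adj_cancel h.detA).2, one_mul, ← mul_assoc,
      (trace_conj h.detA X).2, sub_self]
  rw [← Finset.univ_sum_single (π v)]
  refine K.sum_mem fun ⟨⟨k, c⟩, hk⟩ _ => ?_
  show S _ _ ∈ K
  have hπv : π v ⟨(k, c), hk⟩ = v (k, c) := rfl
  rw [hπv]
  by_cases hkL : k = h.last
  · subst hkL
    cases c
    · exact hU _ (by have := htr (h.last, false) le_rfl; rwa [emb_last] at this)
    · exact hV _ (by have := htr (h.last, true) le_rfl; rwa [emb_last] at this)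
  have hk' : l < k.1 := lt_of_le_of_ne hk fun e => hkL (Fin.ext e.symm)
  cases c
  swap
  · rw [hpin k hk', map_zero]; exact K.zero_mem
  obtain ⟨m, z, hmd, hzd, hv⟩ := velo_pin h hA hef hl h1 h0 hk'
  let Λ := (S ⟨(k, false), hk⟩).comp
    (-((LinearMap.mulLeft ℂ (adjugate m)).comp (LinearMap.mulRight ℂ m)))
  have hΛ : ∀ X, trace X = 0 → Λ X ∈ K := hlin Λ z hzd fun p q => by
    obtain ⟨w, hw, e1, e2⟩ := hv p q
    refine Submodule.mem_map.2 ⟨w, Submodule.subset_span hw, ?_⟩
    funext ⟨k', hk''⟩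
    simp only [π, LinearMap.pi_apply, LinearMap.proj_apply, Λ, S, LinearMap.comp_apply,
      LinearMap.coe_single, LinearMap.neg_apply, LinearMap.mulLeft_apply, LinearMap.mulRight_apply]
    by_cases hkk : k' = (k, false)
    · subst hkk
      rw [e1, Pi.single_eq_same, mul_assoc]
    · rw [e2 k' hk'' hkk, Pi.single_eq_of_ne (fun e => hkk (congrArg Subtype.val e))]
  have ht : trace (v (k, false)) = 0 := by
    have := htr (k, false) hk
    rwa [emb_pin A hk', cond_false, adjugate_one, one_mul] at this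
  have e : Λ (-(m * v (k, false) * adjugate m)) = S ⟨(k, false), hk⟩ (v (k, false)) := by
    simp only [Λ, LinearMap.comp_apply, LinearMap.neg_apply, LinearMap.mulLeft_apply,
      LinearMap.mulRight_apply, neg_mul, mul_neg, neg_neg]
    congr 1
    simp only [mul_assoc, (mul_adj_cancel hmd).2, mul_one]
    rw [← mul_assoc, (mul_adj_cancel hmd).2, one_mul]
  rw [← e]
  exact hΛ _ (by rw [trace_neg, (trace_conj hmd _).1, ht, neg_zero])

theorem pre_res (h : Base D l α β) (σ : Tup n r ℂ) : pre l σ = rel adjugate (h.res σ) := by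
  unfold pre rel
  congr 1
  apply List.ext_getElem
  · have := h.lag_le
    simp [cmList, this]
  · intro a h1 h2
    simp only [List.getElem_take, cmList, List.getElem_ofFn]
    rfl

/-- Near the base tuple every representation with the boundary conditions is in the closure of the
irreducible integral ones. -/
theorem exists_open_emb (h : Base D l α β) :
    ∃ (A W W' : Fin l → Matrix (Fin r) (Fin r) ℂ) (lam : Fin r → ℂ), Frame A W W' lam ∧
      Algebra.adjoin ℂ (Set.range (lag A)) = ⊤ ∧ IsIrr D (emb D α β A) ∧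
      ∀ᶠ σ in 𝓝 (emb D α β A), IsRepB D σ → InIrr D σ := by
  classical
  have hr : r ≠ 0 := by have := h.two_le; omega
  obtain ⟨A, lam, e, f, S, S', T, T', hP, hdia⟩ := exists_pos_diag h.two_lag h.two_le
  choose W W' hW using hP.spec
  have hfr : Frame A W W' lam := ⟨hP.indep, hP.prod_one, hP.ne_zero, h.two_le, hW⟩
  have hA := hfr.det
  set σ₀ := emb D α β A
  have hne : ∀ a b, A e a b ≠ 0 := fun a b => by
    by_cases hab : a = b
    · subst hab; exact hdia a
    · exact hP.goodE.1 a b hab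
  have hrep0 := isRepB_emb (D := D) h hA
  have hirr0 : IsIrr D σ₀ := by
    refine eq_top_iff.2 ?_
    rw [← adjoin_lag_eq_top hP]
    refine Algebra.adjoin_mono ?_
    rintro _ ⟨⟨i, c⟩, rfl⟩
    exact ⟨(h.emi i, c), by rw [valT_free D (h.emi_lt i)]; exact emb_lag h A i c⟩
  refine ⟨A, W, W', lam, hfr, adjoin_lag_eq_top hP, hirr0, ?_⟩
  suffices H : ∀ᶠ σ in 𝓝 σ₀, IsRepB D σ → InB D σ by
    filter_upwards [H, eventually_isIrr hirr0] with σ h1 h2 h3 using (h1 h3).inIrr h2
  obtain ⟨Ts, hTs, hspan⟩ := exists_finset_span_eq (Vel D α β l A)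
  obtain ⟨m, F, hF, hd⟩ := exists_famB h hA Ts fun v hv => hTs hv
  let X := (Fin l → Matrix (Fin r) (Fin r) ℂ × (Fin r → ℂ)) × (Fin m → ℂ)
  let H : X → Tup n r ℂ := fun p => F (emb D α β (Lmat W W' lam p.1), p.2)
  have hembd : ContDiff ℂ 1 fun q : Fin l → Matrix (Fin r) (Fin r) ℂ × (Fin r → ℂ) =>
      emb D α β (Lmat W W' lam q) := by
    refine contDiff_pi.2 fun ⟨k, c⟩ => ?_
    simp only [emb]
    split_ifs with hk <;> cases c <;> simp only [cond_false, cond_true]
    all_goals first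
      | exact contDiff_pi.1 (contDiff_Lmat (W := W) (W' := W') (l := lam)) (⟨k.1, hk⟩, false)
      | exact contDiff_const
  have hHs : ContDiff ℂ 1 H :=
    hF.smooth.comp ((hembd.comp contDiff_fst).prodMk contDiff_snd)
  have hinB : ∀ p, InB D (H p) := fun p => hF.inB _ (Lmat_det hfr p.1) _
  have hbase : H 0 = σ₀ := by
    show F (emb D α β (Lmat W W' lam 0), 0) = σ₀
    rw [Lmat_zero hfr, hF.base _ hrep0.1]
  have hconst : ∀ p, EqB D (H p) = EqVal D := fun p => eqB_eq (hinB p).isRepB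
  set DF := fderiv ℂ H 0 with hDF
  set DR := fderiv ℂ (EqB D) σ₀ with hDR
  have hHd : DifferentiableAt ℂ H 0 := hHs.differentiable one_ne_zero 0
  have hDRF : ∀ d, DR (DF d) = 0 := by
    intro d
    have h1 : HasFDerivAt (fun p => EqB D (H p)) (DR.comp DF) 0 :=
      (show HasFDerivAt (EqB D) DR (H 0) by
        rw [hbase]; exact (contDiff_EqB.differentiable one_ne_zero σ₀).hasFDerivAt).comp 0
        hHd.hasFDerivAt
    have h2 : HasFDerivAt (fun p => EqB D (H p)) (0 : X →L[ℂ] _) 0 := by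
      simp only [hconst]; exact hasFDerivAt_const _ _
    simpa using DFunLike.congr_fun (h1.unique h2) d
  have hVel : Submodule.span ℂ (Vel D α β l A) ≤ LinearMap.range DF.toLinearMap := by
    rw [← hspan, Submodule.span_le]
    intro v hv
    obtain ⟨d, hd'⟩ := hd v hv
    refine ⟨(0, d), ?_⟩
    show DF (0, d) = v
    have hl' : HasDerivAt (fun s : ℂ => ((0, s • d) : X)) (0, d) 0 :=
      (hasDerivAt_const (0 : ℂ) _).prodMk
        (((hasDerivAt_id (0 : ℂ)).smul_const d).congr_deriv (one_smul _ _))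
    have h1 := hHd.hasFDerivAt.comp_hasDerivAt_of_eq (0 : ℂ) hl' (by simp; rfl)
    have hl2 : HasDerivAt (fun s : ℂ => ((σ₀, s • d) : Tup n r ℂ × (Fin m → ℂ))) (0, d) 0 :=
      (hasDerivAt_const (0 : ℂ) _).prodMk
        (((hasDerivAt_id (0 : ℂ)).smul_const d).congr_deriv (one_smul _ _))
    have h2 := (hF.smooth.differentiable one_ne_zero (σ₀, 0)).hasFDerivAt.comp_hasDerivAt_of_eq
      (0 : ℂ) hl2 (by simp)
    rw [hd'] at h2
    refine (h1.congr_of_eventuallyEq (Eventually.of_forall fun s => ?_)).unique h2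
    show F (σ₀, s • d) = F (emb D α β (Lmat W W' lam 0), s • d)
    rw [Lmat_zero hfr]
  have hker : ∀ w ∈ Submodule.span ℂ (Vel D α β l A), DR w = 0 := fun w hw => by
    obtain ⟨d, rfl⟩ := hVel hw
    exact hDRF d
  have hrange : ∀ v, DR v = 0 → v ∈ DF.range := by
    intro v hv
    have hker0 : ∀ u, DR u = 0 → (∀ k, trace (adjugate (σ₀ k) * u k) = 0) ∧
        (fderiv ℂ Requ σ₀ u).2 = 0 ∧ ∀ k : Fin n, D.g ≤ k.1 → u (k, true) = 0 := by
      intro u hu
      rw [hDR, fderiv_EqB] at hu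
      have e1 : fderiv ℂ Requ σ₀ u = 0 := congrArg Prod.fst hu
      have e2 : pinCLM D u = 0 := congrArg Prod.snd hu
      refine ⟨fun k => ?_, congrArg Prod.snd e1, fun k hk => ?_⟩
      · exact congrFun ((fderiv_Requ_det hrep0.1 u).symm.trans (congrArg Prod.fst e1)) k
      · have := congrFun e2 k
        rwa [pinCLM_apply, if_pos hk] at this
    obtain ⟨vt, -, vp⟩ := hker0 v hv
    obtain ⟨w, hw, hwv⟩ := rest_cover h hA hP.lt hP.indep hP.prod_one hP.ne_zero hP.specL hne
      (v := v) (fun k _ => vt k) (fun k hk => vp k (by have := h.genus; omega))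
    set u := v - w with hudef
    have hu : DR u = 0 := by rw [hudef, map_sub, hv, hker w hw, sub_zero]
    have hu0 : ∀ k : Fin n × Bool, l ≤ k.1.1 → u k = 0 := fun k hk => by
      rw [hudef, Pi.sub_apply, hwv k hk, sub_self]
    obtain ⟨ut, urel, -⟩ := hker0 u hu
    have hlag0 : ∀ c : Fin l × Bool, (lag A c).det = 1 := fun c => by
      rw [← res_emb (D := D) (α := α) (β := β) h]; exact hrep0.1 _
    have hres : fderiv ℂ Requ (lag A) (h.res u) = 0 := by
      refine Prod.ext ((fderiv_Requ_det hlag0 _).trans (funext fun c => ?_)) ?_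
      · rw [← res_emb (D := D) (α := α) (β := β) h]
        exact ut _
      have hc1 : HasDerivAt (fun s : ℂ => rel adjugate (σ₀ + s • u)) (fderiv ℂ Requ σ₀ u).2 0 :=
        (ContinuousLinearMap.snd ℂ (Fin n × Bool → ℂ)
          (Matrix (Fin r) (Fin r) ℂ)).hasFDerivAt.comp_hasDerivAt (0 : ℂ)
          (((contDiff_Requ (r := r) (g := n)).differentiable one_ne_zero
            σ₀).hasFDerivAt.comp_hasDerivAt_of_eq (0 : ℂ) (hasDerivAt_line σ₀ u) (by simp))
      have hc2 : HasDerivAt (fun s : ℂ => rel adjugate (lag A + s • h.res u))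
          (fderiv ℂ Requ (lag A) (h.res u)).2 0 :=
        (ContinuousLinearMap.snd ℂ (Fin l × Bool → ℂ)
          (Matrix (Fin r) (Fin r) ℂ)).hasFDerivAt.comp_hasDerivAt (0 : ℂ)
          (((contDiff_Requ (r := r) (g := l)).differentiable one_ne_zero
            (lag A)).hasFDerivAt.comp_hasDerivAt_of_eq (0 : ℂ) (hasDerivAt_line _ _) (by simp))
      have hprod : (fun s : ℂ => rel adjugate (σ₀ + s • u)) =
          fun s : ℂ => rel adjugate (lag A + s • h.res u) * D.W := by
        funext s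
        have hsame : ∀ k : Fin n × Bool, l ≤ k.1.1 → (σ₀ + s • u) k = σ₀ k := fun k hk => by
          simp [hu0 k hk]
        rw [rel_split _ h.last, hsame (h.last, false) le_rfl, hsame (h.last, true) le_rfl]
        simp only [σ₀]
        rw [emb_last, emb_last, post_eq_one]
        · rw [mul_one, show (h.last : ℕ) = l from rfl, pre_res h]
          simp only [cond_false, cond_true, h.comm]
          rw [← res_emb (D := D) (α := α) (β := β) h]
          rfl
        · intro k hk
          have hk' : l < k.1 := hk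
          rw [hsame (k, false) hk'.le, hsame (k, true) hk'.le]
          simp only [σ₀]
          rw [emb_pin A hk', emb_pin A hk']
          exact (cm_one_left (h.detJ k)).1
      rw [hprod, urel] at hc1
      have h3 := (hc2.mul_const D.W).unique hc1
      have hWd : D.W.det = 1 := by rw [← h.comm]; exact det_cm h.detA h.detB
      have := congrArg (fun M => M * adjugate D.W) h3
      simpa [mul_assoc, (mul_adj_cancel hWd).1] using this
    obtain ⟨-, hbtr, hsum⟩ := fderiv_Requ_ker hA hres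
    have hY := span_Yvec hr hP hbtr hsum
    let projb : Tup n r ℂ →ₗ[ℂ] (Fin l → Matrix (Fin r) (Fin r) ℂ) :=
      LinearMap.pi fun c => LinearMap.proj (h.emi c, true)
    let Z : Submodule ℂ (Tup n r ℂ) :=
      ⨅ k : {k : Fin n × Bool // l ≤ k.1.1}, LinearMap.ker (LinearMap.proj k.1)
    have hle : Submodule.span ℂ
        {v | ∃ i j m k, (i < j ∨ m = 0) ∧ v = Yvec A i j m k} ≤
        Submodule.map projb (Submodule.span ℂ (Vel D α β l A) ⊓ Z) := by
      rw [Submodule.span_le]
      rintro _ ⟨i, j, q, k, hij, rfl⟩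
      obtain ⟨x, hx, hxr, hx0⟩ := velo_lag h hfr hij k
      refine ⟨x, ⟨Submodule.subset_span hx, ?_⟩, funext fun c => ?_⟩
      · exact Submodule.mem_iInf _ |>.2 fun c => hx0 c.1 c.2
      · show x (h.emi c, true) = _
        rw [show x (h.emi c, true) = h.res x (c, true) from rfl, hxr]
        exact (vstep_spec hfr hij k).1 c
    obtain ⟨w', ⟨hw', hw'Z⟩, hw'Y⟩ := hle hY
    set u' := u - w' with hu'def
    have hu' : DR u' = 0 := by rw [hu'def, map_sub, hu, hker w' hw', sub_zero]
    have hu'0 : ∀ k : Fin n × Bool, l ≤ k.1.1 → u' k = 0 := fun k hk => by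
      have : w' k = 0 := (Submodule.mem_iInf _).1 hw'Z ⟨k, hk⟩
      rw [hu'def, Pi.sub_apply, hu0 k hk, this, sub_self]
    obtain ⟨ut', -, -⟩ := hker0 u' hu'
    obtain ⟨d, hd'⟩ := Lmat_tangent hfr (isFam_init hfr) (v := h.res u')
      (fun c => by
        have : w' (h.emi c, true) = u (h.emi c, true) := congrFun hw'Y c
        simp [Base.res, hu'def, this])
      (fun c => by
        have := ut' (h.emi c, false)
        simp only [σ₀] at this
        rwa [emb_lag] at this)
    have hDFd : DF (d.1, 0) = u' := by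
      have hl' : HasDerivAt (fun s : ℂ => ((s • d.1, 0) : X)) (d.1, 0) 0 :=
        (((hasDerivAt_id (0 : ℂ)).smul_const d.1).congr_deriv (one_smul _ _)).prodMk
          (hasDerivAt_const (0 : ℂ) _)
      have h1 := hHd.hasFDerivAt.comp_hasDerivAt_of_eq (0 : ℂ) hl' (by simp; rfl)
      have hl2 : HasDerivAt (fun s : ℂ => (s • d :
          (Fin l → Matrix (Fin r) (Fin r) ℂ × (Fin r → ℂ)) × (Fin 0 → ℂ))) d 0 :=
        ((hasDerivAt_id (0 : ℂ)).smul_const d).congr_deriv (one_smul _ _)
      have h2 := ((isFam_init hfr).smooth.differentiable one_ne_zero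
        0).hasFDerivAt.comp_hasDerivAt_of_eq (0 : ℂ) hl2 (by simp)
      rw [hd'] at h2
      have he : ∀ s : ℂ, H (s • d.1, 0) = emb D α β (Lmat W W' lam (s • d.1)) := fun s =>
        hF.base _ (det_emb h (Lmat_det hfr _))
      funext ⟨k, c⟩
      have h3 := hasDerivAt_pi.1 h1 (k, c)
      by_cases hk : k.1 < l
      · have h4 := hasDerivAt_pi.1 h2 (⟨k.1, hk⟩, c)
        refine (h3.congr_of_eventuallyEq (Eventually.of_forall fun s => ?_)).unique h4
        show lag (Lmat W W' lam (s • d.1)) (⟨k.1, hk⟩, c) = H (s • d.1, 0) (k, c)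
        rw [he, ← res_emb (D := D) (α := α) (β := β) h]
        rfl
      · rw [hu'0 (k, c) (le_of_not_gt hk)]
        refine (h3.congr_of_eventuallyEq (Eventually.of_forall fun s => ?_)).unique
          (hasDerivAt_const (0 : ℂ) (emb D α β A (k, c)))
        show _ = H (s • d.1, 0) (k, c)
        rw [he]
        simp [emb, hk]
    have : v = w + w' + u' := by rw [hu'def, hudef]; abel
    rw [this]
    exact add_mem (add_mem (hVel hw) (hVel hw')) ⟨(d.1, 0), hDFd⟩
  obtain ⟨C, hC⟩ := Submodule.exists_isCompl (LinearMap.range DF.toLinearMap)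
  have hFs : HasStrictFDerivAt H DF 0 := hHs.contDiffAt.hasStrictFDerivAt one_ne_zero
  have hPs : HasStrictFDerivAt (fun x : X × C => H x.1 + C.subtypeL x.2)
      (DF.coprod C.subtypeL) 0 := by
    have h1 : HasStrictFDerivAt (fun x : X × C => H x.1)
        (DF.comp (ContinuousLinearMap.fst ℂ _ _)) 0 :=
      HasStrictFDerivAt.comp 0 hFs hasStrictFDerivAt_fst
    have h2 : HasStrictFDerivAt (fun x : X × C => C.subtypeL x.2)
        (C.subtypeL.comp (ContinuousLinearMap.snd ℂ _ _)) 0 :=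
      HasStrictFDerivAt.comp 0 C.subtypeL.hasStrictFDerivAt hasStrictFDerivAt_snd
    exact h1.add h2
  have hsurj : (DF.coprod C.subtypeL).range = ⊤ := by
    rw [LinearMap.range_eq_top]
    intro v
    have hm : v ∈ LinearMap.range DF.toLinearMap ⊔ C := by rw [hC.sup_eq_top]; trivial
    obtain ⟨a, ⟨d, rfl⟩, c, hc, rfl⟩ := Submodule.mem_sup.1 hm
    exact ⟨(d, ⟨c, hc⟩), rfl⟩
  have hmap := hPs.map_nhds_eq_of_surj hsurj
  simp only [Prod.fst_zero, Prod.snd_zero, map_zero, add_zero, hbase] at hmap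
  suffices H' : ∀ᶠ x in 𝓝 (0 : X × C),
      IsRepB D (H x.1 + C.subtypeL x.2) → InB D (H x.1 + C.subtypeL x.2) by
    exact Eventually.filter_mono hmap.ge (Filter.eventually_map.2 H')
  have hRs : HasStrictFDerivAt (EqB D) DR ((fun x : X × C => H x.1 + C.subtypeL x.2) 0) := by
    have h00 : (fun x : X × C => H x.1 + C.subtypeL x.2) 0 = σ₀ := by simp [hbase]
    rw [h00]
    exact contDiff_EqB.contDiffAt.hasStrictFDerivAt one_ne_zero
  have hΦ := hRs.comp 0 hPs
  have hinjC : Function.Injective (DR.toLinearMap.comp C.subtype) := by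
    rw [← LinearMap.ker_eq_bot, LinearMap.ker_eq_bot']
    intro c hc
    have h1 : (c : Tup n r ℂ) ∈ LinearMap.range DF.toLinearMap ⊓ C := ⟨hrange _ hc, c.2⟩
    rw [hC.inf_eq_bot] at h1
    exact Subtype.ext h1
  obtain ⟨K, -, hK⟩ :=
    (DR.toLinearMap.comp C.subtype).exists_antilipschitzWith (LinearMap.ker_eq_bot.2 hinjC)
  have hlit := hΦ.isLittleO.def (show (0 : ℝ) < 1 / (2 * (K : ℝ) + 1) by positivity)
  have htend : Tendsto (fun x : X × C => (x, (x.1, (0 : C)))) (𝓝 0) (𝓝 (0, 0)) :=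
    (continuous_id.prodMk (continuous_fst.prodMk continuous_const)).tendsto 0
  filter_upwards [htend.eventually hlit] with x hx hrep
  have hx2 : x.2 = 0 := by
    have e1 : EqB D (H x.1 + C.subtypeL x.2) = EqVal D := eqB_eq hrep
    have e2 : EqB D (H x.1 + C.subtypeL (0 : C)) = EqVal D := by
      rw [map_zero, add_zero]; exact hconst x.1
    have e3 : (DR.comp (DF.coprod C.subtypeL)) (x - (x.1, (0 : C))) = DR (x.2 : Tup n r ℂ) := by
      rw [show x - (x.1, (0 : C)) = (0, x.2) from Prod.ext (sub_self _) (sub_zero _)]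
      show DR (DF 0 + C.subtypeL x.2) = _
      rw [map_zero, zero_add]
      rfl
    have e4 : ‖x - (x.1, (0 : C))‖ = ‖x.2‖ := by
      rw [show x - (x.1, (0 : C)) = (0, x.2) from Prod.ext (sub_self _) (sub_zero _)]
      simp [Prod.norm_def]
    replace hx : ‖EqB D (H x.1 + C.subtypeL x.2) - EqB D (H x.1 + C.subtypeL (0 : C)) -
      (DR.comp (DF.coprod C.subtypeL)) (x - (x.1, (0 : C)))‖ ≤
        1 / (2 * (K : ℝ) + 1) * ‖x - (x.1, (0 : C))‖ := hx
    rw [e1, e2, sub_self, e3, zero_sub, norm_neg, e4] at hx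
    have h5 : ‖x.2‖ ≤ K * ‖DR (x.2 : Tup n r ℂ)‖ := by
      simpa [dist_zero_right] using hK.le_mul_dist x.2 0
    have hK0 : (0 : ℝ) ≤ K := K.2
    have hd : (1 / (2 * (K : ℝ) + 1)) * ‖x.2‖ * K ≤ ‖x.2‖ / 2 := by
      rw [div_mul_eq_mul_div, one_mul, div_mul_eq_mul_div, div_le_div_iff₀ (by positivity) two_pos]
      nlinarith [norm_nonneg x.2]
    have h6 : ‖x.2‖ ≤ ‖x.2‖ / 2 :=
      h5.trans (le_trans (le_of_le_of_eq (mul_le_mul_of_nonneg_left hx hK0) (by ring)) hd)
    exact norm_eq_zero.1 (le_antisymm (by linarith [norm_nonneg x.2]) (norm_nonneg _))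
  show InB D (H x.1 + C.subtypeL x.2)
  rw [hx2, map_zero, add_zero]
  exact hinB x.1

/-- An irreducible representation with a neighbourhood inside the closure of the irreducible integral
ones. -/
theorem exists_open_irr (h : Base D l α β) :
    ∃ σ₀, IsRepB D σ₀ ∧ IsIrr D σ₀ ∧ ∀ᶠ σ in 𝓝 σ₀, IsRepB D σ → InIrr D σ := by
  obtain ⟨A, W, W', lam, hfr, -, hirr, hev⟩ := exists_open_emb h
  exact ⟨_, isRepB_emb (D := D) h hfr.det, hirr, hev⟩

end Vale.Agent.P002.Bd
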