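import Vale.Agent.P002.Bd.ProductModel

/-!
# P002: prescribed boundary classes on products of punctured curves
-/

namespace Vale.Agent.P002.Bd

open Matrix Vale.Agent.P002.Prod

variable {I : Type} [Fintype I] [DecidableEq I]

/-- Invariant polynomials vanishing at the semisimple points with entries in `R` and meridians in
the classes of `c` vanish at all semisimple points with meridians in these classes, provided the
irreducible points of each factor are dense. -/
theorem vanish_product (g s : I → ℕ) {r M : ℕ} (hM : 0 < M) {R : Subring ℂ} (hR : ZSqrtTwo ≤ R)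
    (hroot : ∀ z : ℂ, z ^ (M * r.factorial) = 1 → z ∈ R)
    (hfac : ∀ i k, 0 < k → k ≤ r → Dense (g i) (s i) k (M * r.factorial) R)
    (c : ∀ i, Fin (s i) → Matrix (Fin r) (Fin r) ℂ)
    (hc : ∀ i p z, (c i p).charpoly.IsRoot z → z ^ M = 1)
    (σ : (Σ i, Sb.Slot (g i) (s i)) → Matrix (Fin r) (Fin r) ℂ)
    (hσ : ∀ i, Pt (c i) fun a => σ ⟨i, a⟩)
    (hcomm : ∀ x y, x.1 ≠ y.1 → σ x * σ y = σ y * σ x)
    (hs : ∀ U, Inv σ U → ∃ V, Inv σ V ∧ IsCompl U V)
    (f : MvPolynomial ((Σ i, Sb.Slot (g i) (s i)) × Fin r × Fin r) ℂ)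
    (hinv : ∀ (P P' : Matrix (Fin r) (Fin r) ℂ)
      (ρ : (Σ i, Sb.Slot (g i) (s i)) → Matrix (Fin r) (Fin r) ℂ), P * P' = 1 →
      MvPolynomial.eval (fun v => (P * ρ v.1 * P') v.2.1 v.2.2) f =
        MvPolynomial.eval (fun v => ρ v.1 v.2.1 v.2.2) f)
    (hf : ∀ ρ : (Σ i, Sb.Slot (g i) (s i)) → Matrix (Fin r) (Fin r) ℂ,
      (∀ x a b, ρ x a b ∈ R) → (∀ i, Pt (c i) fun a => ρ ⟨i, a⟩) →
      (∀ x y, x.1 ≠ y.1 → ρ x * ρ y = ρ y * ρ x) →
      (∀ U, Inv ρ U → ∃ V, Inv ρ V ∧ IsCompl U V) →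
      MvPolynomial.eval (fun v => ρ v.1 v.2.1 v.2.2) f = 0) :
    MvPolynomial.eval (fun v => σ v.1 v.2.1 v.2.2) f = 0 := by
  classical
  have hdet : ∀ x, (σ x).det = 1 := fun x => (hσ x.1).det x.2
  obtain ⟨N, d, e, B, P, P', h1, h2, hB, hBσ⟩ := exists_blocks hs
  have hcB : ∀ j x y, x.1 ≠ y.1 → B j x * B j y = B j y * B j x := by
    intro j x y hxy
    have h : P' * σ x * P * (P' * σ y * P) = P' * σ y * P * (P' * σ x * P) := by
      calc P' * σ x * P * (P' * σ y * P) = P' * σ x * (P * P') * σ y * P := by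
            simp only [mul_assoc]
        _ = P' * (σ x * σ y) * P := by rw [h1, mul_one, mul_assoc P' (σ x)]
        _ = P' * σ y * (P * P') * σ x * P := by
            rw [hcomm x y hxy, h1, mul_one, mul_assoc P' (σ y)]
        _ = _ := by simp only [mul_assoc]
    simp only [hBσ, reindex_apply, submatrix_mul_equiv, ← blockDiagonal'_mul] at h
    have h' : blockDiagonal' (fun k => B k x * B k y) = blockDiagonal' fun k => B k y * B k x :=
      (reindex e e).injective h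
    exact congrFun (blockDiagonal'_injective h') j
  choose F Q Q' q1 q2 hF hFc hFQ using fun j => exists_tens (T := fun i => Sb.Slot (g i) (s i))
    Finset.univ (fun i a => B j ⟨i, a⟩) (hB j)
    (fun i i' hii' a b => hcB j ⟨i, a⟩ ⟨i', b⟩ hii') (fun i hi => absurd (Finset.mem_univ i) hi)
  have hBdet : ∀ j x, (B j x).det ≠ 0 := fun j x => by
    have h : (P' * σ x * P).det = 1 := by
      rw [det_mul, det_mul, hdet, mul_one, ← det_mul, h2, det_one]
    rw [hBσ, det_reindex_self, det_blockDiag] at h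
    exact Finset.prod_ne_zero_iff.1 (h.trans_ne one_ne_zero) j (Finset.mem_univ j)
  have hAdet : ∀ j i a, ((F j i).A a).det ≠ 0 := fun j i a h => by
    have h3 : (Q' j * B j ⟨i, a⟩ * Q j).det = 0 := by
      rw [hFQ, (hF j i).det, h, zero_pow (hF j i).pos.ne']
    rw [det_mul, det_mul, mul_comm _ (B j _).det, mul_assoc, ← det_mul, q2, det_one, mul_one] at h3
    exact hBdet j _ h3
  -- sizes
  have hdr : ∀ j, d j ≤ r := fun j => by
    simpa using Fintype.card_le_of_injective (fun t : Fin (d j) => e ⟨j, t⟩)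
      (fun t t' h => by simpa using h)
  have hkd : ∀ j i, (F j i).k * (F j i).l = d j := fun j i => by
    have h := (hF j i).det ((2 : ℂ) • 1)
    rw [map_smul, map_one, det_smul, det_smul, det_one, det_one, Fintype.card_fin,
      Fintype.card_fin, mul_one, mul_one, ← pow_mul] at h
    exact (Nat.pow_right_injective le_rfl (by exact_mod_cast h)).symm
  have hkr : ∀ j i, (F j i).k ≤ r := fun j i =>
    ((Nat.le_mul_of_pos_right _ (hF j i).pos).trans (hkd j i).le).trans (hdr j)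
  have hkfac : ∀ j i, (F j i).k ∣ r.factorial := fun j i =>
    Nat.dvd_factorial (Nat.pos_of_ne_zero (hF j i).irred.1) (hkr j i)
  have hdfac : ∀ j, d j ∣ r.factorial := fun j =>
    Nat.dvd_factorial (Nat.pos_of_ne_zero (hB j).1) (hdr j)
  set P₂ := P * reindex e e (blockDiagonal' Q) with hP₂
  set P₂' := reindex e e (blockDiagonal' Q') * P' with hP₂'
  have hR12 : reindex e e (blockDiagonal' Q') * reindex e e (blockDiagonal' Q) = 1 := by
    simp [reindex_apply, submatrix_mul_equiv, ← blockDiagonal'_mul, q2, ← Pi.one_def]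
  have p1 : P₂' * P₂ = 1 := by
    rw [hP₂, hP₂', mul_assoc, ← mul_assoc P', h2, one_mul, hR12]
  have p2 : P₂ * P₂' = 1 := mul_eq_one_comm.1 p1
  have hblk : ∀ x, P₂' * σ x * P₂ =
      reindex e e (blockDiagonal' fun j => (F j x.1).L ((F j x.1).A x.2)) := by
    intro x
    rw [hP₂, hP₂', show reindex e e (blockDiagonal' Q') * P' * σ x *
        (P * reindex e e (blockDiagonal' Q)) = reindex e e (blockDiagonal' Q') * (P' * σ x * P) *
        reindex e e (blockDiagonal' Q) by simp only [mul_assoc], hBσ]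
    simp only [reindex_apply, submatrix_mul_equiv, ← blockDiagonal'_mul]
    congr 2
    funext j
    exact hFQ j x.1 x.2
  -- the eigenvalues at the punctures
  have hAroot : ∀ j i p z, ((F j i).A (Sum.inr p)).charpoly.IsRoot z → z ^ M = 1 := by
    intro j i p z hz
    refine hc i p z (((hσ i).cls p).isRoot ?_)
    rw [isRoot_charpoly_iff] at hz ⊢
    have h := det_conj_sub (z := z) p1 (σ ⟨i, Sum.inr p⟩)
    rw [hblk] at h
    rw [← h]
    have e1 : z • (1 : Matrix (Fin r) (Fin r) ℂ) -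
        reindex e e (blockDiagonal' fun j => (F j i).L ((F j i).A (Sum.inr p))) =
        reindex e e (blockDiagonal' fun j => (F j i).L (z • 1 - (F j i).A (Sum.inr p))) := by
      rw [← (show reindex e e (blockDiagonal' (fun j : Fin N =>
          (1 : Matrix (Fin (d j)) (Fin (d j)) ℂ))) = 1 by simp [← Pi.one_def])]
      simp only [map_sub, map_smul, map_one, reindex_apply]
      rw [show (blockDiagonal' fun j : Fin N => z • (1 : Matrix (Fin (d j)) (Fin (d j)) ℂ) -
          (F j i).L ((F j i).A (Sum.inr p))) = z • blockDiagonal' (fun j : Fin N =>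
          (1 : Matrix (Fin (d j)) (Fin (d j)) ℂ)) - blockDiagonal' fun j =>
          (F j i).L ((F j i).A (Sum.inr p)) from by
        rw [← blockDiagonal'_smul, ← blockDiagonal'_sub]; rfl]
      rfl
    rw [e1, det_reindex_self, det_blockDiag]
    exact Finset.prod_eq_zero (Finset.mem_univ j)
      (by rw [(hF j i).det, hz, zero_pow (hF j i).pos.ne'])
  -- scalings
  choose z hz using fun (j : Fin N) (x : Σ i, Sb.Slot (g i) (s i)) =>
    IsAlgClosed.exists_pow_nat_eq (((F j x.1).A x.2).det)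
      (Nat.pos_of_ne_zero ((hF j x.1).irred.1))
  let Az : (Fin N → (Σ i, Sb.Slot (g i) (s i)) → ℂ) → ∀ q : Fin N × I,
      Sb.Slot (g q.2) (s q.2) → Matrix (Fin (F q.1 q.2).k) (Fin (F q.1 q.2).k) ℂ :=
    fun w q a => (w q.1 ⟨q.2, a⟩)⁻¹ • (F q.1 q.2).A a
  have gen : ∀ w : Fin N → (Σ i, Sb.Slot (g i) (s i)) → ℂ,
      (∀ j x, w j x ^ (F j x.1).k = ((F j x.1).A x.2).det) →
      (∀ j x, w j x ≠ 0) ∧ (∀ q a, (Az w q a).det = 1) ∧
      (∀ x, P₂' * σ x * P₂ = mdl e F w (Az w) x) ∧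
      ∀ j i, (∏ p, w j ⟨i, Sum.inr p⟩) • relP (Az w (j, i)) = 1 := by
    intro w hw
    have hw0 : ∀ j x, w j x ≠ 0 := fun j x h => hAdet j x.1 x.2 (by
      rw [← hw, h, zero_pow ((hF j x.1).irred.1)])
    have hd1 : ∀ q a, (Az w q a).det = 1 := fun q a => by
      simp only [Az, det_smul, Fintype.card_fin, inv_pow]
      rw [hw q.1 ⟨q.2, a⟩, inv_mul_cancel₀ (hAdet q.1 q.2 a)]
    have hmdl : ∀ x, P₂' * σ x * P₂ = mdl e F w (Az w) x := fun x => by
      rw [hblk]
      simp only [mdl, Az, map_smul, smul_smul, mul_inv_cancel₀ (hw0 _ _), one_smul]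
    refine ⟨hw0, hd1, hmdl, fun j i => (hF j i).inj ?_⟩
    let cj : Matrix (Fin r) (Fin r) ℂ →* Matrix (Fin r) (Fin r) ℂ :=
      { toFun := fun X => P₂' * X * P₂
        map_one' := by rw [mul_one, p1]
        map_mul' := fun X Y => by
          calc P₂' * (X * Y) * P₂ = P₂' * X * (P₂ * P₂') * Y * P₂ := by
                rw [p2, mul_one, mul_assoc P₂' X]
            _ = _ := by simp only [mul_assoc] }
    have hcj : ∀ X, cj X⁻¹ = (cj X)⁻¹ := fun X => by
      show P₂' * X⁻¹ * P₂ = (P₂' * X * P₂)⁻¹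
      rw [Matrix.mul_inv_rev (P₂' * X) P₂, Matrix.mul_inv_rev P₂' X, inv_eq_left_inv p1,
        inv_eq_left_inv p2, mul_assoc]
    have h : cj (relW fun a => σ ⟨i, a⟩) = relW fun a => mdl e F w (Az w) ⟨i, a⟩ := by
      rw [relW, map_mul, map_rel (fun X => X⁻¹) (fun X => X⁻¹) cj hcj, map_list_prod,
        List.map_ofFn, show (fun a => mdl e F w (Az w) ⟨i, a⟩) = fun a => cj (σ ⟨i, a⟩) from
          funext fun a => (hmdl ⟨i, a⟩).symm]
      rfl
    rw [(hσ i).rel, map_one, relW_mdl e F hw0 hd1 i] at h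
    have h' : blockDiagonal' (fun j => (∏ p, w j ⟨i, Sum.inr p⟩) •
        (F j i).L (relP (Az w (j, i)))) = blockDiagonal' (fun _ => 1) := (reindex e e).injective (by
      rw [← h]; simp [← Pi.one_def])
    rw [map_smul, map_one]
    exact congrFun (blockDiagonal'_injective h') j
  obtain ⟨hz0, hzd1, -, hzrel⟩ := gen z hz
  let ζ : Fin N → I → ℂ := fun j i => ∏ p, z j ⟨i, Sum.inr p⟩
  have hζ : ∀ j i, ζ j i ^ (F j i).k = 1 := fun j i => by
    have h := congrArg Matrix.det (hzrel j i)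
    rwa [det_smul, det_relP fun a => hzd1 (j, i) a, mul_one, det_one, Fintype.card_fin] at h
  have hζ0 : ∀ j i, ζ j i ≠ 0 := fun j i => Finset.prod_ne_zero_iff.2 fun p _ => hz0 _ _
  let κ : Fin N → (Σ i, Sb.Slot (g i) (s i)) → ℂ := fun j x =>
    match x with
    | ⟨_, Sum.inl _⟩ => 1
    | ⟨i, Sum.inr p⟩ => if p.1 = 0 then (ζ j i)⁻¹ else 1
  let w : Fin N → (Σ i, Sb.Slot (g i) (s i)) → ℂ := fun j x => z j x * κ j x
  have hw : ∀ j x, w j x ^ (F j x.1).k = ((F j x.1).A x.2).det := by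
    intro j x
    simp only [w, mul_pow, hz]
    obtain ⟨i, a | p⟩ := x
    · simp [κ]
    · simp only [κ]
      split_ifs
      · rw [inv_pow, hζ, inv_one, mul_one]
      · rw [one_pow, mul_one]
  have hwprod : ∀ j i, ∏ p, w j ⟨i, Sum.inr p⟩ = 1 := by
    intro j i
    rcases Nat.eq_zero_or_pos (s i) with h | h
    · refine Finset.prod_eq_one fun p _ => absurd p.2 (by omega)
    · show ∏ p, z j ⟨i, Sum.inr p⟩ * κ j ⟨i, Sum.inr p⟩ = 1
      have hκ : ∏ p, κ j ⟨i, Sum.inr p⟩ = (ζ j i)⁻¹ := by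
        rw [Fintype.prod_eq_single (⟨0, h⟩ : Fin (s i)) fun p hp => ?_]
        · simp [κ]
        · exact if_neg fun hp0 => hp (Fin.ext hp0)
      rw [Finset.prod_mul_distrib, hκ]
      exact mul_inv_cancel₀ (hζ0 j i)
  obtain ⟨hw0, hAdet1, hmdl, hwrel⟩ := gen w hw
  set A₀ := Az w with hA₀def
  have hA₀irr : ∀ q, Irred (A₀ q) := fun q => by
    refine ⟨(hF q.1 q.2).irred.1, fun U hU => (hF q.1 q.2).irred.2 U fun a v hv => ?_⟩
    have h := U.smul_mem (w q.1 ⟨q.2, a⟩) (hU a v hv)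
    simp only [A₀, Az, smul_mulVec, smul_smul, mul_inv_cancel₀ (hw0 _ _), one_smul] at h
    exact h
  let c' : ∀ q : Fin N × I, Fin (s q.2) → Matrix (Fin (F q.1 q.2).k) (Fin (F q.1 q.2).k) ℂ :=
    fun q p => A₀ q (Sum.inr p)
  have hA₀pt : ∀ q, Pt (c' q) (A₀ q) := fun q =>
    ⟨hAdet1 q, fun p => ⟨1, 1, one_mul 1, by rw [one_mul, mul_one]⟩, by
      rw [relW_eq_relP (hAdet1 q)]
      have h := hwrel q.1 q.2
      rwa [hwprod, one_smul] at h⟩
  have hwroot : ∀ j i p, w j ⟨i, Sum.inr p⟩ ^ (M * r.factorial) = 1 := fun j i p => by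
    obtain ⟨m, hm⟩ := hkfac j i
    rw [show M * r.factorial = (F j i).k * M * m by rw [hm]; ring, pow_mul, pow_mul,
      hw j ⟨i, Sum.inr p⟩, det_pow_eq_one _ (hAroot j i p), one_pow]
  have hc' : ∀ q p x, (c' q p).charpoly.IsRoot x → x ^ (M * r.factorial) = 1 := by
    rintro ⟨j, i⟩ p x hx
    have hwne := hw0 j ⟨i, Sum.inr p⟩
    rw [isRoot_charpoly_iff] at hx
    have hroot' : ((F j i).A (Sum.inr p)).charpoly.IsRoot (w j ⟨i, Sum.inr p⟩ * x) := by
      rw [isRoot_charpoly_iff]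
      have e1 : (w j ⟨i, Sum.inr p⟩ * x) • 1 - (F j i).A (Sum.inr p) =
          w j ⟨i, Sum.inr p⟩ • (x • 1 - c' (j, i) p) := by
        simp only [c', A₀, Az, smul_sub, smul_smul, mul_inv_cancel₀ hwne, one_smul]
      rw [e1, det_smul, hx, mul_zero]
    have h := hAroot j i p _ hroot'
    have h' : (w j ⟨i, Sum.inr p⟩ * x) ^ (M * r.factorial) = 1 := by rw [pow_mul, h, one_pow]
    rwa [mul_pow, hwroot, one_mul] at h'
  have hzd : ∀ x, ∏ j, w j x ^ d j = 1 := fun x => by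
    have h := congrArg Matrix.det (hmdl x)
    rw [det_mul, det_mul, hdet, mul_one, ← det_mul, p1, det_one, det_mdl e F hF] at h
    simpa [hAdet1] using h.symm
  have hblock : ∀ j, d j ≠ 0 ∧ ∀ U : Submodule ℂ (Fin (d j) → ℂ),
      (∀ i X, ∀ v ∈ U, (F j i).L X *ᵥ v ∈ U) → U = ⊥ ∨ U = ⊤ := by
    refine fun j => ⟨(hB j).1, fun U hU => ?_⟩
    have hqq : Function.Injective (Matrix.toLin' (Q j)) := fun u v h => by
      have := congrArg (Q' j *ᵥ ·) h
      simpa [mulVec_mulVec, q2] using this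
    have hqs : Function.Surjective (Matrix.toLin' (Q j)) := fun v =>
      ⟨Q' j *ᵥ v, by simp [mulVec_mulVec, q1]⟩
    have hmap : Inv (B j) (U.map (Matrix.toLin' (Q j))) := by
      rintro ⟨i, a⟩ _ ⟨v, hv, rfl⟩
      refine ⟨(F j i).L ((F j i).A a) *ᵥ v, hU i _ v hv, ?_⟩
      simp only [toLin'_apply, mulVec_mulVec]
      rw [← hFQ j i a, ← mul_assoc, ← mul_assoc, q1, one_mul]
    rcases (hB j).2 _ hmap with h | h
    · exact Or.inl (Submodule.map_injective_of_injective hqq (h.trans (Submodule.map_bot _).symm))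
    · refine Or.inr (Submodule.map_injective_of_injective hqq (h.trans ?_))
      rw [Submodule.map_top, LinearMap.range_eq_top.2 hqs]
  -- the polynomial vanishes at the model
  rw [← hinv P₂' P₂ σ p1]
  simp only [hmdl]
  refine pi_induction
    (Y := fun q : Fin N × I => Sb.Slot (g q.2) (s q.2) →
      Matrix (Fin (F q.1 q.2).k) (Fin (F q.1 q.2).k) ℂ)
    (fun q y => Pt (c' q) y ∧ Irred y)
    (fun q y => Pt (c' q) y ∧ Irred y ∧ ∀ x a b, y x a b ∈ R)
    (fun A => MvPolynomial.eval (fun v => mdl e F w A v.1 v.2.1 v.2.2) f = 0)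
    (fun A q h y hy => step_factorW e F w f A q
      (hfac q.2 _ (Nat.pos_of_ne_zero (hF q.1 q.2).irred.1) (hkr q.1 q.2)) (hc' q) h hy)
    (fun A hA => ?_) (x := A₀) fun q => ⟨hA₀pt q, hA₀irr q⟩
  let lam : ((Σ i, Fin (g i) × Bool) → Fin N → ℂ) → Fin N → (Σ i, Sb.Slot (g i) (s i)) → ℂ :=
    fun u j x => match x with
      | ⟨i, Sum.inl a⟩ => u ⟨i, a⟩ j
      | ⟨i, Sum.inr p⟩ => w j ⟨i, Sum.inr p⟩
  have hlamw : lam (fun x j => w j ⟨x.1, Sum.inl x.2⟩) = w := by
    funext j x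
    obtain ⟨i, a | p⟩ := x <;> rfl
  rw [← hlamw]
  refine pi_induction (Y := fun _ : Σ i, Fin (g i) × Bool => Fin N → ℂ)
    (fun _ y => ∏ j, y j ^ d j = 1) (fun _ y => (∀ j, y j ∈ R) ∧ ∏ j, y j ^ d j = 1)
    (fun u => MvPolynomial.eval (fun v => mdl e F (lam u) A v.1 v.2.1 v.2.2) f = 0)
    (fun u x h y hy => step_scalarW e F r.factorial_pos hdfac
      (Complex.isPrimitiveRoot_exp _ r.factorial_ne_zero) hR
      (hroot _ (by rw [Nat.mul_comm, pow_mul,
        (Complex.isPrimitiveRoot_exp _ r.factorial_ne_zero).pow_eq_one, one_pow]))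
      f A lam (fun _ _ _ _ => rfl) (fun _ _ _ _ _ => rfl) u x h hy)
    (fun u hu => ?_) (x := fun x j => w j ⟨x.1, Sum.inl x.2⟩) fun x => hzd ⟨x.1, Sum.inl x.2⟩
  have hlamR : ∀ j x, lam u j x ∈ R := by
    rintro j ⟨i, a | p⟩
    · exact (hu _).1 j
    · exact hroot _ (hwroot j i p)
  have hlam0 : ∀ j x, lam u j x ≠ 0 := by
    rintro j ⟨i, a | p⟩
    · intro h
      have := Finset.prod_ne_zero_iff.1 ((hu ⟨i, a⟩).2.trans_ne one_ne_zero) j (Finset.mem_univ j)
      exact this (by rw [show u ⟨i, a⟩ j = 0 from h, zero_pow (hB j).1])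
    · exact hw0 _ _
  have hdetA : ∀ q a, (A q a).det = 1 := fun q a => (hA q).1.det a
  refine hf _ (fun x => mem_mdl e F hF (fun j => hlamR j x) fun j a b => (hA (j, x.1)).2.2 x.2 a b)
    (fun i => ⟨fun a => ?_, fun p => ?_, ?_⟩) (fun x y hxy => comm_mdl e F hFc _ _ hxy)
    (mdl_semisimple e F hlam0 (fun q => (hA q).2.1) hblock)
  · rw [det_mdl e F hF]
    simp only [hdetA, one_pow, mul_one]
    obtain a | p := a
    · exact (hu ⟨i, a⟩).2
    · exact hzd ⟨i, Sum.inr p⟩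
  · refine ((hσ i).cls p).trans ?_
    choose S S' hS hSS using fun j => (hA (j, i)).1.cls p
    refine Cj.trans ⟨P₂', P₂, p1, rfl⟩ ⟨reindex e e (blockDiagonal' fun j => (F j i).L (S j)),
      reindex e e (blockDiagonal' fun j => (F j i).L (S' j)), ?_, ?_⟩
    · simp [reindex_apply, submatrix_mul_equiv, ← blockDiagonal'_mul, ← map_mul, hS, ← Pi.one_def]
    · rw [hmdl ⟨i, Sum.inr p⟩]
      simp only [mdl, reindex_apply, submatrix_mul_equiv, ← blockDiagonal'_mul, Matrix.mul_smul,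
        Matrix.smul_mul, ← map_mul]
      congr 2
      funext j
      rw [← hSS j]
  · rw [relW_mdl e F hlam0 hdetA i]
    have h : ∀ j, relP (A (j, i)) = 1 := fun j => by
      rw [← relW_eq_relP (hdetA (j, i))]; exact (hA (j, i)).1.rel
    have h' : ∀ j, ∏ p, lam u j ⟨i, Sum.inr p⟩ = 1 := fun j => hwprod j i
    simp [h, h', ← Pi.one_def]

end Vale.Agent.P002.Bd
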