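import Vale.Agent.P002.Bd.ProductCurves
import Vale.Agent.P002.Bd.Bridge
import Vale.Agent.P002.G2.Final

/-!
# P002: all quasi-unipotent boundary classes on products of curves
-/

namespace Vale.Agent.P002.Bd

open Matrix Vale.Agent.P002.Sb

theorem hall_all {g s k M : ℕ} (hg : 3 ≤ g) (hk : 2 ≤ k) (hM : 0 < M) : Hall g s k M := by
  intro d ε hd hprod hε
  obtain ⟨N, α, β, hN, hNR, hα, hβ, hαR, hβR, hrel⟩ := exists_base (by omega) hM
    (fun j => d j.rev) (fun j => ε j.rev) (fun j => hd _) (fun j => hprod _) (fun j => hε _)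
  have h2 : 0 < 2 * k * M := by positivity
  refine ⟨N, hN, hNR, fun y hy hS => inX_all hg hk (fun j => by rw [det_bidiag]; exact hprod j)
    (fun j => mem_MatR.2 fun a b => ?_)
    (fun ζ hζ => root_mem_RM_of_dvd h2 ⟨2 * M, by ring⟩ hζ) hα hβ
    (mem_MatR.2 hαR) (mem_MatR.2 hβR) (by rw [Kd_eq_prod]; exact hrel) hy hS⟩
  simp only [bidiag, of_apply, Pi.smul_apply, smul_eq_mul]
  split_ifs
  · exact root_mem_RM_of_dvd h2 ⟨2 * k, by ring⟩ (hd j a)
  · rcases hε j a with h | h <;> simp [h, hNR, zero_mem]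
  · exact zero_mem _

theorem hall_two_le {g s k M : ℕ} (hg : 2 ≤ g) (hk : 2 ≤ k) (hM : 0 < M) : Hall g s k M := by
  rcases hg.eq_or_lt with rfl | hg3
  · exact G2.hall_two hk hM
  · exact hall_all hg3 hk hM

theorem exists_order {r : ℕ} {P : Type*} [Fintype P] (c : P → Matrix (Fin r) (Fin r) ℂ)
    (hqu : ∀ p, QU (c p)) : ∃ M, 0 < M ∧ ∀ p z, (c p).charpoly.IsRoot z → z ^ M = 1 := by
  classical
  choose n hn hn1 using fun (q : Σ p, ↥(c p).charpoly.roots.toFinset) => hqu q.1 q.2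
    (Polynomial.isRoot_of_mem_roots (Multiset.mem_toFinset.1 q.2.2))
  refine ⟨∏ q, n q, Finset.prod_pos fun q _ => hn q, fun p z hz => ?_⟩
  have hmem : z ∈ (c p).charpoly.roots.toFinset :=
    Multiset.mem_toFinset.2 ((Polynomial.mem_roots (Matrix.charpoly_monic _).ne_zero).2 hz)
  obtain ⟨m, hm⟩ := Finset.dvd_prod_of_mem n (Finset.mem_univ ⟨p, ⟨z, hmem⟩⟩)
  rw [hm, pow_mul, show z ^ n ⟨p, ⟨z, hmem⟩⟩ = 1 from hn1 ⟨p, ⟨z, hmem⟩⟩, one_pow]

/-- Products of curves, of genus at least two where punctured, any quasi-unipotent classes: one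
number ring makes the integral points with these boundary classes dense. -/
theorem exists_vanish_product {I : Type} [Fintype I] [DecidableEq I] (g s : I → ℕ)
    (hg : ∀ i, s i ≠ 0 → 2 ≤ g i) {r : ℕ} (c : ∀ i, Fin (s i) → Matrix (Fin r) (Fin r) ℂ)
    (hqu : ∀ i p, QU (c i p)) :
    ∃ M : ℕ, 0 < M ∧
      ∀ σ : (Σ i, Slot (g i) (s i)) → Matrix (Fin r) (Fin r) ℂ,
      (∀ i, Pt (c i) fun a => σ ⟨i, a⟩) →
      (∀ x y, x.1 ≠ y.1 → σ x * σ y = σ y * σ x) →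
      (∀ U, Prod.Inv σ U → ∃ V, Prod.Inv σ V ∧ IsCompl U V) →
      ∀ f : MvPolynomial ((Σ i, Slot (g i) (s i)) × Fin r × Fin r) ℂ,
      (∀ (P P' : Matrix (Fin r) (Fin r) ℂ)
        (ρ : (Σ i, Slot (g i) (s i)) → Matrix (Fin r) (Fin r) ℂ), P * P' = 1 →
        MvPolynomial.eval (fun v => (P * ρ v.1 * P') v.2.1 v.2.2) f =
          MvPolynomial.eval (fun v => ρ v.1 v.2.1 v.2.2) f) →
      (∀ ρ : (Σ i, Slot (g i) (s i)) → Matrix (Fin r) (Fin r) ℂ,
        (∀ x a b, ρ x a b ∈ RM M) →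
        (∀ i, Pt (c i) fun a => ρ ⟨i, a⟩) →
        (∀ x y, x.1 ≠ y.1 → ρ x * ρ y = ρ y * ρ x) →
        (∀ U, Prod.Inv ρ U → ∃ V, Prod.Inv ρ V ∧ IsCompl U V) →
        MvPolynomial.eval (fun v => ρ v.1 v.2.1 v.2.2) f = 0) →
      MvPolynomial.eval (fun v => σ v.1 v.2.1 v.2.2) f = 0 := by
  obtain ⟨M, hM, hc⟩ := exists_order (fun q : Σ i, Fin (s i) => c q.1 q.2) fun q => hqu q.1 q.2
  refine ⟨2 * r.factorial * (M * r.factorial),
    Nat.mul_pos (Nat.mul_pos two_pos r.factorial_pos) (Nat.mul_pos hM r.factorial_pos),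
    fun σ hσ hcomm hs f hinv hf => vanish_product_of_hall g s hg hM
      (fun g s k M h1 h2 h3 => hall_two_le h1 h2 h3) c (fun i p => hc ⟨i, p⟩) σ hσ hcomm hs f hinv hf⟩

end Vale.Agent.P002.Bd
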