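import Vale.Agent.P002.Product
import Vale.Agent.P002.Sb.Base
import Vale.Agent.P002.Bd.Classes
import Vale.Agent.P002.Bd.Burnside

/-!
# P002: block sums of scaled tensor products over products of punctured surface groups
-/

namespace Vale.Agent.P002.Bd

open Matrix Vale.Agent.P002.Prod

/-- The relator of a punctured surface with matrix inverses. -/
noncomputable def relW {g s k : ℕ} (σ : Sb.Slot g s → Matrix (Fin k) (Fin k) ℂ) :
    Matrix (Fin k) (Fin k) ℂ :=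
  rel (fun M => M⁻¹) (fun a => σ (Sum.inl a)) * (List.ofFn fun p => σ (Sum.inr p)).prod

/-- The relator of a punctured surface with adjugates. -/
noncomputable def relP {g s k : ℕ} (σ : Sb.Slot g s → Matrix (Fin k) (Fin k) ℂ) :
    Matrix (Fin k) (Fin k) ℂ :=
  rel adjugate (fun a => σ (Sum.inl a)) * (List.ofFn fun p => σ (Sum.inr p)).prod

theorem relW_eq_relP {g s k : ℕ} {σ : Sb.Slot g s → Matrix (Fin k) (Fin k) ℂ}
    (h : ∀ x, (σ x).det = 1) : relW σ = relP σ := by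
  simp only [relW, relP, rel, cmList, cm, Matrix.inv_def, h, Ring.inverse_one, one_smul]

/-- A representation of a punctured surface group with meridians in the classes of `c`. -/
structure Pt {g s k : ℕ} (c : Fin s → Matrix (Fin k) (Fin k) ℂ)
    (σ : Sb.Slot g s → Matrix (Fin k) (Fin k) ℂ) : Prop where
  det : ∀ x, (σ x).det = 1
  cls : ∀ p, Cj (c p) (σ (Sum.inr p))
  rel : relW σ = 1

/-- The irreducible integral points are dense among the irreducible points. -/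
def Dense (g s k M : ℕ) (R : Subring ℂ) : Prop :=
  ∀ c : Fin s → Matrix (Fin k) (Fin k) ℂ,
    (∀ p z, (c p).charpoly.IsRoot z → z ^ M = 1) →
    ∀ σ : Sb.Slot g s → Matrix (Fin k) (Fin k) ℂ, Pt c σ → Irred σ →
    ∀ f : MvPolynomial (Sb.XVar g s k) ℂ,
      (∀ τ, Pt c τ → Irred τ → (∀ x a b, τ x a b ∈ R) →
        MvPolynomial.eval (fun v => τ v.1 v.2.1 v.2.2) f = 0) →
      MvPolynomial.eval (fun v => σ v.1 v.2.1 v.2.2) f = 0

theorem Cj.trans {k : ℕ} {a b c : Matrix (Fin k) (Fin k) ℂ} (h : Cj a b) (h' : Cj b c) :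
    Cj a c := by
  obtain ⟨P, P', hP, rfl⟩ := h
  obtain ⟨Q, Q', hQ, rfl⟩ := h'
  exact ⟨Q * P, P' * Q', by rw [mul_assoc Q, ← mul_assoc P, hP, one_mul, hQ],
    by simp only [mul_assoc]⟩

theorem isRoot_charpoly_iff {k : ℕ} (A : Matrix (Fin k) (Fin k) ℂ) (z : ℂ) :
    A.charpoly.IsRoot z ↔ (z • (1 : Matrix (Fin k) (Fin k) ℂ) - A).det = 0 := by
  rw [Polynomial.IsRoot, Matrix.eval_charpoly, ← Algebra.algebraMap_eq_smul_one]
  rfl

theorem det_conj_sub {k : ℕ} {P P' : Matrix (Fin k) (Fin k) ℂ} (h : P * P' = 1)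
    (A : Matrix (Fin k) (Fin k) ℂ) (z : ℂ) :
    (z • 1 - P * A * P').det = (z • (1 : Matrix (Fin k) (Fin k) ℂ) - A).det := by
  have e : z • 1 - P * A * P' = P * (z • 1 - A) * P' := by
    rw [mul_sub, sub_mul, Matrix.mul_smul, Matrix.smul_mul, mul_one, h]
  rw [e, det_mul, det_mul, mul_comm P.det, mul_assoc, ← det_mul, h, det_one, mul_one]

theorem Cj.isRoot {k : ℕ} {a b : Matrix (Fin k) (Fin k) ℂ} (h : Cj a b) {z : ℂ}
    (hz : b.charpoly.IsRoot z) : a.charpoly.IsRoot z := by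
  obtain ⟨P, P', hP, rfl⟩ := h
  rw [isRoot_charpoly_iff] at hz ⊢
  rwa [det_conj_sub hP] at hz

theorem det_pow_eq_one {k M : ℕ} (A : Matrix (Fin k) (Fin k) ℂ)
    (h : ∀ z, A.charpoly.IsRoot z → z ^ M = 1) : A.det ^ M = 1 := by
  rw [Matrix.det_eq_prod_roots_charpoly, ← Multiset.map_id' A.charpoly.roots,
    ← Multiset.prod_map_pow]
  refine Multiset.prod_eq_one fun w hw => ?_
  obtain ⟨z, hz, rfl⟩ := Multiset.mem_map.1 hw
  exact h z (Polynomial.isRoot_of_mem_roots hz)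

theorem det_relP {g s k : ℕ} {σ : Sb.Slot g s → Matrix (Fin k) (Fin k) ℂ}
    (h : ∀ x, (σ x).det = 1) : (relP σ).det = 1 := by
  have h1 : (rel adjugate fun a => σ (Sum.inl a)).det = 1 := by
    have e := map_rel adjugate (fun x : ℂ => x ^ (k - 1)) Matrix.detMonoidHom
      (fun x => by simp [det_adjugate]) (fun a => σ (Sum.inl a))
    refine e.trans (List.prod_eq_one fun z hz => ?_)
    simp only [cmList, List.mem_ofFn] at hz
    obtain ⟨i, rfl⟩ := hz
    simp [cm, h]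
  rw [relP, det_mul, h1, one_mul]
  refine Submonoid.list_prod_mem (MonoidHom.mker (Matrix.detMonoidHom (n := Fin k) (R := ℂ))) ?_
  intro z hz
  simp only [List.mem_ofFn] at hz
  obtain ⟨p, rfl⟩ := hz
  exact h (Sum.inr p)

theorem cm_units (a b : ℂˣ) : cm (fun u : ℂˣ => u⁻¹) a b = 1 := by
  rw [cm, mul_right_comm a b, mul_inv_cancel, one_mul, mul_inv_cancel]

section model

variable {I : Type} {g s : I → ℕ} {r N : ℕ} {d : Fin N → ℕ} (e : (Σ j, Fin (d j)) ≃ Fin r)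
  (F : ∀ (j : Fin N) (i : I), Fac (Sb.Slot (g i) (s i)) (d j))

theorem relW_mdl {lam : Fin N → (Σ i, Sb.Slot (g i) (s i)) → ℂ}
    {A : ∀ q : Fin N × I, Sb.Slot (g q.2) (s q.2) → Matrix (Fin (F q.1 q.2).k) (Fin (F q.1 q.2).k) ℂ}
    (hl : ∀ j x, lam j x ≠ 0) (hA : ∀ q a, (A q a).det = 1) (i : I) :
    relW (fun a => mdl e F lam A ⟨i, a⟩) = reindex e e (blockDiagonal' fun j =>
      (∏ p, lam j ⟨i, Sum.inr p⟩) • (F j i).L (relP (A (j, i)))) := by
  let Φ : ((j : Fin N) → ℂˣ × Matrix.SpecialLinearGroup (Fin (F j i).k) ℂ) →*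
      Matrix (Fin r) (Fin r) ℂ :=
    { toFun := fun u => reindex e e (blockDiagonal' fun j =>
        ((u j).1 : ℂ) • (F j i).L ((u j).2 : Matrix (Fin (F j i).k) (Fin (F j i).k) ℂ))
      map_one' := by simp [← Pi.one_def]
      map_mul' := fun u v => by
        simp only [Pi.mul_apply, Prod.fst_mul, Prod.snd_mul, Units.val_mul,
          Matrix.SpecialLinearGroup.coe_mul, map_mul, reindex_apply, submatrix_mul_equiv,
          ← blockDiagonal'_mul, smul_mul_smul_comm] }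
  let σ' : Sb.Slot (g i) (s i) → (j : Fin N) → ℂˣ × Matrix.SpecialLinearGroup (Fin (F j i).k) ℂ :=
    fun k j => (Units.mk0 _ (hl j ⟨i, k⟩), ⟨A (j, i) k, hA (j, i) k⟩)
  have hΦ : ∀ u, Φ u⁻¹ = (Φ u)⁻¹ := fun u =>
    (Matrix.inv_eq_left_inv (by rw [← map_mul, inv_mul_cancel, map_one])).symm
  let U := rel (fun u => u⁻¹) (fun a => σ' (Sum.inl a)) *
    (List.ofFn fun p => σ' (Sum.inr p)).prod
  have hU : relW (fun a => mdl e F lam A ⟨i, a⟩) = Φ U := by
    show relW (fun k => Φ (σ' k)) = _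
    rw [map_mul, map_rel (fun u => u⁻¹) (fun M => M⁻¹) Φ hΦ, map_list_prod, List.map_ofFn]
    rfl
  have h1 : ∀ j, ((U j).1 : ℂ) = ∏ p, lam j ⟨i, Sum.inr p⟩ := fun j => by
    let π : ((j : Fin N) → ℂˣ × Matrix.SpecialLinearGroup (Fin (F j i).k) ℂ) →* ℂˣ :=
      (MonoidHom.fst _ _).comp
        (Pi.evalMonoidHom (fun j => ℂˣ × Matrix.SpecialLinearGroup (Fin (F j i).k) ℂ) j)
    have h : π U = ∏ p, Units.mk0 _ (hl j ⟨i, Sum.inr p⟩) := by
      rw [map_mul, map_rel (fun u : (j : Fin N) → ℂˣ × Matrix.SpecialLinearGroup (Fin (F j i).k) ℂ =>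
          u⁻¹) (fun u : ℂˣ => u⁻¹) π (fun u => rfl), map_list_prod, List.map_ofFn, List.prod_ofFn]
      rw [rel, List.prod_eq_one fun z hz => ?_, one_mul]
      · rfl
      · simp only [cmList, List.mem_ofFn] at hz
        obtain ⟨k, rfl⟩ := hz
        exact cm_units _ _
    have := congrArg Units.val h
    rw [Units.coe_prod] at this
    exact this
  have h2 : ∀ j, ((U j).2 : Matrix (Fin (F j i).k) (Fin (F j i).k) ℂ) = relP (A (j, i)) := fun j => by
    let π : ((j : Fin N) → ℂˣ × Matrix.SpecialLinearGroup (Fin (F j i).k) ℂ) →*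
        Matrix (Fin (F j i).k) (Fin (F j i).k) ℂ :=
      Matrix.SpecialLinearGroup.coeMonoidHom.comp ((MonoidHom.snd _ _).comp
        (Pi.evalMonoidHom (fun j => ℂˣ × Matrix.SpecialLinearGroup (Fin (F j i).k) ℂ) j))
    show π U = _
    rw [map_mul, map_rel (fun u : (j : Fin N) → ℂˣ × Matrix.SpecialLinearGroup (Fin (F j i).k) ℂ =>
        u⁻¹) adjugate π (fun u => rfl), map_list_prod, List.map_ofFn]
    rfl
  rw [hU]
  show reindex e e (blockDiagonal' fun j => ((U j).1 : ℂ) •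
    (F j i).L ((U j).2 : Matrix (Fin (F j i).k) (Fin (F j i).k) ℂ)) = _
  simp only [h1, h2]

theorem mdl_semisimple {lam : Fin N → (Σ i, Sb.Slot (g i) (s i)) → ℂ}
    {A : ∀ q : Fin N × I, Sb.Slot (g q.2) (s q.2) → Matrix (Fin (F q.1 q.2).k) (Fin (F q.1 q.2).k) ℂ}
    (hl : ∀ j x, lam j x ≠ 0) (hA : ∀ q, Irred (A q))
    (hB : ∀ j, d j ≠ 0 ∧ ∀ U : Submodule ℂ (Fin (d j) → ℂ),
      (∀ i X, ∀ v ∈ U, (F j i).L X *ᵥ v ∈ U) → U = ⊥ ∨ U = ⊤)
    (U : Submodule ℂ (Fin r → ℂ)) (hU : Inv (mdl e F lam A) U) :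
    ∃ V, Inv (mdl e F lam A) V ∧ IsCompl U V := by
  refine semisimple_blocks e (B := fun j x => lam j x • (F j x.1).L (A (j, x.1) x.2)) (fun j => ?_)
    (fun x => rfl) U hU
  refine ⟨(hB j).1, fun W hW => (hB j).2 W fun i => inv_mulVec_of_adjoin (F j i).L (hA (j, i))
    fun a v hv => ?_⟩
  have h := W.smul_mem (lam j ⟨i, a⟩)⁻¹ (hW ⟨i, a⟩ v hv)
  rwa [smul_mulVec, smul_smul, inv_mul_cancel₀ (hl j _), one_smul] at h

variable [DecidableEq I]

theorem step_factorW {M : ℕ} {R : Subring ℂ}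
    (lam : Fin N → (Σ i, Sb.Slot (g i) (s i)) → ℂ)
    (f : MvPolynomial ((Σ i, Sb.Slot (g i) (s i)) × Fin r × Fin r) ℂ)
    (A : ∀ q : Fin N × I, Sb.Slot (g q.2) (s q.2) → Matrix (Fin (F q.1 q.2).k) (Fin (F q.1 q.2).k) ℂ)
    (q : Fin N × I) (hD : Dense (g q.2) (s q.2) (F q.1 q.2).k M R)
    {c : Fin (s q.2) → Matrix (Fin (F q.1 q.2).k) (Fin (F q.1 q.2).k) ℂ}
    (hc : ∀ p z, (c p).charpoly.IsRoot z → z ^ M = 1)
    (h : ∀ τ, Pt c τ ∧ Irred τ ∧ (∀ x a b, τ x a b ∈ R) → MvPolynomial.eval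
      (fun v => mdl e F lam (Function.update A q τ) v.1 v.2.1 v.2.2) f = 0)
    {y : Sb.Slot (g q.2) (s q.2) → Matrix (Fin (F q.1 q.2).k) (Fin (F q.1 q.2).k) ℂ}
    (hy : Pt c y ∧ Irred y) :
    MvPolynomial.eval (fun v => mdl e F lam (Function.update A q y) v.1 v.2.1 v.2.2) f = 0 := by
  classical
  have hpoly : ∀ v : (Σ i, Sb.Slot (g i) (s i)) × Fin r × Fin r,
      ∃ p : MvPolynomial (Sb.XVar (g q.2) (s q.2) (F q.1 q.2).k) ℂ, ∀ y,
        MvPolynomial.eval (fun u => y u.1 u.2.1 u.2.2) p =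
          mdl e F lam (Function.update A q y) v.1 v.2.1 v.2.2 := by
    rintro ⟨⟨i, a⟩, u, w⟩
    simp only [mdl, reindex_apply, submatrix_apply]
    rcases e.symm u with ⟨ju, su⟩
    rcases e.symm w with ⟨jw, sw⟩
    by_cases hj : ju = jw
    · subst hj
      simp only [blockDiagonal'_apply_eq]
      by_cases hq : (ju, i) = q
      · subst hq
        let Φ : Matrix (Fin (F ju i).k) (Fin (F ju i).k) ℂ →ₗ[ℂ] ℂ :=
          lam ju ⟨i, a⟩ • (Matrix.entryLinearMap ℂ ℂ su sw).comp (F ju i).L.toLinearMap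
        refine ⟨∑ b, ∑ b', MvPolynomial.C (Φ (Matrix.single b b' 1)) *
          MvPolynomial.X (a, b, b'), fun y => ?_⟩
        simp only [Function.update_self, map_sum, map_mul, MvPolynomial.eval_C,
          MvPolynomial.eval_X]
        show _ = Φ (y a)
        conv_rhs => rw [Matrix.matrix_eq_sum_single (y a)]
        simp only [map_sum]
        refine Finset.sum_congr rfl fun b _ => Finset.sum_congr rfl fun b' _ => ?_
        have : (Matrix.single b b' (y a b b') : Matrix _ _ ℂ) = y a b b' • Matrix.single b b' 1 := by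
          rw [Matrix.smul_single, smul_eq_mul, mul_one]
        rw [this, map_smul, smul_eq_mul, mul_comm]
      · simp only [Function.update_of_ne hq]
        exact ⟨MvPolynomial.C _, fun y => MvPolynomial.eval_C _⟩
    · exact ⟨0, fun y => by rw [map_zero, blockDiagonal'_apply_ne _ _ _ hj]⟩
  choose p hp using hpoly
  have he : ∀ y, MvPolynomial.eval (fun u => y u.1 u.2.1 u.2.2) (MvPolynomial.bind₁ p f) =
      MvPolynomial.eval (fun v => mdl e F lam (Function.update A q y) v.1 v.2.1 v.2.2) f := by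
    intro y
    change MvPolynomial.eval₂Hom (RingHom.id ℂ) _ _ = MvPolynomial.eval₂Hom _ _ f
    rw [MvPolynomial.eval₂Hom_bind₁]
    congr 2
    funext v
    exact hp v y
  rw [← he]
  exact hD c hc y hy.1 hy.2 _ fun τ h1 h2 h3 => by rw [he]; exact h τ ⟨h1, h2, h3⟩

theorem step_scalarW {M : ℕ} (hM : 0 < M) (hd : ∀ j, d j ∣ M) {ζ : ℂ}
    (hζ : IsPrimitiveRoot ζ M) {R : Subring ℂ} (hR : ZSqrtTwo ≤ R) (hζR : ζ ∈ R)
    (f : MvPolynomial ((Σ i, Sb.Slot (g i) (s i)) × Fin r × Fin r) ℂ)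
    (A : ∀ q : Fin N × I, Sb.Slot (g q.2) (s q.2) → Matrix (Fin (F q.1 q.2).k) (Fin (F q.1 q.2).k) ℂ)
    (lam : ((Σ i, Fin (g i) × Bool) → Fin N → ℂ) → Fin N → (Σ i, Sb.Slot (g i) (s i)) → ℂ)
    (hlamI : ∀ c j i a, lam c j ⟨i, Sum.inl a⟩ = c ⟨i, a⟩ j)
    (hlamP : ∀ c c' j i p, lam c j ⟨i, Sum.inr p⟩ = lam c' j ⟨i, Sum.inr p⟩)
    (c : (Σ i, Fin (g i) × Bool) → Fin N → ℂ) (x : Σ i, Fin (g i) × Bool)
    (h : ∀ w : Fin N → ℂ, (∀ j, w j ∈ R) ∧ ∏ j, w j ^ d j = 1 → MvPolynomial.eval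
      (fun v => mdl e F (lam (Function.update c x w)) A v.1 v.2.1 v.2.2) f = 0)
    {y : Fin N → ℂ} (hy : ∏ j, y j ^ d j = 1) : MvPolynomial.eval
      (fun v => mdl e F (lam (Function.update c x y)) A v.1 v.2.1 v.2.2) f = 0 := by
  classical
  have hpoly : ∀ v : (Σ i, Sb.Slot (g i) (s i)) × Fin r × Fin r,
      ∃ p : MvPolynomial (Fin N) ℂ, ∀ y, MvPolynomial.eval y p =
        mdl e F (lam (Function.update c x y)) A v.1 v.2.1 v.2.2 := by
    rintro ⟨⟨i, a⟩, u, w⟩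
    simp only [mdl, reindex_apply, submatrix_apply]
    rcases e.symm u with ⟨ju, su⟩
    rcases e.symm w with ⟨jw, sw⟩
    by_cases hj : ju = jw
    · subst hj
      simp only [blockDiagonal'_apply_eq, Matrix.smul_apply, smul_eq_mul]
      cases a with
      | inl a =>
        simp only [hlamI]
        by_cases hz : (⟨i, a⟩ : Σ i, Fin (g i) × Bool) = x
        · subst hz
          simp only [Function.update_self]
          exact ⟨MvPolynomial.X ju * MvPolynomial.C _,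
            fun y => by rw [map_mul, MvPolynomial.eval_X, MvPolynomial.eval_C]⟩
        · simp only [Function.update_of_ne hz]
          exact ⟨MvPolynomial.C _, fun y => MvPolynomial.eval_C _⟩
      | inr p =>
        exact ⟨MvPolynomial.C _, fun y => by
          rw [MvPolynomial.eval_C, hlamP (Function.update c x y) c]⟩
    · exact ⟨0, fun y => by rw [map_zero, blockDiagonal'_apply_ne _ _ _ hj]⟩
  choose p hp using hpoly
  have he : ∀ y, MvPolynomial.eval y (MvPolynomial.bind₁ p f) = MvPolynomial.eval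
      (fun v => mdl e F (lam (Function.update c x y)) A v.1 v.2.1 v.2.2) f := by
    intro y
    change MvPolynomial.eval₂Hom (RingHom.id ℂ) y _ = MvPolynomial.eval₂Hom _ _ f
    rw [MvPolynomial.eval₂Hom_bind₁]
    congr 2
    funext v
    exact hp v y
  rw [← he]
  exact eval_torus_gen hM hd hζ hR hζR (fun w hw hw1 => by rw [he]; exact h w ⟨hw, hw1⟩) hy

end model

end Vale.Agent.P002.Bd
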