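import Vale.Agent.P002.Bd.Emb
import Vale.Agent.P002.Bricks

/-!
# P002: flows conjugated by moves, and their velocities at a base tuple
-/

namespace Vale.Agent.P002.Bd

open Matrix Filter Topology
open scoped Matrix.Norms.Operator

set_option backward.isDefEq.respectTransparency false

variable {n r l : ℕ}

/-- A move with its inverse. -/
structure IsMv (D : Pins n r) (T T' : Tup n r ℂ → Tup n r ℂ) : Prop where
  pull : PullB D T
  pull' : PullB D T'
  left : ∀ σ, (∀ k, (σ k).det = 1) → T' (T σ) = σ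
  det : ∀ σ, (∀ k, (σ k).det = 1) → ∀ k, (T σ k).det = 1
  smooth : ContDiff ℂ 1 T
  smooth' : ContDiff ℂ 1 T'

variable {D : Pins n r}

theorem isMv_id : IsMv D (fun σ => σ) (fun σ => σ) :=
  ⟨PullB.id, PullB.id, fun _ _ => rfl, fun _ h => h, contDiff_id, contDiff_id⟩

theorem IsMv.comp {S S' T T' : Tup n r ℂ → Tup n r ℂ} (hS : IsMv D S S') (hT : IsMv D T T') :
    IsMv D (fun σ => S (T σ)) (fun σ => T' (S' σ)) :=
  ⟨hS.pull.comp hT.pull, hT.pull'.comp hS.pull',
    fun σ h => by rw [hS.left _ (hT.det σ h), hT.left σ h],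
    fun σ h => hS.det _ (hT.det σ h), hS.smooth.comp hT.smooth, hT.smooth'.comp hS.smooth'⟩

theorem IsMv.iterate {T T' : Tup n r ℂ → Tup n r ℂ} (hT : IsMv D T T') :
    ∀ m : ℕ, IsMv D T^[m] T'^[m]
  | 0 => isMv_id
  | m + 1 => by
    have := (hT.iterate m).comp hT
    have e : T^[m + 1] = fun σ => T^[m] (T σ) := Function.iterate_succ T m
    have e' : T'^[m + 1] = fun σ => T' (T'^[m] σ) := Function.iterate_succ' T' m
    rwa [e, e']

theorem contDiff_qPsi : ContDiff ℂ 1 (qPsi.Q (adjugate : Matrix (Fin r) (Fin r) ℂ → _)) := by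
  simp only [qPsi]; unfold psiQ
  have := contDiff_adjugate (r := r)
  fun_prop

theorem contDiff_qPhi : ContDiff ℂ 1 (qPhi.Q (adjugate : Matrix (Fin r) (Fin r) ℂ → _)) := by
  simp only [qPhi]; unfold phiQ
  have := contDiff_adjugate (r := r)
  fun_prop

theorem contDiff_qPun : ContDiff ℂ 1 (qPun.Q (adjugate : Matrix (Fin r) (Fin r) ℂ → _)) := by
  simp only [qPun]
  have := contDiff_adjugate (r := r)
  fun_prop

theorem contDiff_qPun' : ContDiff ℂ 1 (qPun'.Q (adjugate : Matrix (Fin r) (Fin r) ℂ → _)) := by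
  simp only [qPun']
  have := contDiff_adjugate (r := r)
  fun_prop

theorem contDiff_qInv : ContDiff ℂ 1 (qInv.Q (adjugate : Matrix (Fin r) (Fin r) ℂ → _)) := by
  simp only [qInv, cm]
  have := contDiff_adjugate (r := r)
  fun_prop

theorem contDiff_qInv' : ContDiff ℂ 1 (qInv'.Q (adjugate : Matrix (Fin r) (Fin r) ℂ → _)) := by
  simp only [qInv']
  have := contDiff_adjugate (r := r)
  fun_prop

theorem contDiff_qAtw : ContDiff ℂ 1 (qAtw.Q (adjugate : Matrix (Fin r) (Fin r) ℂ → _)) := by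
  simp only [qAtw]
  fun_prop

theorem contDiff_qAtw' : ContDiff ℂ 1 (qAtw'.Q (adjugate : Matrix (Fin r) (Fin r) ℂ → _)) := by
  simp only [qAtw']
  have := contDiff_adjugate (r := r)
  fun_prop

theorem isMv_sM {P P' : QMove} (hP : P'.LeftInv P)
    (hc : ContDiff ℂ 1 (P.Q (adjugate : Matrix (Fin r) (Fin r) ℂ → _)))
    (hc' : ContDiff ℂ 1 (P'.Q (adjugate : Matrix (Fin r) (Fin r) ℂ → _))) {i j : Fin n} (hij : i < j)
    (hi : i.1 < D.g) (hj : j.1 < D.g ∨ (P.Fix4 ∧ P'.Fix4)) :
    IsMv D (sM (r := r) P i j) (sM P' i j) :=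
  ⟨pull_sM P hij hi (hj.imp_right And.left), pull_sM P' hij hi (hj.imp_right And.right),
    fun _ h => sM_left hP hij h, fun _ h => det_sM P h,
    contDiff_slide _ hc contDiff_id i j, contDiff_slide _ hc' contDiff_id i j⟩

theorem sM_fst (P : QMove) (i j : Fin n) (σ : Tup n r ℂ) (c : Bool) :
    sM P i j σ (i, c) = bif c then (P.Q adjugate (quadAt adjugate i j σ)).2.1
      else (P.Q adjugate (quadAt adjugate i j σ)).1 := by
  simp [sM, slide]

theorem sM_snd (P : QMove) {i j : Fin n} (h : j ≠ i) (σ : Tup n r ℂ) (c : Bool) :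
    sM P i j σ (j, c) = adjugate (mid adjugate i j σ) *
      (bif c then (P.Q adjugate (quadAt adjugate i j σ)).2.2.2
        else (P.Q adjugate (quadAt adjugate i j σ)).2.2.1) * mid adjugate i j σ := by
  simp [sM, slide, h]

theorem iterate_sM_of_ne (P : QMove) {i j : Fin n} {k : Fin n × Bool} (hi : k.1 ≠ i)
    (hj : k.1 ≠ j) : ∀ (m : ℕ) (σ : Tup n r ℂ), (sM P i j)^[m] σ k = σ k
  | 0, _ => rfl
  | m + 1, σ => by
    rw [Function.iterate_succ_apply', sM_of_ne P _ hi hj, iterate_sM_of_ne P hi hj m]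

/-- A twist flow conjugated by a move. -/
noncomputable def Gst (T T' : Tup n r ℂ → Tup n r ℂ) (i : Fin n) (k : ℕ) (s : ℂ)
    (σ : Tup n r ℂ) : Tup n r ℂ :=
  T' (tau i k s (T σ))

variable {α β : Matrix (Fin r) (Fin r) ℂ}

/-- A flow which keeps the closure of the integral representations near the base tuples. -/
def IsStep (D : Pins n r) (α β : Matrix (Fin r) (Fin r) ℂ) (l : ℕ)
    (T T' : Tup n r ℂ → Tup n r ℂ) (i : Fin n) : Prop :=
  IsMv D T T' ∧ i.1 < D.g ∧ ∃ (A : Fin l → Matrix (Fin r) (Fin r) ℂ) (lam : Fin r → ℂ)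
    (S S' : Matrix (Fin r) (Fin r) ℂ), (∀ a, (A a).det = 1) ∧ Indep lam ∧
      Spec (T (emb D α β A) (i, false)) lam S S'

/-- A family of operators keeping the base tuples in the closure. -/
structure IsFamB (D : Pins n r) (α β : Matrix (Fin r) (Fin r) ℂ) (l : ℕ) {m : ℕ}
    (F : Tup n r ℂ × (Fin m → ℂ) → Tup n r ℂ) : Prop where
  smooth : ContDiff ℂ 1 F
  base : ∀ σ, (∀ k, (σ k).det = 1) → F (σ, 0) = σ
  inB : ∀ (A : Fin l → Matrix (Fin r) (Fin r) ℂ), (∀ a, (A a).det = 1) → ∀ t,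
    InB D (F (emb D α β A, t))

theorem contDiff_tau {E : Type*} [NormedAddCommGroup E] [NormedSpace ℂ E] {F : E → Tup n r ℂ}
    (hF : ContDiff ℂ 1 F) {s : E → ℂ} (hs : ContDiff ℂ 1 s) (i : Fin n) (k : ℕ) :
    ContDiff ℂ 1 fun x => tau i k (s x) (F x) := by
  have h := contDiff_pi.1 hF
  refine contDiff_pi.2 fun c => ?_
  by_cases hc : c = (i, true)
  · subst hc
    simp only [tau, Function.update_self]
    exact (h _).mul (contDiff_exp.comp (hs.smul (contDiff_tl.comp ((h _).pow k))))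
  · simp only [tau, Function.update_of_ne hc]
    exact h c

theorem tau_zero (i : Fin n) (k : ℕ) (σ : Tup n r ℂ) : tau i k 0 σ = σ := by
  simp [tau, NormedSpace.exp_zero]

theorem Gst_zero {T T' : Tup n r ℂ → Tup n r ℂ} (hT : IsMv D T T') (i : Fin n) (k : ℕ)
    {σ : Tup n r ℂ} (h : ∀ c, (σ c).det = 1) : Gst T T' i k 0 σ = σ := by
  rw [Gst, tau_zero, hT.left σ h]

/-- One more flow keeps the family inside the closure. -/
theorem inB_step (h : Base D l α β) {m : ℕ} {F : Tup n r ℂ × (Fin m → ℂ) → Tup n r ℂ}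
    (hF : IsFamB D α β l F) {T T' : Tup n r ℂ → Tup n r ℂ} {i : Fin n}
    (hs : IsStep D α β l T T' i) (k : ℕ) {A : Fin l → Matrix (Fin r) (Fin r) ℂ}
    (hA : ∀ a, (A a).det = 1) (t : Fin m → ℂ) (s : ℂ) :
    InB D (Gst T T' i k s (F (emb D α β A, t))) := by
  intro f hf
  obtain ⟨hT, hi, A₁, lam, S, S', hA₁, hlam, hspec⟩ := hs
  obtain ⟨f', hf', he⟩ := hT.pull' f hf
  choose γ hγ hγ0 hγ1 hγd using fun a => exists_sl_path h.two_le (hA₁ a) (hA a)
  let Φ : ℂ → Tup n r ℂ := fun z => T (F (emb D α β fun a => γ a z, z • t))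
  have hemb : ContDiff ℂ 1 fun z => emb D α β fun a => γ a z := by
    refine contDiff_pi.2 fun ⟨k, c⟩ => ?_
    simp only [emb]
    split_ifs <;> cases c <;> simp only [cond_false, cond_true]
    all_goals first | exact hγ _ | exact contDiff_const
  have hΦ : ContDiff ℂ 1 Φ :=
    hT.smooth.comp (hF.smooth.comp (hemb.prodMk (contDiff_id.smul contDiff_const)))
  have hΦ0 : Φ 0 = T (emb D α β A₁) := by
    simp only [Φ, zero_smul, hγ0]
    rw [hF.base _ (det_emb h hA₁)]
  let v := fun z : ℂ => MvPolynomial.eval (coord (T' (tau i k (z * s) (Φ z)))) f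
  have hv : AnalyticOnNhd ℂ v Set.univ := fun z _ =>
    ((contDiff_eval f (hT.smooth'.comp
      (contDiff_tau hΦ (contDiff_id.mul contDiff_const) i k))).differentiable one_ne_zero).analyticAt z
  have hv0 : v =ᶠ[𝓝 0] 0 := by
    have ht : Tendsto Φ (𝓝 0) (𝓝 (T (emb D α β A₁))) := hΦ0 ▸ hΦ.continuous.tendsto 0
    filter_upwards [ht.eventually (flow_lemma_of hspec hlam f' k)] with z hz
    show MvPolynomial.eval (coord (T' (tau i k (z * s) (Φ z)))) f = 0
    rw [← he]
    exact hz (fun q => (pull_twistB hi q).inB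
      (hT.pull.inB (hF.inB _ (fun a => hγd a z) _)) f' hf') _
  have := hv.eqOn_zero_of_preconnected_of_eventuallyEq_zero isPreconnected_univ (Set.mem_univ 0)
    hv0 (Set.mem_univ 1)
  simpa [v, Φ, Gst, hγ1] using this

/-- The velocity of a flow. -/
noncomputable def velo (T T' : Tup n r ℂ → Tup n r ℂ) (i : Fin n) (k : ℕ) (σ : Tup n r ℂ) :
    Tup n r ℂ :=
  deriv (fun s => Gst T T' i k s σ) 0

theorem hasDerivAt_velo {T T' : Tup n r ℂ → Tup n r ℂ} (hT : IsMv D T T') (i : Fin n) (k : ℕ)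
    (σ : Tup n r ℂ) : HasDerivAt (fun s => Gst T T' i k s σ) (velo T T' i k σ) 0 :=
  ((hT.smooth'.comp (contDiff_tau (F := fun _ : ℂ => T σ) contDiff_const contDiff_id i k)
    ).differentiable one_ne_zero 0).hasDerivAt

/-- Velocities in a set of flows are reached by a family. -/
theorem exists_famB (h : Base D l α β) {A : Fin l → Matrix (Fin r) (Fin r) ℂ}
    (hA : ∀ a, (A a).det = 1) (s : Finset (Tup n r ℂ))
    (hs : ∀ v ∈ s, ∃ T T' i k, IsStep D α β l T T' i ∧ v = velo T T' i k (emb D α β A)) :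
    ∃ m, ∃ F : Tup n r ℂ × (Fin m → ℂ) → Tup n r ℂ, IsFamB D α β l F ∧
      ∀ v ∈ s, ∃ d, fderiv ℂ F (emb D α β A, 0) (0, d) = v := by
  classical
  induction s using Finset.induction_on with
  | empty =>
    exact ⟨0, Prod.fst, ⟨contDiff_fst, fun σ _ => rfl, fun A hA _ => inB_emb h hA⟩, by simp⟩
  | insert v s hv ih =>
    obtain ⟨m, F, hF, hd⟩ := ih fun u hu => hs u (by simp [hu])
    obtain ⟨T, T', i, k, hst, hvel⟩ := hs v (by simp)
    let ini : (Fin (m + 1) → ℂ) →L[ℂ] (Fin m → ℂ) :=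
      ContinuousLinearMap.pi fun a => ContinuousLinearMap.proj a.castSucc
    let F' : Tup n r ℂ × (Fin (m + 1) → ℂ) → Tup n r ℂ :=
      fun p => Gst T T' i k (p.2 (Fin.last m)) (F (p.1, ini p.2))
    have hsm : ContDiff ℂ 1 F' :=
      hst.1.smooth'.comp (contDiff_tau
        (hst.1.smooth.comp (hF.smooth.comp (contDiff_fst.prodMk (ini.contDiff.comp contDiff_snd))))
        ((contDiff_apply ℂ ℂ (Fin.last m)).comp contDiff_snd) i k)
    refine ⟨m + 1, F', ⟨hsm, fun σ hσ => ?_,
      fun A hA t => inB_step h hF hst k hA (ini t) _⟩, ?_⟩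
    · show Gst T T' i k 0 (F (σ, ini 0)) = σ
      rw [map_zero, hF.base σ hσ, Gst_zero hst.1 i k hσ]
    have hdiff : DifferentiableAt ℂ F' (emb D α β A, 0) := hsm.differentiable one_ne_zero _
    intro u hu
    rw [Finset.mem_insert] at hu
    rcases hu with rfl | hu
    · let e : ℂ →L[ℂ] (Fin (m + 1) → ℂ) := ContinuousLinearMap.pi fun a =>
        if a = Fin.last m then ContinuousLinearMap.id ℂ ℂ else 0
      refine ⟨e 1, ?_⟩
      have he : (fun s => Gst T T' i k s (emb D α β A)) = fun s => F' (emb D α β A, e s) := by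
        funext s
        have h1 : ini (e s) = 0 := by
          funext a
          simp [ini, e, Fin.castSucc_ne_last]
        have h2 : e s (Fin.last m) = s := by simp [e]
        simp only [F', h1, h2, hF.base _ (det_emb h hA)]
      have hc : HasDerivAt (fun s : ℂ => ((emb D α β A, e s) : Tup n r ℂ × (Fin (m + 1) → ℂ)))
          (0, e 1) 0 := (hasDerivAt_const (0 : ℂ) _).prodMk e.hasDerivAt
      have := hdiff.hasFDerivAt.comp_hasDerivAt_of_eq (0 : ℂ) hc
        (show (emb D α β A, (0 : Fin (m + 1) → ℂ)) = (emb D α β A, e 0) by rw [map_zero])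
      rw [hvel, velo, he]
      exact this.deriv.symm
    · obtain ⟨d, hd'⟩ := hd u hu
      let emt : (Fin m → ℂ) →L[ℂ] (Fin (m + 1) → ℂ) := ContinuousLinearMap.pi
        fun a => Fin.lastCases 0 (fun b => ContinuousLinearMap.proj b) a
      refine ⟨emt d, ?_⟩
      have hA' := det_emb h hA
      have he : ∀ t, F (emb D α β A, t) = F' (emb D α β A, emt t) := fun t => by
        have h1 : ini (emt t) = t := by funext a; simp [ini, emt]
        have h2 : emt t (Fin.last m) = 0 := by simp [emt]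
        simp only [F', h1, h2]
        exact (Gst_zero hst.1 i k (hF.inB A hA t).isRepB.1).symm
      have hc : HasDerivAt (fun s : ℂ => ((emb D α β A, s • d) : Tup n r ℂ × (Fin m → ℂ)))
          (0, d) 0 := (hasDerivAt_const (0 : ℂ) _).prodMk
        (((hasDerivAt_id (0 : ℂ)).smul_const d).congr_deriv (one_smul _ _))
      have hc' : HasDerivAt (fun s : ℂ => ((emb D α β A, emt (s • d)) :
          Tup n r ℂ × (Fin (m + 1) → ℂ))) (0, emt d) 0 :=
        (hasDerivAt_const (0 : ℂ) _).prodMk (emt.hasFDerivAt.comp_hasDerivAt (0 : ℂ)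
          (((hasDerivAt_id (0 : ℂ)).smul_const d).congr_deriv (one_smul _ _)))
      have d1 := (hF.smooth.differentiable one_ne_zero (emb D α β A, 0)).hasFDerivAt
        |>.comp_hasDerivAt_of_eq (0 : ℂ) hc (by simp)
      have d2 := hdiff.hasFDerivAt.comp_hasDerivAt_of_eq (0 : ℂ) hc' (by simp)
      rw [← hd']
      refine (d2.congr_of_eventuallyEq (Eventually.of_forall fun s => ?_)).unique d1
      exact he (s • d)

/-- `A ↦ D⁻ᵖ A D^q` on a pair of lag handles `i < j`. -/
noncomputable def preM (i j : Fin n) (p q : ℕ) (σ : Tup n r ℂ) : Tup n r ℂ :=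
  (sM qPsi i j)^[q] (sM qInv i j ((sM qPsi i j)^[p] (sM qInv i j σ)))

/-- The inverse of `preM`. -/
noncomputable def preM' (i j : Fin n) (p q : ℕ) (σ : Tup n r ℂ) : Tup n r ℂ :=
  sM qInv' i j ((sM qPhi i j)^[p] (sM qInv' i j ((sM qPhi i j)^[q] σ)))

theorem isMv_preM {i j : Fin n} (hij : i < j) (hi : i.1 < D.g) (hj : j.1 < D.g) (p q : ℕ) :
    IsMv D (preM (r := r) i j p q) (preM' i j p q) := by
  have a := isMv_sM (D := D) qPhi_psi contDiff_qPsi contDiff_qPhi hij hi (Or.inl hj)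
  have b := isMv_sM (D := D) qInv_left contDiff_qInv contDiff_qInv' hij hi (Or.inl hj)
  exact (a.iterate q).comp (b.comp ((a.iterate p).comp b))

theorem preM_of_ne {i j : Fin n} {k : Fin n × Bool} (hi : k.1 ≠ i) (hj : k.1 ≠ j) (p q : ℕ)
    (σ : Tup n r ℂ) : preM i j p q σ k = σ k ∧ preM' i j p q σ k = σ k := by
  simp [preM, preM', iterate_sM_of_ne _ hi hj, sM_of_ne _ _ hi hj]

theorem sM_qInv_lag {A : Fin l → Matrix (Fin r) (Fin r) ℂ} (hA : ∀ k, (A k).det = 1) {i j : Fin l}
    (hij : i < j) : sM qInv i j (lag A) = lag (Function.update A i (adjugate (A i))) := by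
  have hne : j ≠ i := ne_of_gt hij
  funext ⟨k, c⟩
  simp only [sM, slide, quadAt, qInv, mid_lag hA, lag, cond_false, cond_true, one_mul, mul_one,
    adjugate_one, cm, (mul_adj_cancel (hA i)).1]
  split_ifs with h1 h2
  · subst h1; cases c <;> simp
  · subst h2; cases c <;> simp [h1]
  · cases c <;> simp [h1]

theorem emb_eq (h : Base D l α β) {A B : Fin l → Matrix (Fin r) (Fin r) ℂ} {σ : Tup n r ℂ}
    (hres : h.res σ = lag B) (hout : ∀ k : Fin n × Bool, l ≤ k.1.1 → σ k = emb D α β A k) :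
    σ = emb D α β B := by
  funext ⟨k, c⟩
  by_cases hk : k.1 < l
  · rw [show k = h.emi ⟨k.1, hk⟩ from rfl, emb_lag]
    exact congrFun hres (⟨k.1, hk⟩, c)
  · rw [hout (k, c) (le_of_not_gt hk)]
    simp [emb, hk]

theorem res_iterate_psi (h : Base D l α β) (i j : Fin l) : ∀ (m : ℕ) (σ : Tup n r ℂ),
    h.res ((sM qPsi (h.emi i) (h.emi j))^[m] σ) = (psiM i j)^[m] (h.res σ)
  | 0, _ => rfl
  | m + 1, σ => by
    rw [Function.iterate_succ_apply', Function.iterate_succ_apply', res_sM,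
      res_iterate_psi h i j m]
    rfl

theorem ne_emi (h : Base D l α β) {k : Fin n} (hk : l ≤ k.1) (i : Fin l) : k ≠ h.emi i :=
  fun e => by have := i.2; rw [e] at hk; exact absurd hk (not_le.2 this)

theorem preM_emb (h : Base D l α β) {A : Fin l → Matrix (Fin r) (Fin r) ℂ}
    (hA : ∀ a, (A a).det = 1) {e f : Fin l} (hef : e < f) (p q : ℕ) :
    preM (h.emi e) (h.emi f) p q (emb D α β A) =
      emb D α β (Function.update A e (adjugate (A f) ^ p * A e * A f ^ q)) := by
  refine emb_eq h ?_ fun k hk => (preM_of_ne (ne_emi h hk e) (ne_emi h hk f) p q _).1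
  have hne : f ≠ e := ne_of_gt hef
  have hup : ∀ (B : Fin l → Matrix (Fin r) (Fin r) ℂ) M, (∀ a, (B a).det = 1) → M.det = 1 →
      ∀ a, (Function.update B e M a).det = 1 := fun B M hB hM a => by
    by_cases ha : a = e
    · subst ha; simpa using hM
    · simpa [ha] using hB a
  rw [preM, res_iterate_psi, res_sM, res_iterate_psi, res_sM, res_emb, sM_qInv_lag hA hef,
    psiM_iterate_lag (hup A _ hA (by rw [det_adjugate, hA, one_pow])) hef, Function.update_idem,
    Function.update_self, Function.update_of_ne hne,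
    sM_qInv_lag (hup A _ hA (by simp [det_adjugate, hA])) hef, Function.update_idem,
    Function.update_self, psiM_iterate_lag (hup A _ hA (by simp [det_adjugate, hA])) hef,
    Function.update_idem, Function.update_self, Function.update_of_ne hne]
  congr 1
  congr 1
  rw [adjugate_mul_distrib, ← adjugate_pow]
  congr 2
  obtain ⟨a1, -⟩ := mul_adj_cancel (hA e)
  obtain ⟨-, b2⟩ := mul_adj_cancel (show (adjugate (A e)).det = 1 by simp [det_adjugate, hA])
  calc adjugate (adjugate (A e)) = adjugate (adjugate (A e)) * (adjugate (A e) * A e) := by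
        rw [(mul_adj_cancel (hA e)).2, mul_one]
    _ = A e := by rw [← mul_assoc, b2, one_mul]

theorem hasDerivAt_expX {X : Matrix (Fin r) (Fin r) ℂ} (hX : trace X = 0) :
    Dif (fun s : ℂ => NormedSpace.exp (s • X)) 1 X ∧ ∀ s : ℂ, (NormedSpace.exp (s • X)).det = 1 := by
  have h := hasDerivAt_exp_smul_const (𝕂 := ℂ) X (0 : ℂ)
  rw [zero_smul, NormedSpace.exp_zero, one_mul] at h
  refine ⟨⟨by simp, det_one, hX, by rw [mul_one]; exact h⟩, ?_⟩
  exact det_eq_one_of_group (γ := fun s : ℂ => NormedSpace.exp (s • X))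
    (fun s t => by
      rw [add_smul, Matrix.exp_add_of_commute _ _ (((Commute.refl X).smul_left s).smul_right t)])
    (by simp) h hX

end Vale.Agent.P002.Bd
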