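import Vale.Agent.P002.Bd.Steps

/-!
# P002: the velocities of the flows cover the tangent directions outside the lag handles
-/

namespace Vale.Agent.P002.Bd

open Matrix Filter Topology
open scoped Matrix.Norms.Operator

set_option backward.isDefEq.respectTransparency false

variable {n r l : ℕ} {D : Pins n r} {α β : Matrix (Fin r) (Fin r) ℂ}

theorem mid_congr_cm {σ τ : Tup n r ℂ} (i j : Fin n)
    (h : ∀ k : Fin n, i.1 < k.1 → k.1 < j.1 → cm adjugate (σ (k, false)) (σ (k, true)) =
      cm adjugate (τ (k, false)) (τ (k, true))) :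
    mid adjugate i j σ = mid adjugate i j τ := by
  unfold mid
  congr 1
  apply List.ext_getElem
  · simp [cmList]
  · intro a h1 h2
    simp only [List.length_drop, List.length_take, cmList, List.length_ofFn] at h1
    simp only [List.getElem_drop, List.getElem_take, cmList, List.getElem_ofFn]
    exact h ⟨i.1 + 1 + a, by omega⟩ (by simp; omega) (by simp; omega)

theorem mid_eq_one {σ : Tup n r ℂ} (i j : Fin n)
    (h : ∀ k : Fin n, i.1 < k.1 → k.1 < j.1 → cm adjugate (σ (k, false)) (σ (k, true)) = 1) :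
    mid adjugate i j σ = 1 := by
  refine List.prod_eq_one fun x hx => ?_
  obtain ⟨a, ha, rfl⟩ := List.mem_iff_getElem.1 hx
  simp only [List.length_drop, List.length_take, cmList, List.length_ofFn] at ha
  simp only [List.getElem_drop, List.getElem_take, cmList, List.getElem_ofFn]
  exact h _ (by simp; omega) (by simp; omega)

theorem mid_last (h : Base D l α β) {A : Fin l → Matrix (Fin r) (Fin r) ℂ}
    (hA : ∀ a, (A a).det = 1) (i : Fin l) :
    mid adjugate (h.emi i) h.last (emb D α β A) = 1 :=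
  mid_eq_one _ _ fun k _ hk => by
    have hk' : k.1 < l := hk
    rw [show k = h.emi ⟨k.1, hk'⟩ from rfl, emb_lag, emb_lag]
    exact (cm_one_left (hA _)).2

theorem mid_pin (h : Base D l α β) {A B : Fin l → Matrix (Fin r) (Fin r) ℂ}
    (hA : ∀ a, (A a).det = 1) (hB : ∀ a, (B a).det = 1) (i : Fin l) (j : Fin n) :
    mid adjugate (h.emi i) j (emb D α β A) = mid adjugate (h.emi i) j (emb D α β B) :=
  mid_congr_cm _ _ fun k _ _ => by
    by_cases hk : k.1 < l
    · rw [show k = h.emi ⟨k.1, hk⟩ from rfl, emb_lag, emb_lag, emb_lag, emb_lag]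
      exact (cm_one_left (hA _)).2.trans (cm_one_left (hB _)).2.symm
    · simp [emb, hk]

/-- Slide, flow and slide back: the effect on the second handle. -/
theorem psi_flow {i j : Fin n} (hij : i < j) {σ : Tup n r ℂ} (hd : ∀ k, (σ k).det = 1)
    (hb : σ (i, true) = 1) (hm : mid adjugate i j σ = 1) {X : Matrix (Fin r) (Fin r) ℂ}
    (hX : X = tl (σ (i, false) * σ (j, false))) (s : ℂ) :
    sM qPsi i j σ (i, false) = σ (i, false) * σ (j, false) ∧
    sM qPhi i j (tau i 1 s (sM qPsi i j σ)) (j, false) =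
        adjugate (NormedSpace.exp (s • X)) * σ (j, false) * NormedSpace.exp (s • X) ∧
      sM qPhi i j (tau i 1 s (sM qPsi i j σ)) (j, true) =
        σ (j, true) * NormedSpace.exp (s • X) := by
  have hne : j ≠ i := ne_of_gt hij
  obtain ⟨c1, c2⟩ := mul_adj_cancel (hd (j, false))
  have e1 : sM qPsi i j σ (i, false) = σ (i, false) * σ (j, false) := by
    simp [sM_fst, qPsi, psiQ, quadAt, hm]
  have e2 : sM qPsi i j σ (i, true) = 1 := by
    simp [sM_fst, qPsi, psiQ, quadAt, hm, hb, c2]
  have e3 : sM qPsi i j σ (j, false) = σ (j, false) := by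
    simp [sM_snd, hne, qPsi, psiQ, quadAt, hm, hb, c2, adjugate_one]
  have e4 : sM qPsi i j σ (j, true) = σ (j, true) := by
    simp [sM_snd, hne, qPsi, psiQ, quadAt, hm, hb, c2, adjugate_one]
  have hm2 : mid adjugate i j (tau i 1 s (sM qPsi i j σ)) = 1 := by
    rw [← hm]
    refine mid_congr' adjugate i j fun k h1 h2 c => ?_
    have hki : k ≠ i := fun e => by subst e; omega
    have hkj : k ≠ j := fun e => by subst e; omega
    simp [tau, hki, sM_of_ne qPsi σ (k := (k, c)) hki hkj]
  have t1 : tau i 1 s (sM qPsi i j σ) (i, true) = NormedSpace.exp (s • X) := by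
    simp [tau, e1, e2, hX]
  have t3 : tau i 1 s (sM qPsi i j σ) (j, false) = σ (j, false) := by simp [tau, hne, e3]
  have t4 : tau i 1 s (sM qPsi i j σ) (j, true) = σ (j, true) := by simp [tau, hne, e4]
  refine ⟨e1, ?_, ?_⟩
  · simp [sM_snd, hne, qPhi, phiQ, quadAt, hm2, t1, t3]
  · simp [sM_snd, hne, qPhi, phiQ, quadAt, hm2, t1, t4]

/-- Puncture move, flow and back: the effect on the pinned handle. -/
theorem pun_flow (hr : r ≠ 0) {i j : Fin n} (hij : i < j) {σ : Tup n r ℂ} (hd : ∀ k, (σ k).det = 1)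
    (hb : σ (i, true) = 1) (hc : σ (j, false) = 1) {m z X : Matrix (Fin r) (Fin r) ℂ}
    (hm : mid adjugate i j σ = m) (hz : z = m * σ (j, true) * adjugate m)
    (hX : X = tl (σ (i, false) * z)) (s : ℂ) :
    sM qPun i j σ (i, false) = σ (i, false) * z ∧
    sM qPun' i j (tau i 1 s (sM qPun i j σ)) (j, false) =
        adjugate m * adjugate (NormedSpace.exp (s • X)) * m := by
  have hne : j ≠ i := ne_of_gt hij
  have hmd : m.det = 1 := hm ▸ det_mid hd i j
  obtain ⟨m1, m2⟩ := mul_adj_cancel hmd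
  have hzd : z.det = 1 := by rw [hz, det_mul, det_mul, det_adjugate, hmd, hd]; simp
  obtain ⟨z1, z2⟩ := mul_adj_cancel hzd
  have hq : quadAt adjugate i j σ = (σ (i, false), 1, 1, z) := by
    simp [quadAt, hb, hc, hm, hz, m1]
  have e1 : sM qPun i j σ (i, false) = σ (i, false) * z := by
    simp [sM_fst, hq, qPun, adjugate_one]
  have e2 : sM qPun i j σ (i, true) = 1 := by
    simp [sM_fst, hq, qPun, adjugate_one, z2]
  have e3 : sM qPun i j σ (j, false) = adjugate m * adjugate z * m := by
    simp [sM_snd, hne, hq, qPun, adjugate_one, hm, mul_assoc]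
  have e4 : sM qPun i j σ (j, true) = adjugate m * z * m := by
    simp [sM_snd, hne, hq, qPun, adjugate_one, hm, mul_assoc]
  refine ⟨e1, ?_⟩
  set b := NormedSpace.exp (s • X) with hbdef
  have hbd : b.det = 1 := (hasDerivAt_expX (by
    rw [hX]; exact trace_tl hr _)).2 s
  obtain ⟨b1, b2⟩ := mul_adj_cancel hbd
  have hm2 : mid adjugate i j (tau i 1 s (sM qPun i j σ)) = m := by
    rw [← hm]
    refine mid_congr' adjugate i j fun k h1 h2 c => ?_
    have hki : k ≠ i := fun e => by subst e; omega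
    have hkj : k ≠ j := fun e => by subst e; omega
    simp [tau, hki, sM_of_ne qPun σ (k := (k, c)) hki hkj]
  have hq2 : quadAt adjugate i j (tau i 1 s (sM qPun i j σ)) = (σ (i, false) * z, b, adjugate z, z) := by
    have c3 : m * (adjugate m * adjugate z * m) * adjugate m = adjugate z := by
      simp only [mul_assoc, m1, mul_one]; rw [← mul_assoc, m1, one_mul]
    have c4 : m * (adjugate m * z * m) * adjugate m = z := by
      simp only [mul_assoc, m1, mul_one]; rw [← mul_assoc, m1, one_mul]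
    have t0 : tau i 1 s (sM qPun i j σ) (i, false) = σ (i, false) * z := by simp [tau, e1]
    have t1 : tau i 1 s (sM qPun i j σ) (i, true) = b := by simp [tau, e1, e2, hbdef, hX]
    have t3 : tau i 1 s (sM qPun i j σ) (j, false) = adjugate m * adjugate z * m := by
      simp [tau, hne, e3]
    have t4 : tau i 1 s (sM qPun i j σ) (j, true) = adjugate m * z * m := by simp [tau, hne, e4]
    simp only [quadAt, hm2, t0, t1, t3, t4, c3, c4]
  rw [sM_snd _ hne, hq2, hm2]
  simp only [cond_false, qPun']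
  congr 2
  have hzz : adjugate z * z * adjugate (adjugate z) = z := by
    have := (mul_adj_cancel (show (adjugate z).det = 1 by simp [det_adjugate, hzd]))
    calc adjugate z * z * adjugate (adjugate z)
        = adjugate (adjugate z) := by rw [z2, one_mul]
      _ = z * adjugate z * adjugate (adjugate z) := by rw [z1, one_mul]
      _ = z := by rw [mul_assoc, this.1, mul_one]
  rw [hzz]
  calc adjugate b * z * b * adjugate b * adjugate z = adjugate b * z * (b * adjugate b) * adjugate z := by
        simp only [mul_assoc]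
    _ = adjugate b := by rw [b1, mul_one, mul_assoc, z1, mul_one]

theorem velo_coord {T T' : Tup n r ℂ → Tup n r ℂ} (hT : IsMv D T T') (i : Fin n) (k : ℕ)
    (σ : Tup n r ℂ) {c : Fin n × Bool} {φ : ℂ → Matrix (Fin r) (Fin r) ℂ}
    {d : Matrix (Fin r) (Fin r) ℂ} (hφ : ∀ s, Gst T T' i k s σ c = φ s) (hd : HasDerivAt φ d 0) :
    velo T T' i k σ c = d := by
  have h1 : HasDerivAt (fun s => Gst T T' i k s σ c) (velo T T' i k σ c) 0 :=
    hasDerivAt_pi.1 (hasDerivAt_velo hT i k σ) c
  simp only [hφ] at h1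
  exact h1.unique hd

/-- The word used for the flows. -/
noncomputable def word (A : Fin l → Matrix (Fin r) (Fin r) ℂ) (e f : Fin l) (p q : ℕ)
    (c : Matrix (Fin r) (Fin r) ℂ) : Matrix (Fin r) (Fin r) ℂ :=
  tl (adjugate (A f) ^ p * A e * A f ^ q * c)

/-- The set of velocities of admissible flows. -/
def Vel (D : Pins n r) (α β : Matrix (Fin r) (Fin r) ℂ) (l : ℕ)
    (A : Fin l → Matrix (Fin r) (Fin r) ℂ) : Set (Tup n r ℂ) :=
  {v | ∃ T T' i k, IsStep D α β l T T' i ∧ v = velo T T' i k (emb D α β A)}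

theorem diag_adj {lam : Fin r → ℂ} (h1 : ∏ a, lam a = 1) (h0 : ∀ a, lam a ≠ 0) :
    (diagonal lam).det = 1 ∧ adjugate (diagonal lam) = diagonal fun a => (lam a)⁻¹ := by
  have hs : Spec (diagonal lam) lam 1 1 := ⟨one_mul 1, by rw [one_mul, mul_one]⟩
  obtain ⟨h, h', -, -⟩ := hs.adjugate_eq h1 h0
  exact ⟨h, by rw [h', one_mul, mul_one]⟩

/-- The admissible target used to validate the flows through the words. -/
theorem exists_target (h : Base D l α β) {e f : Fin l} (hef : e < f) {lam : Fin r → ℂ}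
    (h1 : ∏ a, lam a = 1) (h0 : ∀ a, lam a ≠ 0) {c : Matrix (Fin r) (Fin r) ℂ} (hc : c.det = 1)
    (p q : ℕ) :
    ∃ A B : Fin l → Matrix (Fin r) (Fin r) ℂ, (∀ a, (A a).det = 1) ∧ (∀ a, (B a).det = 1) ∧
      preM (h.emi e) (h.emi f) p q (emb D α β A) = emb D α β B ∧
      B e * c = diagonal lam := by
  let A : Fin l → Matrix (Fin r) (Fin r) ℂ := Function.update 1 e (diagonal lam * adjugate c)
  have hA : ∀ a, (A a).det = 1 := fun a => by
    by_cases ha : a = e
    · subst ha; simp [A, det_adjugate, hc, (diag_adj h1 h0).1, det_diagonal, h1]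
    · simp [A, ha]
  refine ⟨A, A, hA, hA, ?_, ?_⟩
  · rw [preM_emb h hA hef]
    simp [A, Function.update_of_ne (ne_of_gt hef), adjugate_one]
  · simp [A, mul_assoc, (mul_adj_cancel hc).2]

theorem velo_handle (h : Base D l α β) {A : Fin l → Matrix (Fin r) (Fin r) ℂ}
    (hA : ∀ a, (A a).det = 1) {e f : Fin l} (hef : e < f) {lam : Fin r → ℂ} (hl : Indep lam)
    (h1 : ∏ a, lam a = 1) (h0 : ∀ a, lam a ≠ 0) (p q : ℕ) :
    (∃ v ∈ Vel D α β l A, v (h.last, false) = α * word A e f p q α - word A e f p q α * α ∧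
      v (h.last, true) = β * word A e f p q α ∧ ∀ k : Fin n, l < k.1 → ∀ c, v (k, c) = 0) ∧
    (∃ v ∈ Vel D α β l A, v (h.last, false) = -(word A e f p q (α * β) * α) ∧
      v (h.last, true) = β * word A e f p q (α * β) ∧ ∀ k : Fin n, l < k.1 → ∀ c, v (k, c) = 0) := by
  have hr : r ≠ 0 := by have := h.two_le; omega
  have hne : h.last ≠ h.emi e := ne_emi h le_rfl e
  have hnf : h.last ≠ h.emi f := ne_emi h le_rfl f
  have hpre := isMv_preM (D := D) (r := r) (h.emi_lt_emi hef) (h.emi_lt e) (h.emi_lt f) p q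
  have hpsi := isMv_sM (D := D) (r := r) qPhi_psi contDiff_qPsi contDiff_qPhi
    (h.emi_lt_last e) (h.emi_lt e) (Or.inl h.last_lt)
  have hatw := isMv_sM (D := D) (r := r) qAtw_left contDiff_qAtw contDiff_qAtw'
    (h.emi_lt_last e) (h.emi_lt e) (Or.inl h.last_lt)
  set A' := Function.update A e (adjugate (A f) ^ p * A e * A f ^ q) with hA'def
  have hA' : ∀ a, (A' a).det = 1 := fun a => by
    by_cases ha : a = e
    · subst ha; simp [A', det_pow, det_adjugate, hA]
    · simp [A', ha, hA]
  have hσ := det_emb (D := D) h hA'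
  have hout : ∀ {T' : Tup n r ℂ → Tup n r ℂ} (k : Fin n × Bool) (σ : Tup n r ℂ), l ≤ k.1.1 →
      preM' (h.emi e) (h.emi f) p q (T' σ) k = T' σ k := fun k σ hk =>
    (preM_of_ne (ne_emi h hk e) (ne_emi h hk f) p q _).2
  have hpins : ∀ {T T' : Tup n r ℂ → Tup n r ℂ},
      (∀ σ (k : Fin n × Bool), k.1 ≠ h.emi e → k.1 ≠ h.last → T σ k = σ k) →
      (∀ σ (k : Fin n × Bool), k.1 ≠ h.emi e → k.1 ≠ h.last → T' σ k = σ k) →
      ∀ (s : ℂ) (k : Fin n), l < k.1 → ∀ c,
        T' (tau (h.emi e) 1 s (T (emb D α β A'))) (k, c) = emb D α β A' (k, c) := by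
    intro T T' hT hT' s k hk c
    have h2 : k ≠ h.emi e := ne_emi h hk.le e
    have h3 : k ≠ h.last := fun e => by rw [e] at hk; exact lt_irrefl _ hk
    rw [hT' _ (k, c) h2 h3]
    simp only [tau, Function.update_apply]
    rw [if_neg (by simp [h2]), hT _ (k, c) h2 h3]
  have hval : ∀ (c : Matrix (Fin r) (Fin r) ℂ), c.det = 1 →
      ∀ (M : Tup n r ℂ → Tup n r ℂ),
      (∀ B : Fin l → Matrix (Fin r) (Fin r) ℂ, (∀ a, (B a).det = 1) →
        M (emb D α β B) (h.emi e, false) = B e * c) →
      ∃ (A : Fin l → Matrix (Fin r) (Fin r) ℂ) (lam : Fin r → ℂ)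
        (S S' : Matrix (Fin r) (Fin r) ℂ), (∀ a, (A a).det = 1) ∧ Indep lam ∧
          Spec (M (preM (h.emi e) (h.emi f) p q (emb D α β A)) (h.emi e, false)) lam S S' := by
    intro c hc M hM
    obtain ⟨A₁, B, hA₁, hB, hpe, hBc⟩ := exists_target h hef h1 h0 hc p q
    exact ⟨A₁, lam, 1, 1, hA₁, hl, one_mul 1, by rw [hpe, hM B hB, hBc, one_mul, mul_one]⟩
  constructor
  · let T : Tup n r ℂ → Tup n r ℂ := fun σ => sM qPsi (h.emi e) h.last (preM (h.emi e) (h.emi f) p q σ)
    let T' : Tup n r ℂ → Tup n r ℂ := fun σ => preM' (h.emi e) (h.emi f) p q (sM qPhi (h.emi e) h.last σ)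
    have hT : IsMv D T T' := hpsi.comp hpre
    set X := word A e f p q α
    have hXt : trace X = 0 := trace_tl hr _
    obtain ⟨hb, hbd⟩ := hasDerivAt_expX hXt
    have hflow := psi_flow (h.emi_lt_last e) hσ (by rw [emb_lag]; rfl) (mid_last h hA' e)
      (X := X) (by rw [emb_lag, emb_last]; simp [X, word, A'])
    refine ⟨_, ⟨T, T', h.emi e, 1, ⟨hT, h.emi_lt e, hval α h.detA (sM qPsi (h.emi e) h.last) fun B hB => ?_⟩, rfl⟩, ?_, ?_, ?_⟩
    · rw [(psi_flow (h.emi_lt_last e) (det_emb h hB) (by rw [emb_lag]; rfl) (mid_last h hB e)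
        rfl 0).1, emb_lag, emb_last]
      rfl
    · refine velo_coord hT _ _ _ (φ := fun s => adjugate (NormedSpace.exp (s • X)) * α *
        NormedSpace.exp (s • X)) (fun s => ?_) ?_
      · simp only [Gst, T, T', preM_emb h hA hef, ← hA'def]
        rw [hout _ _ le_rfl, (hflow s).2.1, emb_last]
        rfl
      · have := (hb.adj.mul (Dif.const h.detA)).mul hb
        refine this.der.congr_deriv ?_
        simp [adjugate_one]
        rw [add_mul, mul_assoc (α * X), (mul_adj_cancel h.detA).2, mul_one, neg_mul]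
        abel
    · refine velo_coord hT _ _ _ (φ := fun s => β * NormedSpace.exp (s • X)) (fun s => ?_) ?_
      · simp only [Gst, T, T', preM_emb h hA hef, ← hA'def]
        rw [hout _ _ le_rfl, (hflow s).2.2, emb_last]
        rfl
      · exact ((hb.der.const_mul β).congr_deriv (by rw [mul_one]))
    · intro k hk c
      refine velo_coord hT _ _ _ (φ := fun _ => emb D α β A' (k, c)) (fun s => ?_)
        (hasDerivAt_const (0 : ℂ) _)
      simp only [Gst, T, T', preM_emb h hA hef, ← hA'def]
      rw [hout _ _ hk.le]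
      exact hpins (fun σ k => sM_of_ne _ σ) (fun σ k => sM_of_ne _ σ) s k hk c
  · let M : Tup n r ℂ → Tup n r ℂ := fun σ => sM qPsi (h.emi e) h.last (sM qAtw (h.emi e) h.last σ)
    let M' : Tup n r ℂ → Tup n r ℂ := fun σ => sM qAtw' (h.emi e) h.last (sM qPhi (h.emi e) h.last σ)
    let T : Tup n r ℂ → Tup n r ℂ := fun σ => M (preM (h.emi e) (h.emi f) p q σ)
    let T' : Tup n r ℂ → Tup n r ℂ := fun σ => preM' (h.emi e) (h.emi f) p q (M' σ)
    have hM : IsMv D M M' := hpsi.comp hatw
    have hT : IsMv D T T' := hM.comp hpre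
    set X := word A e f p q (α * β)
    have hXt : trace X = 0 := trace_tl hr _
    obtain ⟨hb, hbd⟩ := hasDerivAt_expX hXt
    have hatwv : ∀ B : Fin l → Matrix (Fin r) (Fin r) ℂ, (∀ a, (B a).det = 1) →
        let σ := sM qAtw (h.emi e) h.last (emb D α β B)
        σ (h.emi e, false) = B e ∧ σ (h.emi e, true) = 1 ∧ σ (h.last, false) = α * β ∧
          σ (h.last, true) = β ∧ mid adjugate (h.emi e) h.last σ = 1 := by
      intro B hB σ
      refine ⟨?_, ?_, ?_, ?_, ?_⟩
      · simp [σ, sM_fst, qAtw, quadAt, emb_lag h]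
      · simp [σ, sM_fst, qAtw, quadAt, emb_lag h]
      · simp [σ, sM_snd, hne, qAtw, quadAt, emb_last h, mid_last h hB, adjugate_one]
      · simp [σ, sM_snd, hne, qAtw, quadAt, emb_last h, mid_last h hB, adjugate_one]
      · rw [← mid_last h hB e]
        refine mid_congr' adjugate _ _ fun k h2 h3 c => ?_
        exact sM_of_ne _ _ (fun e => by simp only at e; subst e; exact lt_irrefl _ h2)
          (fun e => by simp only at e; subst e; exact lt_irrefl _ h3)
    obtain ⟨a1, a2, a3, a4, a5⟩ := hatwv A' hA'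
    have hd1 := det_sM qAtw (i := h.emi e) (j := h.last) hσ
    have hflow := psi_flow (h.emi_lt_last e) hd1 a2 a5 (X := X)
      (by rw [a1, a3]; simp [X, word, A', mul_assoc])
    refine ⟨_, ⟨T, T', h.emi e, 1, ⟨hT, h.emi_lt e, hval (α * β) (by simp [h.detA, h.detB]) M
      fun B hB => ?_⟩, rfl⟩, ?_, ?_, ?_⟩
    · obtain ⟨b1, b2, b3, -, b5⟩ := hatwv B hB
      show sM qPsi _ _ _ _ = _
      rw [(psi_flow (h.emi_lt_last e) (det_sM qAtw (det_emb h hB)) b2 b5 rfl 0).1, b1, b3]
    · refine velo_coord hT _ _ _ (φ := fun s => adjugate (NormedSpace.exp (s • X)) * α)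
        (fun s => ?_) ?_
      · simp only [Gst, T, T', M, M', preM_emb h hA hef, ← hA'def]
        rw [hout _ _ le_rfl, sM_snd _ hne]
        have hd2 : ∀ c, (tau (h.emi e) 1 s
            (sM qPsi (h.emi e) h.last (sM qAtw (h.emi e) h.last (emb D α β A'))) c).det = 1 := by
          intro c
          have hd3 := det_sM qPsi (i := h.emi e) (j := h.last) hd1
          simp only [tau, Function.update_apply]
          split_ifs with hc
          · rw [det_mul, hd3, one_mul, (hflow s).1, a1, a3, pow_one,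
              show tl (A' e * (α * β)) = X by simp [X, word, A', mul_assoc], hbd]
          · exact hd3 c
        have hm : mid adjugate (h.emi e) h.last (sM qPhi (h.emi e) h.last (tau (h.emi e) 1 s
            (sM qPsi (h.emi e) h.last (sM qAtw (h.emi e) h.last (emb D α β A'))))) = 1 := by
          rw [← mid_last h hA' e]
          refine mid_congr' adjugate _ _ fun k h2 h3 c => ?_
          have k1 : k ≠ h.emi e := fun e => by subst e; exact lt_irrefl _ h2
          have k2 : k ≠ h.last := fun e => by subst e; exact lt_irrefl _ h3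
          rw [sM_of_ne _ _ (k := (k, c)) k1 k2]
          simp [tau, k1, sM_of_ne _ _ (k := (k, c)) k1 k2]
        simp only [qAtw', quadAt, hm, cond_false, one_mul, mul_one, adjugate_one, (hflow s).2.1,
          (hflow s).2.2, a3, a4, adjugate_mul_distrib]
        simp only [mul_assoc]
        rw [← mul_assoc (NormedSpace.exp (s • X)), (mul_adj_cancel (hbd s)).1, one_mul,
          (mul_adj_cancel h.detB).1, mul_one]
      · refine ((hb.adj.mul (Dif.const h.detA)).der).congr_deriv ?_
        simp [adjugate_one]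
    · refine velo_coord hT _ _ _ (φ := fun s => β * NormedSpace.exp (s • X)) (fun s => ?_) ?_
      · simp only [Gst, T, T', M, M', preM_emb h hA hef, ← hA'def]
        rw [hout _ _ le_rfl, sM_snd _ hne]
        have hm : mid adjugate (h.emi e) h.last (sM qPhi (h.emi e) h.last (tau (h.emi e) 1 s
            (sM qPsi (h.emi e) h.last (sM qAtw (h.emi e) h.last (emb D α β A'))))) = 1 := by
          rw [← mid_last h hA' e]
          refine mid_congr' adjugate _ _ fun k h2 h3 c => ?_
          have k1 : k ≠ h.emi e := fun e => by subst e; exact lt_irrefl _ h2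
          have k2 : k ≠ h.last := fun e => by subst e; exact lt_irrefl _ h3
          rw [sM_of_ne _ _ (k := (k, c)) k1 k2]
          simp [tau, k1, sM_of_ne _ _ (k := (k, c)) k1 k2]
        simp only [qAtw', quadAt, hm, cond_true, one_mul, mul_one, adjugate_one, (hflow s).2.2, a4]
      · exact ((hb.der.const_mul β).congr_deriv (by rw [mul_one]))
    · intro k hk c
      refine velo_coord hT _ _ _ (φ := fun _ => emb D α β A' (k, c)) (fun s => ?_)
        (hasDerivAt_const (0 : ℂ) _)
      simp only [Gst, T, T', preM_emb h hA hef, ← hA'def]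
      rw [hout _ _ hk.le]
      refine hpins (fun σ k a b => ?_) (fun σ k a b => ?_) s k hk c
      · simp [M, sM_of_ne _ _ a b]
      · simp [M', sM_of_ne _ _ a b]

theorem velo_pin (h : Base D l α β) {A : Fin l → Matrix (Fin r) (Fin r) ℂ}
    (hA : ∀ a, (A a).det = 1) {e f : Fin l} (hef : e < f) {lam : Fin r → ℂ} (hl : Indep lam)
    (h1 : ∏ a, lam a = 1) (h0 : ∀ a, lam a ≠ 0) {j : Fin n} (hj : l < j.1) :
    ∃ m c : Matrix (Fin r) (Fin r) ℂ, m.det = 1 ∧ c.det = 1 ∧ ∀ p q : ℕ,
      ∃ v ∈ Vel D α β l A, v (j, false) = -(adjugate m * word A e f p q c * m) ∧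
        ∀ k : Fin n × Bool, l ≤ k.1.1 → k ≠ (j, false) → v k = 0 := by
  have hr : r ≠ 0 := by have := h.two_le; omega
  set m := mid adjugate (h.emi e) j (emb D α β A) with hm
  have hmd : m.det = 1 := det_mid (det_emb h hA) _ _
  set z := m * D.J j * adjugate m with hzdef
  have hzd : z.det = 1 := by simp [hzdef, det_adjugate, hmd, h.detJ]
  refine ⟨m, z, hmd, hzd, fun p q => ?_⟩
  have hje : j ≠ h.emi e := ne_emi h hj.le e
  have hlt : h.emi e < j := show (h.emi e).1 < j.1 from lt_trans (show (h.emi e).1 < l from e.2) hj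
  have hpre := isMv_preM (D := D) (r := r) (h.emi_lt_emi hef) (h.emi_lt e) (h.emi_lt f) p q
  have hpun := isMv_sM (D := D) (r := r) qPun_left contDiff_qPun contDiff_qPun'
    hlt (h.emi_lt e) (Or.inr ⟨qPun_fix, qPun'_fix⟩)
  let T : Tup n r ℂ → Tup n r ℂ := fun σ => sM qPun (h.emi e) j (preM (h.emi e) (h.emi f) p q σ)
  let T' : Tup n r ℂ → Tup n r ℂ := fun σ => preM' (h.emi e) (h.emi f) p q (sM qPun' (h.emi e) j σ)
  have hT : IsMv D T T' := hpun.comp hpre
  set A' := Function.update A e (adjugate (A f) ^ p * A e * A f ^ q) with hA'def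
  have hA' : ∀ a, (A' a).det = 1 := fun a => by
    by_cases ha : a = e
    · subst ha; simp [A', det_pow, det_adjugate, hA]
    · simp [A', ha, hA]
  set X := word A e f p q z
  have hXt : trace X = 0 := trace_tl hr _
  obtain ⟨hb, -⟩ := hasDerivAt_expX hXt
  have hflow : ∀ (B : Fin l → Matrix (Fin r) (Fin r) ℂ), (∀ a, (B a).det = 1) → ∀ s : ℂ,
      sM qPun (h.emi e) j (emb D α β B) (h.emi e, false) = B e * z ∧
      sM qPun' (h.emi e) j (tau (h.emi e) 1 s (sM qPun (h.emi e) j (emb D α β B))) (j, false) =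
        adjugate m * adjugate (NormedSpace.exp (s • tl (B e * z))) * m := by
    intro B hB s
    have := pun_flow hr (σ := emb D α β B) hlt (det_emb h hB) (by rw [emb_lag]; rfl)
      (by rw [emb_pin B hj]; rfl) (m := m) (z := z) (mid_pin h hB hA e j)
      (by rw [emb_pin B hj]; rfl) rfl s
    rwa [emb_lag] at this
  refine ⟨_, ⟨T, T', h.emi e, 1, ⟨hT, h.emi_lt e, ?_⟩, rfl⟩, ?_, ?_⟩
  · obtain ⟨A₁, B, hA₁, hB, hpe, hBc⟩ := exists_target h hef h1 h0 hzd p q
    refine ⟨A₁, lam, 1, 1, hA₁, hl, one_mul 1, ?_⟩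
    simp only [T, hpe, (hflow B hB 0).1, hBc, one_mul, mul_one]
  · refine velo_coord hT _ _ _ (φ := fun s => adjugate m * adjugate (NormedSpace.exp (s • X)) * m)
      (fun s => ?_) ?_
    · simp only [Gst, T, T', preM_emb h hA hef, ← hA'def]
      rw [(preM_of_ne (ne_emi h hj.le e) (ne_emi h hj.le f) p q _).2, (hflow A' hA' s).2]
      simp [X, word, A']
    · have := hb.adj.der
      refine ((this.const_mul (adjugate m)).mul_const m).congr_deriv ?_
      simp [adjugate_one]
  · intro k hk hne
    refine velo_coord hT _ _ _ (φ := fun _ => emb D α β A' k) (fun s => ?_)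
      (hasDerivAt_const (0 : ℂ) _)
    simp only [Gst, T, T', preM_emb h hA hef, ← hA'def]
    rw [(preM_of_ne (ne_emi h hk e) (ne_emi h hk f) p q _).2]
    have hke := ne_emi h hk e
    by_cases hkj : k.1 = j
    · obtain ⟨k1, c⟩ := k
      simp only at hkj
      subst hkj
      cases c
      · exact absurd rfl hne
      · have hd : ∀ c', (tau (h.emi e) 1 s (sM qPun (h.emi e) k1 (emb D α β A')) c').det = 1 := by
          intro c'
          simp only [tau, Function.update_apply]
          split_ifs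
          · rw [det_mul, det_sM qPun (det_emb h hA'), one_mul,
              (hasDerivAt_expX (X := tl (sM qPun (h.emi e) k1 (emb D α β A') (h.emi e, false) ^ 1))
                (trace_tl hr _)).2]
          · exact det_sM qPun (det_emb h hA') c'
        have hp1 : IsPin D (sM qPun (h.emi e) k1 (emb D α β A')) :=
          pin_sM D qPun hlt (h.emi_lt e) (Or.inr qPun_fix) (det_emb h hA') (isRepB_emb h hA').2.2
        have hp2 : IsPin D (tau (h.emi e) 1 s (sM qPun (h.emi e) k1 (emb D α β A'))) := by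
          intro a ha
          have : a ≠ h.emi e := fun e' => by
            subst e'; exact absurd (h.emi_lt e) (not_lt.2 ha)
          simpa [tau, this] using hp1 a ha
        have hg : D.g ≤ k1.1 := by
          have := h.genus; have hj' : l < k1.1 := hj; omega
        rw [pin_sM D qPun' hlt (h.emi_lt e) (Or.inr qPun'_fix) hd hp2 k1 hg]
        exact ((isRepB_emb h hA').2.2 k1 hg).symm
    · rw [sM_of_ne _ _ hke hkj]
      simp only [tau, Function.update_apply]
      rw [if_neg (fun e' => hke (by rw [e'])), sM_of_ne _ _ hke hkj]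

/-- The velocities of the flows at the lag handles. -/
theorem velo_lag (h : Base D l α β) {A W W' : Fin l → Matrix (Fin r) (Fin r) ℂ} {lam : Fin r → ℂ}
    (hfr : Frame A W W' lam) {i j : Fin l} {m : ℕ} (hij : i < j ∨ m = 0) (k : ℕ) :
    ∃ v ∈ Vel D α β l A, h.res v = vstep A i j m k ∧
      ∀ c : Fin n × Bool, l ≤ c.1.1 → v c = 0 := by
  let T : Tup n r ℂ → Tup n r ℂ := (sM qPsi (h.emi i) (h.emi j))^[m]
  let T' : Tup n r ℂ → Tup n r ℂ := (sM qPhi (h.emi i) (h.emi j))^[m]
  have hT : IsMv D T T' := by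
    rcases hij with hij | rfl
    · exact (isMv_sM qPhi_psi contDiff_qPsi contDiff_qPhi (h.emi_lt_emi hij) (h.emi_lt i)
        (Or.inl (h.emi_lt j))).iterate m
    · exact isMv_id
  have hresT' : ∀ (m : ℕ) (σ : Tup n r ℂ),
      h.res ((sM qPhi (h.emi i) (h.emi j))^[m] σ) = (phiM i j)^[m] (h.res σ) := by
    intro m
    induction m with
    | zero => intro σ; rfl
    | succ m ih =>
      intro σ
      rw [Function.iterate_succ_apply', Function.iterate_succ_apply', res_sM, ih]
      rfl
  have hG : ∀ s, h.res (Gst T T' (h.emi i) k s (emb D α β A)) = G i j m k s (lag A) := by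
    intro s
    simp only [Gst, T, T', hresT', res_tau, res_iterate_psi, res_emb, G]
  obtain ⟨q, hq⟩ := psiM_iterate_special hfr hij
  refine ⟨_, ⟨T, T', h.emi i, k, ⟨hT, h.emi_lt i, Lmat W W' lam q, lam, W i, W' i,
    Lmat_det hfr q, hfr.indep, ?_⟩, rfl⟩, ?_, ?_⟩
  · have : T (emb D α β (Lmat W W' lam q)) (h.emi i, false) = A i := by
      have e := congrFun (res_iterate_psi h i j m (emb D α β (Lmat W W' lam q))) (i, false)
      rw [res_emb, hq] at e
      exact e
    rw [this]; exact hfr.spec i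
  · funext c
    have hd : HasDerivAt (fun s => G i j m k s (lag A)) (vstep A i j m k) 0 :=
      ((contDiff_G (F := fun _ : ℂ => lag A) contDiff_const contDiff_id i j m k).differentiable
        one_ne_zero 0).hasDerivAt
    exact velo_coord hT _ _ _ (fun s => congrFun (hG s) c) (hasDerivAt_pi.1 hd c)
  · intro c hc
    refine velo_coord hT _ _ _ (φ := fun _ => emb D α β A c) (fun s => ?_)
      (hasDerivAt_const (0 : ℂ) _)
    simp only [Gst, T, T']
    rw [iterate_sM_of_ne _ (ne_emi h hc i) (ne_emi h hc j)]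
    simp only [tau, Function.update_apply]
    rw [if_neg (fun e' => ne_emi h hc i (by rw [e'])),
      iterate_sM_of_ne _ (ne_emi h hc i) (ne_emi h hc j)]

end Vale.Agent.P002.Bd
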